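import Vale.Agent.P134.H765.S3Prof
import Vale.Agent.P134.M4.Assembly

set_option linter.all false

/-! Final assembly: De Giorgi's conjecture in dimension four from the remaining interface
statements. -/

namespace Vale.Agent.P134.H765

open Vale.Agent.P134 Vale.Agent.P134.LI MeasureTheory Filter Topology
open scoped InnerProductSpace Laplacian

/-- `qq = 0` is equivalent to the vanishing of the deficit. -/
lemma defi_eq_qq {u : R3 → ℝ} (hu : Sol u) (hlt : ∀ x, |u x| < 1) (x : R3) :
    defi u x = psi u x ^ 2 / 2 * qq u x := by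
  have hd : ∀ x, DifferentiableAt ℝ u x := fun x => hu.c2.differentiable (by norm_num) x
  have hlt' : ∀ x, 0 < 1 + u x ∧ 0 < 1 - u x := fun x => by
    have := abs_lt.mp (hlt x); constructor <;> linarith
  have hps : 0 < psi u x := by
    unfold psi
    nlinarith [(hlt' x).1, (hlt' x).2]
  have h2 : √2 ^ 2 = 2 := Real.sq_sqrt (by norm_num)
  have hp : ∀ i, pd i (phi u) x = √2 * pd i u x / psi u x := by
    intro i
    have p1 := (hlt' x).1
    have p2 := (hlt' x).2
    have d1 : DifferentiableAt ℝ (fun y => 1 + u y) x := (hd x).const_add 1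
    have d2 : DifferentiableAt ℝ (fun y => 1 - u y) x := (hd x).const_sub 1
    have e1 : pd i (fun y => 1 + u y) x = pd i u x := by
      rw [pd_add (by fun_prop) (hd x), pd_const, zero_add]
    have e2 : pd i (fun y => 1 - u y) x = - pd i u x := by
      rw [pd_sub (by fun_prop) (hd x), pd_const, zero_sub]
    have e3 : phi u = fun y => Real.sqrt 2 / 2 * (Real.log (1 + u y) - Real.log (1 - u y)) := rfl
    have d3 : DifferentiableAt ℝ (fun y => Real.log (1 + u y) - Real.log (1 - u y)) x :=
      (d1.log p1.ne').sub (d2.log p2.ne')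
    rw [e3, pd_mul (f := fun _ => √2 / 2) (by fun_prop) d3, pd_const,
      pd_sub (d1.log p1.ne') (d2.log p2.ne'),
      pd_comp (h := Real.log) (Real.differentiableAt_log p1.ne') d1,
      pd_comp (h := Real.log) (Real.differentiableAt_log p2.ne') d2, e1, e2,
      Real.deriv_log, Real.deriv_log]
    have p3 : psi u x = (1 + u x) * (1 - u x) := by unfold psi; ring
    rw [p3]
    field_simp
    ring
  unfold qq SM.gs defi
  simp_rw [hp, div_pow, mul_pow, h2]
  rw [← Finset.sum_div, ← Finset.mul_sum]
  field_simp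

/-- The class `Hyp` version of S3 in terms of the deficit. -/
theorem defi_zero_of_StS3 (hS : StS3) {V : R3 → ℝ} (hV : Sol V) (hH : Hyp (VV V)) (x : R3) :
    defi V x = 0 := by
  rcases hV.psi_dichotomy with h0 | hpos
  · have h1 := defi_le V x
    rw [h0] at h1
    have h2 := hV.defi_nonneg x
    norm_num at h1
    linarith
  · have hlt : ∀ x, |V x| < 1 := by
      intro x
      have h1 := hpos x
      unfold psi at h1
      rw [abs_lt]
      constructor <;> nlinarith
    rw [defi_eq_qq hV hlt, hS V ⟨hV, hlt, hH⟩ x, mul_zero]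

/-- Rigidity of the profiles from S3. -/
theorem profRigid_of_StS3 (hT : StT4) (hS : StS3) : ProfRigid 4 3 := by
  intro u U hu hpos hU hlim
  have hinv : ∀ x (t : ℝ), U (x + t • Pi.single 3 1) = U x := by
    intro x t
    have h4 : Tendsto (fun s : ℝ => u (x + (s + t) • Pi.single 3 1)) atTop (𝓝 (U x)) :=
      (hlim x).comp (tendsto_atTop_add_const_right atTop t tendsto_id)
    have h5 := hlim (x + t • Pi.single 3 1)
    have e : (fun s : ℝ => u (x + t • Pi.single 3 1 + s • Pi.single 3 1))
        = fun s : ℝ => u (x + (s + t) • Pi.single 3 1) := by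
      funext s
      congr 1
      rw [add_smul]; abel
    rw [e] at h5
    exact tendsto_nhds_unique h5 h4
  have hinv' : ∀ x (t : ℝ), U (x + t • Pi.single (Fin.last 3) 1) = U x := hinv
  have dU : Differentiable ℝ U := hU.c2.differentiable (by norm_num)
  intro x
  have h1 := defi_zero_of_StS3 hS (Sol.res hU hinv') (hT u U hu hpos hU hlim) (Fin.init x)
  -- the deficit of `U` at `x` is the deficit of the restriction
  have hsnoc : x = Fin.snoc (Fin.init x) 0 + x (Fin.last 3) • Pi.single (Fin.last 3) 1 := by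
    funext k
    refine Fin.lastCases ?_ (fun j => ?_) k
    · simp only [Pi.add_apply, Pi.smul_apply, smul_eq_mul, Pi.single_eq_same, mul_one,
        Fin.snoc_last]
      ring
    · simp only [Pi.add_apply, Pi.smul_apply, smul_eq_mul, Fin.snoc_castSucc, Fin.init,
        Pi.single_apply, if_neg (Fin.castSucc_lt_last j).ne]
      ring
  have htr : (fun z => U (z + x (Fin.last 3) • Pi.single (Fin.last 3) 1)) = U :=
    funext fun z => hinv' z _
  have hpdx : ∀ i, pd i U x = pd i U (Fin.snoc (Fin.init x) 0) := by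
    intro i
    conv_lhs => rw [hsnoc]
    rw [← pd_translate (f := U) (x (Fin.last 3) • Pi.single (Fin.last 3) 1), htr]
  have hUx : U x = U (Fin.snoc (Fin.init x) 0) := by
    conv_lhs => rw [hsnoc]
    exact hinv' _ _
  have h2 : defi U x = defi (res U) (Fin.init x) := by
    unfold defi psi
    rw [Fin.sum_univ_castSucc, hUx, hpdx (Fin.last 3), pd_last_zero dU hinv']
    simp_rw [hpdx, pd_res dU, emb_apply]
    unfold res
    ring
  rw [h2, h1]

theorem savinCase (hA : M4.StA) (hB : M4.StB) (hC : M4.StC) (hD : M4.StD) (hE : M4.StE)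
    (hF : M4.StF) : SavinCase 4 3 := by
  intro u hu hpos h1 h2
  obtain ⟨e, g, he, hg⟩ := M4.main hA hB hC hD hE hF ⟨hu, hpos, h1, h2⟩
  exact ⟨e, he, g, hg⟩

/-- De Giorgi's conjecture in dimension four, from the interface statements. -/
theorem q1_dim4 (hT : StT4) (hS : StS3) (hA : M4.StA) (hB : M4.StB) (hC : M4.StC) (hD : M4.StD)
    (hE : M4.StE) (hF : M4.StF) {u : EuclideanSpace ℝ (Fin 4) → ℝ} (hu : ContDiff ℝ 2 u)
    (heq : ∀ x, Δ u x = u x ^ 3 - u x) (hb : ∀ x, |u x| ≤ 1)
    {a : EuclideanSpace ℝ (Fin 4)} (ha : ∀ x, 0 < fderiv ℝ u x a) :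
    ∃ (e : EuclideanSpace ℝ (Fin 4)) (c : ℝ), ‖e‖ = 1 ∧
      ∀ x, u x = Real.tanh ((⟪e, x⟫_ℝ - c) / √2) :=
  final_euclid le_rfl (profRigid_of_StS3 hT hS) (savinCase hA hB hC hD hE hF) hu heq hb ha

end Vale.Agent.P134.H765
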