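import Vale.Agent.P134.H765.FCS4
import Vale.Agent.P134.H765.Q14

set_option linter.all false

/-! Bounded stable solutions on `ℝ³` from S3. -/

namespace Vale.Agent.P134.H765

open Vale.Agent.P134 Vale.Agent.P134.SM Filter Topology MeasureTheory
open scoped InnerProductSpace Laplacian

variable {n : ℕ} {f g u v w V W φ η ζ : (Fin n → ℝ) → ℝ} {x : Fin n → ℝ} {i j : Fin n}

/-! ### Bounded solutions are bounded by one -/

lemma le_one_of_bdd {M : ℝ} (hu : ContDiff ℝ 2 u) (heq : ∀ x, ∑ i, pd i (pd i u) x = u x ^ 3 - u x)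
    (hb : ∀ x, u x ≤ M) (x : Fin n → ℝ) : u x ≤ 1 := by
  have hbd : BddAbove (Set.range u) := ⟨M, by rintro _ ⟨x, rfl⟩; exact hb x⟩
  set s : ℝ := sSup (Set.range u) with hs
  have hle : ∀ x, u x ≤ s := fun x => le_csSup hbd ⟨x, rfl⟩
  by_contra hneg
  push Not at hneg
  have hs1 : 1 < s := hneg.trans_le (hle x)
  have hn : (0:ℝ) ≤ n := Nat.cast_nonneg n
  set κ : ℝ := (s - 1) / (2 * n + 2) with hκ
  have hκ0 : 0 < κ := by rw [hκ]; exact div_pos (by linarith) (by linarith)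
  have hκs : (2 * n + 2) * κ = s - 1 := by rw [hκ]; field_simp
  have hκ2 : κ ≤ (s - 1) / 2 := by nlinarith
  obtain ⟨_, ⟨x0, rfl⟩, hx0⟩ := exists_lt_of_lt_csSup (Set.range_nonempty u)
    (show s - κ < sSup (Set.range u) by rw [← hs]; linarith)
  set v : (Fin n → ℝ) → ℝ := fun x => u x - κ * esq (x - x0) with hv
  have he2 : ContDiff ℝ 2 (fun x : Fin n → ℝ => esq (x - x0)) := esq_contDiff x0
  have hv2 : ContDiff ℝ 2 v := hu.sub (contDiff_const.mul he2)
  have he0 : esq (x0 - x0) = 0 := by rw [sub_self]; unfold esq; simp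
  have hvx0 : v x0 = u x0 := by rw [hv]; simp only [he0]; ring
  obtain ⟨p, hp, hpmax⟩ := (isCompact_esq_le x0 1).exists_isMaxOn
    ⟨x0, by show esq (x0 - x0) ≤ 1; rw [he0]; norm_num⟩ hv2.continuous.continuousOn
  have hpv : v x0 ≤ v p := hpmax (show esq (x0 - x0) ≤ 1 by rw [he0]; norm_num)
  have hp1 : esq (p - x0) < 1 := by
    rcases lt_or_eq_of_le (show esq (p - x0) ≤ 1 from hp) with h | h
    · exact h
    · exfalso
      have h1 : v p = u p - κ := by rw [hv]; simp only [h]; ring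
      have h2 := hle p
      rw [hvx0, h1] at hpv
      linarith
  have hloc : IsLocalMax v p := by
    have hopen : IsOpen {x : Fin n → ℝ | esq (x - x0) < 1} :=
      isOpen_lt (continuous_esq_sub x0) continuous_const
    filter_upwards [hopen.mem_nhds hp1] with y hy
    exact hpmax (show esq (y - x0) ≤ 1 from (show esq (y - x0) < 1 from hy).le)
  have h1 : SM.lap v p ≤ 0 := Finset.sum_nonpos fun i _ => pd2_nonpos_of_isLocalMax hv2 hloc i
  have h2 : SM.lap (fun x : Fin n → ℝ => esq (x - x0)) p = 2 * n := by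
    unfold SM.lap
    have e : ∀ i, pd i (fun x : Fin n → ℝ => esq (x - x0)) = fun x => 2 * (x i - x0 i) :=
      fun i => funext fun x => pd_esq x0 i x
    have : ∀ i, pd i (fun x : Fin n → ℝ => 2 * (x i - x0 i)) p = 2 := by
      intro i
      rw [pd_mul (f := fun _ => (2:ℝ)) (by fun_prop) (by fun_prop), pd_const,
        pd_sub (by fun_prop) (by fun_prop), pd_const, pd_coord]
      simp
    simp_rw [e, this]
    simp; ring
  have h3 : SM.lap v p = (u p ^ 3 - u p) - κ * (2 * n) := by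
    rw [hv, lap_sub hu (contDiff_const.mul he2), lap_smul κ he2, h2]
    congr 1
    exact heq p
  have h4 : (s + 1) / 2 ≤ u p := by
    have h5 : v p ≤ u p := by
      rw [hv]; simp only
      have := mul_nonneg hκ0.le (esq_nonneg (p - x0))
      linarith
    rw [hvx0] at hpv
    linarith
  have h6 : s - 1 ≤ u p ^ 3 - u p := by
    have h7 : 1 ≤ u p := by linarith
    have h8 : 0 ≤ (u p - 1) * (u p * (u p + 1) - 2) := mul_nonneg (by linarith) (by nlinarith)
    have h9 : u p ^ 3 - u p = (u p - 1) * (u p * (u p + 1) - 2) + 2 * (u p - 1) := by ring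
    rw [h9]; linarith
  have h10 : κ * (2 * n) < s - 1 := by
    rw [← hκs]; nlinarith
  linarith

/-! ### Stable solutions belong to the class `Hyp` -/

lemma VV_lip (n : ℕ) : ∃ L : ℝ, 0 ≤ L ∧ ∀ u : (Fin n → ℝ) → ℝ, Sol u → ∀ x y,
    |(3 * u x ^ 2 - 1) - (3 * u y ^ 2 - 1)| ≤ L * ‖x - y‖ := by
  obtain ⟨C, hC1, hC⟩ := Sol.exists_DB n 1
  refine ⟨6 * C, by linarith, fun u hu x y => ?_⟩
  have h1 := hC u hu [x - y] (by simp) y
  simp only [dl_cons, dl_nil, List.map_cons, List.map_nil, List.prod_cons, List.prod_nil,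
    mul_one] at h1
  rw [add_sub_cancel] at h1
  have h2 : (3 * u x ^ 2 - 1) - (3 * u y ^ 2 - 1) = 3 * (u x + u y) * (u x - u y) := by ring
  rw [h2, abs_mul]
  have h3 : |3 * (u x + u y)| ≤ 6 := by
    have := abs_le.mp (hu.bd x)
    have := abs_le.mp (hu.bd y)
    rw [abs_le]; constructor <;> linarith
  calc |3 * (u x + u y)| * |u x - u y| ≤ 6 * (C * ‖x - y‖) :=
        mul_le_mul h3 h1 (abs_nonneg _) (by norm_num)
    _ = _ := by ring

lemma VV_abs (hu : Sol u) (x : Fin n → ℝ) : |3 * u x ^ 2 - 1| ≤ 2 := by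
  have h1 := abs_le.mp (hu.bd x)
  have h2 : u x ^ 2 ≤ 1 := by nlinarith
  rw [abs_le]; constructor <;> nlinarith [sq_nonneg (u x)]

/-- Stable solutions admit bounded approximate Riccati fields, universal constant. -/
theorem hypN_of_stable (hu : Sol u) (hs : StabV (fun x => 3 * u x ^ 2 - 1)) :
    H491.HypN n (n * H283.cH n (cF n 2)) (fun x => 3 * u x ^ 2 - 1) := by
  obtain ⟨L, hL0, hL⟩ := VV_lip n
  exact hypN_of_stab hL0 (hL u hu) (VV_abs hu) hs

theorem hyp_of_stable {u : LI.R3 → ℝ} (hu : Sol u) (hs : StabV (fun x => 3 * u x ^ 2 - 1)) :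
    LI.Hyp (LI.VV u) := H491.hyp_of_hypN (hypN_of_stable hu hs)

/-- Stable bounded solutions on `ℝ³` are one-dimensional, from S3 (coordinates). -/
theorem stable_coord (hS : LI.StS3) {u : LI.R3 → ℝ} (hu : Sol u)
    (hs : StabV (fun x => 3 * u x ^ 2 - 1)) :
    (∀ x, u x = 1) ∨ (∀ x, u x = -1) ∨ ∃ ν : Fin 3 → ℝ, ∑ i, ν i ^ 2 = 1 ∧ ∃ c : ℝ,
      ∀ x, u x = Real.tanh ((∑ i, ν i * x i - c) / √2) := by
  have hD := defi_zero_of_StS3 hS hu (hyp_of_stable hu hs)
  rcases rigid_form hu hD with h | h | ⟨ν, hν, -, c, hc⟩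
  · exact Or.inl h
  · exact Or.inr (Or.inl h)
  · refine Or.inr (Or.inr ⟨ν, hν, -c, fun x => ?_⟩)
    rw [hc, gp_eq_tanh, sub_neg_eq_add]

/-! ### Euclidean form -/

lemma norm_sq_dual (b : OrthonormalBasis (Fin n) ℝ (EuclideanSpace ℝ (Fin n)))
    (L : EuclideanSpace ℝ (Fin n) →L[ℝ] ℝ) : ‖L‖ ^ 2 = ∑ i, L (b i) ^ 2 := by
  set v := (InnerProductSpace.toDual ℝ (EuclideanSpace ℝ (Fin n))).symm L with hv
  have h1 : ‖L‖ = ‖v‖ := by rw [hv, LinearIsometryEquiv.norm_map]
  have h2 : ∀ x, L x = ⟪v, x⟫_ℝ := fun x => by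
    rw [hv, InnerProductSpace.toDual_symm_apply]
  rw [h1, ← b.sum_sq_norm_inner_right v]
  refine Finset.sum_congr rfl fun i _ => ?_
  rw [h2, Real.norm_eq_abs, sq_abs, real_inner_comm]

/-- Stability of `u` on Euclidean space: nonnegative second variation on smooth compactly
supported functions. -/
def StableE (u : EuclideanSpace ℝ (Fin n) → ℝ) : Prop :=
  ∀ η : EuclideanSpace ℝ (Fin n) → ℝ, ContDiff ℝ (⊤ : ℕ∞) η → HasCompactSupport η →
    0 ≤ ∫ x, (‖fderiv ℝ η x‖ ^ 2 + (3 * u x ^ 2 - 1) * η x ^ 2)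

lemma coordMap_std (y : Fin n → ℝ) :
    coordMap (EuclideanSpace.basisFun (Fin n) ℝ) y = WithLp.toLp 2 y := by
  rw [coordMap_apply]
  ext k
  simp [Pi.single_apply]

theorem stabV_of_stableE {u : EuclideanSpace ℝ (Fin n) → ℝ} (hs : StableE u) :
    StabV (fun y => 3 * u (0 + coordMap (EuclideanSpace.basisFun (Fin n) ℝ) y) ^ 2 - 1) := by
  intro η hη
  set b := EuclideanSpace.basisFun (Fin n) ℝ with hb
  let E := EuclideanSpace.equiv (Fin n) ℝ
  set F : EuclideanSpace ℝ (Fin n) → ℝ := fun x => η (E x) with hF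
  have hFc : ContDiff ℝ (⊤ : ℕ∞) F := hη.1.comp E.contDiff
  have hFs : HasCompactSupport F := hη.2.comp_homeomorph E.toHomeomorph
  have h1 := hs F hFc hFs
  have hmp := PiLp.volume_preserving_toLp (Fin n)
  have h2 : ∫ x, (‖fderiv ℝ F x‖ ^ 2 + (3 * u x ^ 2 - 1) * F x ^ 2)
      = ∫ y, (‖fderiv ℝ F (WithLp.toLp 2 y)‖ ^ 2
        + (3 * u (WithLp.toLp 2 y) ^ 2 - 1) * F (WithLp.toLp 2 y) ^ 2) :=
    (hmp.integral_comp (MeasurableEquiv.toLp 2 (Fin n → ℝ)).measurableEmbedding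
      (fun x => ‖fderiv ℝ F x‖ ^ 2 + (3 * u x ^ 2 - 1) * F x ^ 2)).symm
  rw [h2] at h1
  refine h1.trans (le_of_eq ?_)
  refine integral_congr_ae (Eventually.of_forall fun y => ?_)
  have hFd : Differentiable ℝ F := hFc.differentiable (by simp)
  have e0 : (fun y => F (0 + coordMap b y)) = η := by
    funext y
    rw [hb, coordMap_std, zero_add]
    rfl
  have e1 : ∀ i, fderiv ℝ F (WithLp.toLp 2 y) (b i) = pd i η y := by
    intro i
    have h3 := pd_coord_comp hFd b 0 i y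
    rw [e0, hb, coordMap_std, zero_add] at h3
    exact h3.symm
  simp only
  rw [norm_sq_dual b]
  simp_rw [e1]
  rw [hb, coordMap_std, zero_add]
  rfl

lemma lap_of_euclidean {u : EuclideanSpace ℝ (Fin n) → ℝ} (hu : ContDiff ℝ 2 u)
    (b : OrthonormalBasis (Fin n) ℝ (EuclideanSpace ℝ (Fin n))) (p : EuclideanSpace ℝ (Fin n))
    (y : Fin n → ℝ) : ∑ i, pd i (pd i (fun y => u (p + coordMap b y))) y
      = Δ u (p + coordMap b y) := by
  have du : Differentiable ℝ u := hu.differentiable (by norm_num)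
  have dfu : Differentiable ℝ (fderiv ℝ u) :=
    (hu.fderiv_right (m := 1) (by norm_num)).differentiable (by norm_num)
  have h1 : ∀ i, pd i (fun y => u (p + coordMap b y))
      = fun y => (fun x => fderiv ℝ u x (b i)) (p + coordMap b y) := fun i =>
    funext fun y => pd_coord_comp du b p i y
  have h2 : ∀ i, pd i (pd i (fun y => u (p + coordMap b y))) y
      = iteratedFDeriv ℝ 2 u (p + coordMap b y) ![b i, b i] := by
    intro i
    have hd : Differentiable ℝ (fun x => fderiv ℝ u x (b i)) := fun x =>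
      (dfu x).clm_apply (differentiableAt_const _)
    rw [h1 i, pd_coord_comp hd b p i y, iteratedFDeriv_two_apply]
    have h3 : HasFDerivAt (fun x => fderiv ℝ u x (b i))
        ((ContinuousLinearMap.apply ℝ ℝ (b i)).comp (fderiv ℝ (fderiv ℝ u) (p + coordMap b y)))
        (p + coordMap b y) :=
      (ContinuousLinearMap.apply ℝ ℝ (b i)).hasFDerivAt.comp _ (dfu _).hasFDerivAt
    rw [h3.fderiv]
    simp only [ContinuousLinearMap.comp_apply, ContinuousLinearMap.apply_apply, Fin.isValue, Matrix.cons_val_zero, Matrix.cons_val_one, Matrix.cons_val_fin_one]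
  simp_rw [h2]
  rw [InnerProductSpace.laplacian_eq_iteratedFDeriv_orthonormalBasis u b]

/-- Bounded entire solutions are bounded by one. -/
theorem abs_le_one_of_bdd {u : EuclideanSpace ℝ (Fin n) → ℝ} (hu : ContDiff ℝ 2 u)
    (heq : ∀ x, Δ u x = u x ^ 3 - u x) (hb : ∃ M : ℝ, ∀ x, |u x| ≤ M)
    (x : EuclideanSpace ℝ (Fin n)) : |u x| ≤ 1 := by
  obtain ⟨M, hM⟩ := hb
  set b := EuclideanSpace.basisFun (Fin n) ℝ with hb
  set U : (Fin n → ℝ) → ℝ := fun y => u (0 + coordMap b y) with hU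
  have hU2 : ContDiff ℝ 2 U := hu.comp (contDiff_const.add (coordMap b).contDiff)
  have hUeq : ∀ y, ∑ i, pd i (pd i U) y = U y ^ 3 - U y := fun y => by
    rw [hU, lap_of_euclidean hu b 0 y, heq]
  have h1 := le_one_of_bdd hU2 hUeq (M := M) (fun y => (abs_le.mp (hM _)).2)
  have hneg2 : ContDiff ℝ 2 (fun y => - U y) := hU2.neg
  have hnegeq : ∀ y, ∑ i, pd i (pd i (fun y => - U y)) y = (- U y) ^ 3 - (- U y) := by
    intro y
    have h2 := lap_neg hU2 y
    unfold SM.lap at h2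
    rw [h2, hUeq y]; ring
  have h2 := le_one_of_bdd hneg2 hnegeq (M := M) (fun y => by
    have := (abs_le.mp (hM (0 + coordMap b y))).1
    show - U y ≤ M
    rw [hU]; simp only; linarith)
  have h3 := coordMap_repr b 0 x
  have h4 := h1 (fun i => ⟪b i, x - 0⟫_ℝ)
  have h5 := h2 (fun i => ⟪b i, x - 0⟫_ℝ)
  rw [hU] at h4 h5
  simp only [h3] at h4 h5
  rw [abs_le]
  constructor <;> linarith

/-- **Bounded stable solutions on `ℝ³` are one-dimensional**, from S3. -/
theorem stable_R3 (hS : LI.StS3) {u : EuclideanSpace ℝ (Fin 3) → ℝ} (hu : ContDiff ℝ 2 u)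
    (heq : ∀ x, Δ u x = u x ^ 3 - u x) (hb : ∃ M : ℝ, ∀ x, |u x| ≤ M) (hs : StableE u) :
    (∀ x, u x = 1) ∨ (∀ x, u x = -1) ∨ ∃ (e : EuclideanSpace ℝ (Fin 3)) (c : ℝ), ‖e‖ = 1 ∧
      ∀ x, u x = Real.tanh ((⟪e, x⟫_ℝ - c) / √2) := by
  have hb1 := abs_le_one_of_bdd hu heq hb
  set b := EuclideanSpace.basisFun (Fin 3) ℝ with hbdef
  have hsol := sol_of_euclidean hu heq hb1 b 0
  have hst := stabV_of_stableE hs
  have hrep : ∀ x, u x = (fun y => u (0 + coordMap b y)) (fun i => ⟪b i, x - 0⟫_ℝ) := fun x => by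
    simp only [coordMap_repr b 0 x]
  rcases stable_coord hS hsol hst with h | h | ⟨ν, hν, c, hc⟩
  · exact Or.inl fun x => (hrep x).trans (h _)
  · exact Or.inr (Or.inl fun x => (hrep x).trans (h _))
  · refine Or.inr (Or.inr ⟨∑ i, ν i • b i, c, ?_, fun x => ?_⟩)
    · have h1 : ‖∑ i, ν i • b i‖ ^ 2 = 1 := by
        rw [← real_inner_self_eq_norm_sq, sum_inner]
        simp_rw [inner_sum, inner_smul_left, inner_smul_right, b.inner_eq_ite]
        simp only [mul_ite, mul_one, mul_zero, Finset.sum_ite_eq, Finset.mem_univ, if_true,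
          conj_trivial]
        rw [← hν]
        refine Finset.sum_congr rfl fun i _ => by ring
      have h2 : 0 ≤ ‖∑ i, ν i • b i‖ := norm_nonneg _
      nlinarith
    · refine ((hrep x).trans (hc _)).trans ?_
      congr 2
      rw [sum_inner]
      congr 1
      refine Finset.sum_congr rfl fun i _ => ?_
      rw [inner_smul_left, sub_zero]
      simp

end Vale.Agent.P134.H765
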