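import Vale.Agent.P134.H765.T4
import Vale.Agent.P134.H765.Stab
import Vale.Agent.P134.H919.StA
import Vale.Agent.P134.H688.StB
import Vale.Agent.P134.H981.StC
import Vale.Agent.P134.H355.StD
import Vale.Agent.P134.H688.StE
import Vale.Agent.P134.H891.StepF

set_option linter.all false

/-! De Giorgi's conjecture in dimension four from S3 alone. -/

namespace Vale.Agent.P134.H765

open Vale.Agent.P134 Filter Topology
open scoped InnerProductSpace Laplacian

/-- Savin's case in dimension four, unconditional. -/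
theorem savinCase4 : SavinCase 4 3 :=
  savinCase Vale.Agent.P134.H919.stA Vale.Agent.P134.H688.stB Vale.Agent.P134.H981.stC
    Vale.Agent.P134.H355.stD Vale.Agent.P134.H688.stE Vale.Agent.P134.H891.stF

/-- De Giorgi's conjecture in dimension four, from S3. Every bounded solution on `ℝ⁴` that is
strictly monotone in some direction is `tanh((⟨e,x⟩ - c)/√2)`. -/
theorem dim4_of_S3 (hS : LI.StS3) {u : EuclideanSpace ℝ (Fin 4) → ℝ} (hu : ContDiff ℝ 2 u)
    (heq : ∀ x, Δ u x = u x ^ 3 - u x) (hb : ∃ M : ℝ, ∀ x, |u x| ≤ M)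
    {a : EuclideanSpace ℝ (Fin 4)} (ha : ∀ x, 0 < fderiv ℝ u x a) :
    ∃ (e : EuclideanSpace ℝ (Fin 4)) (c : ℝ), ‖e‖ = 1 ∧
      ∀ x, u x = Real.tanh ((⟪e, x⟫_ℝ - c) / √2) :=
  final_euclid le_rfl (profRigid_of_StS3 stT4 hS) savinCase4 hu heq
    (fun x => abs_le_one_of_bdd hu heq hb x) ha

end Vale.Agent.P134.H765
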