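import Vale.Agent.P134.H765.Final4
import Vale.Agent.P134.LI.Defs

set_option linter.all false

/-! From `S3` (rigidity in dimension three in the class `Hyp`) to the rigidity of the limit
profiles of monotone solutions in dimension four. -/

namespace Vale.Agent.P134.H765

open Vale.Agent.P134 Vale.Agent.P134.LI MeasureTheory Filter Topology

variable {n : ℕ}

/-- Restriction to the hyperplane `x_last = 0`. -/
noncomputable def res (U : (Fin (n + 1) → ℝ) → ℝ) (y : Fin n → ℝ) : ℝ := U (Fin.snoc y 0)

/-- The embedding `y ↦ (y, 0)` as a continuous linear map. -/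
noncomputable def emb (n : ℕ) : (Fin n → ℝ) →L[ℝ] (Fin (n + 1) → ℝ) :=
  ∑ i, (ContinuousLinearMap.proj (R := ℝ) (φ := fun _ : Fin n => ℝ) i).smulRight
    (Pi.single i.castSucc 1)

lemma emb_apply (y : Fin n → ℝ) : emb n y = (Fin.snoc y 0 : Fin (n + 1) → ℝ) := by
  funext k
  simp only [emb, sum_apply, ContinuousLinearMap.smulRight_apply, ContinuousLinearMap.proj_apply,
    Finset.sum_apply, Pi.smul_apply, smul_eq_mul, Pi.single_apply]
  refine Fin.lastCases ?_ (fun j => ?_) k
  · simp only [Fin.snoc_last]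
    apply Finset.sum_eq_zero
    intro i _
    rw [if_neg (Fin.castSucc_lt_last i).ne', mul_zero]
  · simp only [Fin.snoc_castSucc, Fin.castSucc_inj, mul_ite, mul_one, mul_zero]
    simp

lemma res_eq (U : (Fin (n + 1) → ℝ) → ℝ) : res U = fun y => U (emb n y) := by
  funext y; unfold res; rw [emb_apply]

lemma emb_single (i : Fin n) : emb n (Pi.single i 1) = Pi.single i.castSucc 1 := by
  simp only [emb, sum_apply, ContinuousLinearMap.smulRight_apply, ContinuousLinearMap.proj_apply]
  rw [Finset.sum_eq_single i]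
  · simp
  · intro j _ hj; simp [hj]
  · intro h; exact absurd (Finset.mem_univ i) h

lemma pd_res {U : (Fin (n + 1) → ℝ) → ℝ} (hU : Differentiable ℝ U) (i : Fin n) (y : Fin n → ℝ) :
    pd i (res U) y = pd i.castSucc U (emb n y) := by
  rw [res_eq]
  have h1 : fderiv ℝ (fun y => U (emb n y)) y = (fderiv ℝ U (emb n y)).comp (emb n) :=
    ((hU (emb n y)).hasFDerivAt.comp y (emb n).hasFDerivAt).fderiv
  unfold pd
  rw [h1, ContinuousLinearMap.comp_apply, emb_single]

lemma pd_last_zero {U : (Fin (n + 1) → ℝ) → ℝ} (hU : Differentiable ℝ U)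
    (hinv : ∀ x (t : ℝ), U (x + t • Pi.single (Fin.last n) 1) = U x) (x : Fin (n + 1) → ℝ) :
    pd (Fin.last n) U x = 0 := by
  have h1 := hasDerivAt_dir (w := U) (x := x) (v := Pi.single (Fin.last n) 1) (s := 0) (hU _)
  have h2 : (fun s : ℝ => U (x + s • Pi.single (Fin.last n) 1)) = fun _ => U x := by
    funext s; exact hinv x s
  rw [h2] at h1
  have h3 := h1.unique (hasDerivAt_const 0 (U x))
  unfold pd
  simpa using h3

theorem Sol.res {U : (Fin (n + 1) → ℝ) → ℝ} (hU : Sol U)
    (hinv : ∀ x (t : ℝ), U (x + t • Pi.single (Fin.last n) 1) = U x) : Sol (res U) where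
  c2 := by rw [res_eq]; exact hU.c2.comp (emb n).contDiff
  bd := fun y => hU.bd _
  eq := fun y => by
    have dU : Differentiable ℝ U := hU.c2.differentiable (by norm_num)
    have e1 : ∀ i : Fin n, pd i (H765.res U) = H765.res (pd i.castSucc U) := by
      intro i; funext y
      rw [pd_res dU, res_eq]
    have e2 : ∀ i : Fin n, pd i (pd i (H765.res U)) y
        = pd i.castSucc (pd i.castSucc U) (emb n y) := by
      intro i
      rw [e1, pd_res ((contDiff_pd_one hU.c2).differentiable (by norm_num))]
    simp_rw [e2]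
    have h3 := hU.eq (emb n y)
    rw [Fin.sum_univ_castSucc] at h3
    have h4 : pd (Fin.last n) (pd (Fin.last n) U) (emb n y) = 0 := by
      have : pd (Fin.last n) U = fun _ => 0 := funext fun x => pd_last_zero dU hinv x
      rw [this, pd_const]
    rw [h4, add_zero] at h3
    rw [h3, res_eq]

/-- Profiles of monotone solutions lie in the class `Hyp` (block T4). -/
def StT4 : Prop := ∀ u U : (Fin 4 → ℝ) → ℝ, Sol u → (∀ x, 0 < pd 3 u x) → Sol U →
  (∀ x, Tendsto (fun t : ℝ => u (x + t • Pi.single 3 1)) atTop (𝓝 (U x))) →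
  Hyp (VV (res U))

theorem profRigid_of_S3 (hT : StT4) (hS : StS3') : ProfRigid 4 3 := by
  intro u U hu hpos hU hlim
  have hdd : ∀ x, 0 < dd (Pi.single (3 : Fin 4) 1) u x := by
    intro x
    unfold dd
    simpa [Pi.single_apply] using hpos x
  -- invariance
  have hinv : ∀ x (t : ℝ), U (x + t • Pi.single 3 1) = U x := by
    intro x t
    have h4 : Tendsto (fun s : ℝ => u (x + (s + t) • Pi.single 3 1)) atTop (𝓝 (U x)) :=
      (hlim x).comp (tendsto_atTop_add_const_right atTop t tendsto_id)
    have h5 := hlim (x + t • Pi.single 3 1)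
    have e : (fun s : ℝ => u (x + t • Pi.single 3 1 + s • Pi.single 3 1))
        = fun s : ℝ => u (x + (s + t) • Pi.single 3 1) := by
      funext s
      congr 1
      rw [add_smul]; abel
    rw [e] at h5
    exact tendsto_nhds_unique h5 h4
  have hDu : DStab u := DStab.of_dir hu hdd
  have hDU : DStab U := DStab.of_tendsto (ι := ℝ) (F := fun t y => u (y + t • Pi.single 3 1))
    (fun t => hDu.shift _) hlim
  have hinv' : ∀ x (t : ℝ), U (x + t • Pi.single (Fin.last 3) 1) = U x := hinv
  obtain ⟨ν, hν, g, hg⟩ := hS (res U) (Sol.res hU hinv') (hT u U hu hpos hU hlim)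
  set e : Fin 4 → ℝ := Fin.snoc ν 0 with he
  have he1 : ∑ i, e i ^ 2 = 1 := by
    rw [Fin.sum_univ_castSucc]
    simp only [he, Fin.snoc_castSucc, Fin.snoc_last]
    rw [hν]; norm_num
  have hUe : ∀ x, U x = g (∑ i, e i * x i) := by
    intro x
    have h1 : U x = res U (Fin.init x) := by
      unfold res
      rw [← hinv' x (-(x (Fin.last 3)))]
      congr 1
      funext k
      refine Fin.lastCases ?_ (fun j => ?_) k
      · simp only [Pi.add_apply, Pi.smul_apply, smul_eq_mul, Pi.single_eq_same, mul_one,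
          Fin.snoc_last]
        ring
      · simp only [Pi.add_apply, Pi.smul_apply, smul_eq_mul, Fin.snoc_castSucc, Fin.init,
          Pi.single_apply, if_neg (Fin.castSucc_lt_last j).ne]
        ring
    rw [h1, hg]
    congr 1
    conv_rhs => rw [Fin.sum_univ_castSucc]
    simp only [he, Fin.snoc_castSucc, Fin.snoc_last, zero_mul, add_zero, Fin.init]
  intro x
  exact defi_zero_of_one_dim (by norm_num) he1 hDU
    (fun a ha x => dd_zero_of_one_dim hU hUe ha x) x

end Vale.Agent.P134.H765
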