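import Vale.Agent.P134.H765.SMP

set_option linter.all false

/-! Sliding of directions (Step 8 of the n = 4 argument): a monotone solution whose large scale
tilt with respect to a fixed unit vector `e` is small uniformly over the interface, and whose
degenerate translation limits have vanishing Modica deficit, is one-dimensional. -/

namespace Vale.Agent.P134.H765

open Vale.Agent.P134 MeasureTheory Filter Topology

variable {n : ℕ} {f g u v w : (Fin n → ℝ) → ℝ} {x : Fin n → ℝ} {i j q : Fin n}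

/-- `v` is a limit of translates of `u`. -/
def TL (u v : (Fin n → ℝ) → ℝ) : Prop :=
  ∃ y : ℕ → (Fin n → ℝ), ∀ x, Tendsto (fun k => u (x + y k)) atTop (𝓝 (v x))

theorem exists_TL (hu : Sol u) (y : ℕ → (Fin n → ℝ)) :
    ∃ φ : ℕ → ℕ, StrictMono φ ∧ ∃ v : (Fin n → ℝ) → ℝ, Sol v ∧ TL u v ∧
      (∀ x, Tendsto (fun k => u (x + y (φ k))) atTop (𝓝 (v x))) ∧
      (∀ x i, Tendsto (fun k => pd i u (x + y (φ k))) atTop (𝓝 (pd i v x))) := by
  obtain ⟨φ, hφ, v, hv⟩ := exists_subseq (fun k x => u (x + y k)) (fun k => hu.shift (y k))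
  obtain ⟨h1, h2, -⟩ := Sol.of_tendsto (F := fun k x => u (x + y (φ k)))
    (fun k => hu.shift (y (φ k))) hv
  refine ⟨φ, hφ, v, h1, ⟨fun k => y (φ k), hv⟩, hv, fun x i => ?_⟩
  have := h2 x i
  simpa [pd_shift_fun] using this

lemma dd_tendsto {ι : Type*} {l : Filter ι} {b : ι → (Fin n → ℝ)} {a : Fin n → ℝ}
    (hb : Tendsto b l (𝓝 a)) {P : ι → Fin n → ℝ} {p : Fin n → ℝ}
    (hP : ∀ i, Tendsto (fun k => P k i) l (𝓝 (p i))) :
    Tendsto (fun k => ∑ i, b k i * P k i) l (𝓝 (∑ i, a i * p i)) :=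
  tendsto_finsetSum _ fun i _ => ((tendsto_pi_nhds.mp hb) i).mul (hP i)

lemma abs_dd_le (hu : Sol u) (a x : Fin n → ℝ) :
    |dd a u x| ≤ (∑ i, |a i|) * ((n : ℝ) + 1) := by
  apply dd_abs_le
  intro i
  exact hu.pd_le i x

/-- If a directional derivative is nonnegative on the interface, it is nonnegative everywhere. -/
theorem sign_of_interface (hu : Sol u) {β : ℝ} (hβ : 1 < 3 * β ^ 2) (hβ0 : 0 ≤ β)
    {a : Fin n → ℝ} (h : ∀ x, |u x| ≤ β → 0 ≤ dd a u x) (x : Fin n → ℝ) : 0 ≤ dd a u x := by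
  by_contra hneg
  push Not at hneg
  set S : Set ℝ := Set.range (dd a u) with hS
  have hSn : S.Nonempty := ⟨_, x, rfl⟩
  have hSb : BddBelow S := by
    refine ⟨-((∑ i, |a i|) * ((n : ℝ) + 1)), ?_⟩
    rintro _ ⟨z, rfl⟩
    exact (abs_le.mp (abs_dd_le hu a z)).1
  obtain ⟨s, -, hs, hsS⟩ := exists_seq_tendsto_sInf hSn hSb
  choose y hy using hsS
  obtain ⟨φ, hφ, v, hv, -, hlim, hlim'⟩ := exists_TL hu y
  have hI : sInf S < 0 := lt_of_le_of_lt (csInf_le hSb ⟨x, rfl⟩) hneg
  have hdl : ∀ z, Tendsto (fun k => dd a u (z + y (φ k))) atTop (𝓝 (dd a v z)) := fun z =>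
    dd_tendsto tendsto_const_nhds (fun i => hlim' z i)
  have h0 : dd a v 0 = sInf S := by
    have h1 := hdl 0
    simp only [zero_add, hy] at h1
    exact tendsto_nhds_unique h1 (hs.comp hφ.tendsto_atTop)
  have hmin : ∀ z, dd a v 0 ≤ dd a v z := by
    intro z
    rw [h0]
    exact ge_of_tendsto' (hdl z) fun k => csInf_le hSb ⟨_, rfl⟩
  by_cases hv0 : |v 0| < β
  · have h1 : ∀ᶠ k in atTop, |u (0 + y (φ k))| < β :=
      ((hlim 0).abs).eventually (gt_mem_nhds hv0)
    have h2 : ∀ᶠ k in atTop, dd a u (0 + y (φ k)) < 0 :=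
      (hdl 0).eventually (gt_mem_nhds (by rw [h0]; exact hI))
    obtain ⟨k, hk1, hk2⟩ := (h1.and h2).exists
    exact absurd (h _ hk1.le) (not_le.mpr hk2)
  · push Not at hv0
    have h1 : IsLocalMin (dd a v) 0 := Filter.Eventually.of_forall hmin
    have h2 : 0 ≤ ∑ i, pd i (pd i (dd a v)) 0 :=
      Finset.sum_nonneg fun i _ => pd2_nonneg_of_isLocalMin (dd_contDiff2 hv a) h1 i
    rw [lap_dd hv, h0] at h2
    have h3 : β ^ 2 ≤ v 0 ^ 2 := by
      rw [← sq_abs (v 0)]
      exact pow_le_pow_left₀ hβ0 hv0 2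
    have h4 : 0 < 3 * v 0 ^ 2 - 1 := by linarith
    have := mul_neg_of_pos_of_neg h4 hI
    linarith

/-- Euclidean norm of the gradient. -/
noncomputable def gn (u : (Fin n → ℝ) → ℝ) (x : Fin n → ℝ) : ℝ := Real.sqrt (∑ i, pd i u x ^ 2)

/-- The tilt density with respect to the unit vector `e`. -/
noncomputable def tilt (e : Fin n → ℝ) (u : (Fin n → ℝ) → ℝ) (x : Fin n → ℝ) : ℝ :=
  psi u x * (gn u x - dd e u x)

/-- Uniform smallness of the large scale tilt over the interface `{|u| ≤ β}`. -/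
def NR (β : ℝ) (e : Fin n → ℝ) (u : (Fin n → ℝ) → ℝ) : Prop :=
  ∀ θ : ℝ, 0 < θ → ∃ r0 : ℝ, ∀ y, |u y| ≤ β → ∀ R : ℝ, r0 ≤ R →
    ∫ x in box n R, tilt e u (x + y) ≤ θ * R ^ (n - 1)

lemma gn_continuous (hu : Sol u) : Continuous (gn u) :=
  (continuous_finsetSum _ fun j _ => (contDiff_pd_one hu.c2).continuous.pow 2).sqrt

lemma dd_continuous (hu : Sol u) (e : Fin n → ℝ) : Continuous (dd e u) :=
  (dd_contDiff hu.c2).continuous

lemma tilt_continuous (hu : Sol u) (e : Fin n → ℝ) : Continuous (tilt e u) :=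
  hu.psi_contDiff.continuous.mul ((gn_continuous hu).sub (dd_continuous hu e))

lemma gn_le (hu : Sol u) (x : Fin n → ℝ) : gn u x ≤ psi u x := by
  have h1 := hu.defi_nonneg x
  unfold defi at h1
  have h2 := hu.psi_nonneg x
  unfold gn
  apply Real.sqrt_le_iff.mpr
  refine ⟨h2, ?_⟩
  nlinarith [sq_nonneg (psi u x)]

lemma abs_tilt_le (hu : Sol u) (e x : Fin n → ℝ) :
    |tilt e u x| ≤ 1 + (∑ i, |e i|) * ((n : ℝ) + 1) := by
  unfold tilt
  have h1 := hu.psi_nonneg x
  have h2 := psi_le_one u x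
  have h3 := gn_le hu x
  have h4 : 0 ≤ gn u x := Real.sqrt_nonneg _
  have h5 := abs_dd_le hu e x
  have h6 : |gn u x - dd e u x| ≤ 1 + (∑ i, |e i|) * ((n : ℝ) + 1) := by
    rw [abs_le] at h5 ⊢
    constructor <;> linarith
  rw [abs_mul, abs_of_nonneg h1]
  calc psi u x * |gn u x - dd e u x| ≤ 1 * (1 + (∑ i, |e i|) * ((n : ℝ) + 1)) := by
        apply mul_le_mul h2 h6 (abs_nonneg _) zero_le_one
    _ = _ := one_mul _

lemma volume_box_lt_top (r : ℝ) : volume (box n r) < ⊤ := (isCompact_box r).measure_lt_top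

/-- Smallness of the tilt passes to limits of translates. -/
lemma tilt_limit {F : ℕ → (Fin n → ℝ) → ℝ} (hF : ∀ k, Sol (F k)) (hv : Sol v)
    (h1 : ∀ x, Tendsto (fun k => F k x) atTop (𝓝 (v x)))
    (h2 : ∀ x i, Tendsto (fun k => pd i (F k) x) atTop (𝓝 (pd i v x)))
    (e : Fin n → ℝ) (R : ℝ) :
    Tendsto (fun k => ∫ x in box n R, tilt e (F k) x) atTop (𝓝 (∫ x in box n R, tilt e v x)) := by
  apply tendsto_integral_of_dominated_convergence
    (fun _ => 1 + (∑ i, |e i|) * ((n : ℝ) + 1))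
  · intro k
    exact (tilt_continuous (hF k) e).aestronglyMeasurable
  · exact integrableOn_const (volume_box_lt_top R).ne
  · intro k
    refine Eventually.of_forall fun x => ?_
    rw [Real.norm_eq_abs]
    exact abs_tilt_le (hF k) e x
  · refine Eventually.of_forall fun x => ?_
    have h3 : Tendsto (fun k => gn (F k) x) atTop (𝓝 (gn v x)) := by
      unfold gn
      exact (tendsto_finsetSum _ fun i _ => (h2 x i).pow 2).sqrt
    exact (tendsto_psi (h1 x)).mul (h3.sub (dd_tendsto tendsto_const_nhds (fun i => h2 x i)))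

/-- Lower bound for the integral of a nonnegative function of one linear variable. -/
lemma slab_lower {F : (Fin n → ℝ) → ℝ} (hF : Continuous F) (hF0 : ∀ x, 0 ≤ F x)
    {ν : Fin n → ℝ} (hν : ν ≠ 0)
    (hinv : ∀ x y, ∑ i, ν i * x i = ∑ i, ν i * y i → F x = F y) (h0 : 0 < F 0) :
    ∃ c : ℝ, 0 < c ∧ ∀ R : ℝ, 1 ≤ R → c * R ^ (n - 1) ≤ ∫ x in box n R, F x := by
  classical
  have hne : Nonempty (Fin n) := by
    by_contra hh
    rw [not_nonempty_iff] at hh
    exact hν (funext fun i => (hh.false i).elim)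
  obtain ⟨q, hq⟩ := Finite.exists_max (fun i => |ν i|)
  have hνq : ν q ≠ 0 := by
    intro h
    apply hν
    funext i
    have := hq i
    simp only [h, abs_zero] at this
    exact abs_eq_zero.mp (le_antisymm this (abs_nonneg _))
  have hνq' : 0 < |ν q| := abs_pos.mpr hνq
  have hn0 : 0 < n := Fin.pos q
  have hn : (0:ℝ) < n := by exact_mod_cast hn0
  set G : ℝ → ℝ := fun t => F (t • Pi.single q 1) with hG
  have hGc : Continuous G := hF.comp (by fun_prop)
  have hGpos : 0 < ∫ t in (-(1 / (n:ℝ)))..(1 / n), G t := by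
    apply intervalIntegral.integral_pos (by
      have : 0 < 1 / (n:ℝ) := by positivity
      linarith) hGc.continuousOn (fun t _ => hF0 _)
    refine ⟨0, ⟨?_, ?_⟩, ?_⟩
    · have : 0 < 1 / (n:ℝ) := by positivity
      linarith
    · positivity
    · simp only [hG, zero_smul]; exact h0
  refine ⟨(2 / n) ^ (n - 1) * ∫ t in (-(1 / (n:ℝ)))..(1 / n), G t, by positivity, ?_⟩
  intro R hR
  -- the shear
  set f : (Fin n → ℝ) →ₗ[ℝ] ℝ :=
    (-(1 / ν q)) • ((∑ i, ν i • (LinearMap.proj i : (Fin n → ℝ) →ₗ[ℝ] ℝ)) - ν q • LinearMap.proj q)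
    with hf
  have hfx : ∀ x, f x = -(1 / ν q) * (∑ i, ν i * x i - ν q * x q) := by
    intro x; rw [hf]
    simp only [LinearMap.smul_apply, LinearMap.sub_apply, LinearMap.sum_apply, LinearMap.proj_apply,
      smul_eq_mul]
  set T : (Fin n → ℝ) →ₗ[ℝ] (Fin n → ℝ) := LinearMap.transvection f (Pi.single q 1) with hT
  have hTx : ∀ x, T x = x + f x • Pi.single q 1 := by
    intro x
    rw [hT, LinearMap.transvection.apply]
  have hdet : LinearMap.det T = 1 := by
    rw [hT, LinearMap.transvection.det, hfx]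
    have : ∑ i, ν i * (Pi.single q 1 : Fin n → ℝ) i = ν q := by
      simp [Pi.single_apply]
    rw [this]
    simp
  have hTc : Continuous T := T.continuous_of_finiteDimensional
  have hFT : ∀ x, F (T x) = G (x q) := by
    intro x
    apply hinv
    rw [hTx, hfx]
    simp only [Pi.add_apply, Pi.smul_apply, smul_eq_mul, Pi.single_apply, mul_ite, mul_one,
      mul_zero, mul_add, Finset.sum_add_distrib, Finset.sum_ite_eq', Finset.mem_univ, if_true]
    field_simp
    ring
  have hpre : ∀ x ∈ box n (R / n), T x ∈ box n R := by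
    intro x hx
    rw [mem_box] at hx ⊢
    have hRn : 0 ≤ R / n := by positivity
    have hRn1 : R / n ≤ R := div_le_self (by linarith) (by exact_mod_cast hn0)
    intro i
    by_cases hi : i = q
    · subst hi
      rw [hTx, hfx]
      simp only [Pi.add_apply, Pi.smul_apply, smul_eq_mul, Pi.single_eq_same, mul_one]
      have e1 : ∑ j, ν j * x j - ν i * x i = ∑ j ∈ Finset.univ.erase i, ν j * x j := by
        rw [← Finset.add_sum_erase _ _ (Finset.mem_univ i)]; ring
      rw [e1]
      have e2 : |∑ j ∈ Finset.univ.erase i, ν j * x j| ≤ (n - 1) * (|ν i| * (R / n)) := by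
        calc |∑ j ∈ Finset.univ.erase i, ν j * x j| ≤ ∑ j ∈ Finset.univ.erase i, |ν j * x j| :=
              Finset.abs_sum_le_sum_abs _ _
          _ ≤ ∑ j ∈ Finset.univ.erase i, |ν i| * (R / n) := by
              apply Finset.sum_le_sum
              intro j _
              rw [abs_mul]
              exact mul_le_mul (hq j) (hx j) (abs_nonneg _) (abs_nonneg _)
          _ = (n - 1) * (|ν i| * (R / n)) := by
              rw [Finset.sum_const, Finset.card_erase_of_mem (Finset.mem_univ i), Finset.card_univ,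
                Fintype.card_fin, nsmul_eq_mul, Nat.cast_sub hn0]
              norm_num
      have e3 : |-(1 / ν i) * ∑ j ∈ Finset.univ.erase i, ν j * x j| ≤ (n - 1) * (R / n) := by
        rw [abs_mul, abs_neg, abs_div, abs_one]
        calc 1 / |ν i| * |∑ j ∈ Finset.univ.erase i, ν j * x j|
            ≤ 1 / |ν i| * ((n - 1) * (|ν i| * (R / n))) := by gcongr
          _ = (n - 1) * (R / n) := by field_simp
      calc |x i + -(1 / ν i) * ∑ j ∈ Finset.univ.erase i, ν j * x j|
          ≤ |x i| + |-(1 / ν i) * ∑ j ∈ Finset.univ.erase i, ν j * x j| := abs_add_le _ _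
        _ ≤ R / n + (n - 1) * (R / n) := add_le_add (hx i) e3
        _ = R := by field_simp; ring
    · rw [hTx]
      simp only [Pi.add_apply, Pi.smul_apply, smul_eq_mul, Pi.single_apply, if_neg hi, mul_zero,
        add_zero]
      exact (hx i).trans hRn1
  have hmap := Measure.map_linearMap_addHaar_eq_smul_addHaar
    (volume : Measure (Fin n → ℝ)) (f := T) (by rw [hdet]; exact one_ne_zero)
  have hB : MeasurableSet (box n R) := (isCompact_box R).measurableSet
  have h1 : ∫ x in T ⁻¹' (box n R), F (T x) = ∫ x in box n R, F x := by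
    have h2 := setIntegral_map (μ := (volume : Measure (Fin n → ℝ))) hB
      (f := F) hF.aestronglyMeasurable hTc.measurable.aemeasurable
    rw [← h2, hmap, hdet]
    simp
  have hTB : IntegrableOn (fun x => F (T x)) (T ⁻¹' (box n R)) := by
    have hinj : Function.Injective T := by
      have hu : IsUnit (LinearMap.det T) := by rw [hdet]; exact isUnit_one
      exact ((LinearMap.isUnit_iff_isUnit_det T).mpr hu |> fun h =>
        (Module.End.isUnit_iff T).mp h).injective
    have hemb : Topology.IsClosedEmbedding T :=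
      LinearMap.isClosedEmbedding_of_injective (LinearMap.ker_eq_bot.mpr hinj)
    exact (hF.comp hTc).continuousOn.integrableOn_compact (hemb.isCompact_preimage (isCompact_box R))
  rw [← h1]
  have h3 : ∫ x in box n (R / n), F (T x) ≤ ∫ x in T ⁻¹' (box n R), F (T x) :=
    setIntegral_mono_set hTB (Eventually.of_forall fun x => hF0 _)
      (LE.le.eventuallyLE fun x hx => hpre x hx)
  refine le_trans ?_ h3
  simp_rw [hFT]
  rw [box_integral_coord q (g := G) (by positivity)]
  have h4 : ∫ t in (-(1 / (n:ℝ)))..(1 / n), G t ≤ ∫ t in (-(R / n))..(R / n), G t := by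
    have hRn : 1 / (n:ℝ) ≤ R / n := by gcongr
    apply intervalIntegral.integral_mono_interval (by linarith) (by
      have : 0 < 1 / (n:ℝ) := by positivity
      linarith) hRn (Eventually.of_forall fun t => hF0 _) (hGc.intervalIntegrable _ _)
  calc (2 / n) ^ (n - 1) * (∫ t in (-(1 / (n:ℝ)))..(1 / n), G t) * R ^ (n - 1)
      = (2 * (R / n)) ^ (n - 1) * ∫ t in (-(1 / (n:ℝ)))..(1 / n), G t := by
        rw [show 2 * (R / (n:ℝ)) = 2 / n * R by ring, mul_pow]; ring
    _ ≤ (2 * (R / n)) ^ (n - 1) * ∫ t in (-(R / n))..(R / n), G t := by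
        gcongr

/-- The tilt of a solution with vanishing deficit. -/
lemma tilt_rigid {ν : Fin n → ℝ} (hν : ∑ i, ν i ^ 2 = 1) (hv : Sol v)
    (hpd : ∀ x i, pd i v x = ν i * (psi v x / Real.sqrt 2)) (e x : Fin n → ℝ) :
    tilt e v x = (1 - ∑ i, e i * ν i) / Real.sqrt 2 * psi v x ^ 2 := by
  have h0 := hv.psi_nonneg x
  have h2 : 0 < Real.sqrt 2 := by positivity
  have e1 : gn v x = psi v x / Real.sqrt 2 := by
    unfold gn
    have : ∑ i, pd i v x ^ 2 = (psi v x / Real.sqrt 2) ^ 2 := by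
      simp_rw [hpd, mul_pow]
      rw [← Finset.sum_mul, hν, one_mul]
    rw [this, Real.sqrt_sq (by positivity)]
  have e2 : dd e v x = (∑ i, e i * ν i) * (psi v x / Real.sqrt 2) := by
    unfold dd
    simp_rw [hpd]
    rw [Finset.sum_mul]
    refine Finset.sum_congr rfl fun i _ => by ring
  unfold tilt
  rw [e1, e2]
  ring

lemma eq_of_inner_one {ν e : Fin n → ℝ} (hν : ∑ i, ν i ^ 2 = 1) (he : ∑ i, e i ^ 2 = 1)
    (h : 1 ≤ ∑ i, e i * ν i) : ν = e := by
  have h1 : ∑ i, (ν i - e i) ^ 2 ≤ 0 := by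
    have : ∀ i, (ν i - e i) ^ 2 = ν i ^ 2 + e i ^ 2 - 2 * (e i * ν i) := fun i => by ring
    simp_rw [this]
    rw [Finset.sum_sub_distrib, Finset.sum_add_distrib, hν, he, ← Finset.mul_sum]
    linarith
  have h2 : ∀ i ∈ Finset.univ, (ν i - e i) ^ 2 = 0 :=
    (Finset.sum_eq_zero_iff_of_nonneg (fun i _ => sq_nonneg _)).mp
      (le_antisymm h1 (Finset.sum_nonneg fun i _ => sq_nonneg _))
  funext i
  have := h2 i (Finset.mem_univ i)
  have := pow_eq_zero_iff (two_ne_zero) |>.mp this
  linarith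

/-- A solution depending on `ν·x` only (through the rigid form of its gradient). -/
lemma rigid_inv {ν : Fin n → ℝ} (hv : Sol v)
    (hpd : ∀ x i, pd i v x = ν i * (psi v x / Real.sqrt 2)) (x y : Fin n → ℝ)
    (hxy : ∑ i, ν i * x i = ∑ i, ν i * y i) : v x = v y := by
  have hd : Differentiable ℝ v := hv.c2.differentiable (by norm_num)
  have hder : ∀ s : ℝ, HasDerivAt (fun s : ℝ => v (y + s • (x - y))) 0 s := by
    intro s
    have h1 := hasDerivAt_dir (w := v) (x := y) (v := x - y) (s := s) (hd _)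
    have h2 : fderiv ℝ v (y + s • (x - y)) (x - y) = 0 := by
      rw [fderiv_eq_sum_pd]
      simp_rw [hpd]
      have : ∑ i, (x - y) i * (ν i * (psi v (y + s • (x - y)) / Real.sqrt 2))
          = (∑ i, ν i * x i - ∑ i, ν i * y i) * (psi v (y + s • (x - y)) / Real.sqrt 2) := by
        rw [← Finset.sum_sub_distrib, Finset.sum_mul]
        refine Finset.sum_congr rfl fun j _ => ?_
        simp only [Pi.sub_apply]
        ring
      rw [this, hxy, sub_self, zero_mul]
    rwa [h2] at h1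
  have hconst := is_const_of_deriv_eq_zero (f := fun s : ℝ => v (y + s • (x - y)))
    (fun s => (hder s).differentiableAt) (fun s => (hder s).deriv) 1 0
  simp only [one_smul, zero_smul, add_zero] at hconst
  rw [show y + (x - y) = x by abel] at hconst
  exact hconst

/-- Identification of the degenerate limits. -/
theorem limit_ident {β : ℝ} (hβ1 : β < 1) {e : Fin n → ℝ} (he : ∑ i, e i ^ 2 = 1)
    (hu : Sol u) (hNR : NR β e u) {y : ℕ → (Fin n → ℝ)} (hy : ∀ k, |u (y k)| ≤ β)
    (hv : Sol v) (h1 : ∀ x, Tendsto (fun k => u (x + y k)) atTop (𝓝 (v x)))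
    (h2 : ∀ x i, Tendsto (fun k => pd i u (x + y k)) atTop (𝓝 (pd i v x)))
    (hD : ∀ x, defi v x = 0) : 0 < psi v 0 ∧ ∀ x i, pd i v x = e i * (psi v x / Real.sqrt 2) := by
  have hv0 : |v 0| ≤ β := by
    have := (h1 0).abs
    exact le_of_tendsto' this fun k => by rw [zero_add]; exact hy k
  have hpos : 0 < psi v 0 := by
    unfold psi
    have h3 : v 0 ^ 2 < 1 := by
      rw [← sq_abs]
      have := abs_nonneg (v 0)
      nlinarith
    linarith
  refine ⟨hpos, ?_⟩
  rcases hv.rigid hD with h0 | ⟨ν, hν, hpd⟩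
  · exact absurd (h0 0) hpos.ne'
  suffices hνe : ν = e by
    rw [hνe] at hpd; exact hpd
  apply eq_of_inner_one hν he
  have hν0 : ν ≠ 0 := by
    rintro rfl
    simp at hν
  have hF : Continuous (fun x => psi v x ^ 2) := hv.psi_contDiff.continuous.pow 2
  obtain ⟨c, hc0, hc⟩ := slab_lower hF (fun x => sq_nonneg _) hν0
    (fun x y hxy => by unfold psi; rw [rigid_inv hv hpd x y hxy]) (by positivity)
  by_contra hlt
  push Not at hlt
  set d : ℝ := 1 - ∑ i, e i * ν i with hd
  have hd0 : 0 < d := by rw [hd]; linarith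
  have h2pos : 0 < Real.sqrt 2 := by positivity
  obtain ⟨r0, hr0⟩ := hNR (c * d / (2 * Real.sqrt 2)) (by positivity)
  set R : ℝ := max r0 1 with hR
  have hR1 : 1 ≤ R := le_max_right _ _
  have hlim := tilt_limit (F := fun k x => u (x + y k)) (fun k => hu.shift (y k)) hv h1
    (fun x i => by simpa [pd_shift_fun] using h2 x i) e R
  have hle : ∫ x in box n R, tilt e v x ≤ c * d / (2 * Real.sqrt 2) * R ^ (n - 1) := by
    refine le_of_tendsto' hlim fun k => ?_
    have h3 := hr0 (y k) (hy k) R (le_max_left _ _)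
    have e1 : ∀ x, tilt e (fun x => u (x + y k)) x = tilt e u (x + y k) := by
      intro x
      unfold tilt gn dd psi
      simp_rw [pd_shift_fun]
    simp_rw [e1]
    exact h3
  have e2 : ∫ x in box n R, tilt e v x = d / Real.sqrt 2 * ∫ x in box n R, psi v x ^ 2 := by
    rw [← integral_const_mul]
    congr 1
    funext x
    exact tilt_rigid hν hv hpd e x
  rw [e2] at hle
  have h3 := hc R hR1
  have h4 : d / Real.sqrt 2 * (c * R ^ (n - 1)) ≤ d / Real.sqrt 2 * ∫ x in box n R, psi v x ^ 2 :=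
    mul_le_mul_of_nonneg_left h3 (by positivity)
  have h5 : 0 < c * d / (2 * Real.sqrt 2) * R ^ (n - 1) := by positivity
  have h6 : d / Real.sqrt 2 * (c * R ^ (n - 1)) = 2 * (c * d / (2 * Real.sqrt 2) * R ^ (n - 1)) := by
    field_simp
  linarith

/-- The class of degenerate limits to which rigidity is applied. -/
def DegRigid (u : (Fin n → ℝ) → ℝ) : Prop :=
  ∀ v : (Fin n → ℝ) → ℝ, Sol v → TL u v → ∀ a : Fin n → ℝ, a ≠ 0 → (∀ x, dd a v x = 0) →
    ∀ x, defi v x = 0

/-- Main compactness lemma. -/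
theorem lemmaU {β : ℝ} (hβ1 : β < 1) {e : Fin n → ℝ} (he : ∑ i, e i ^ 2 = 1)
    (hu : Sol u) (hNR : NR β e u) (H1 : DegRigid u) {a : Fin n → ℝ} (ha : a ≠ 0)
    (hK : ∀ x, 0 ≤ dd a u x) {b : ℕ → (Fin n → ℝ)} (hb : Tendsto b atTop (𝓝 a))
    {y : ℕ → (Fin n → ℝ)} (hy : ∀ k, |u (y k)| ≤ β) (hneg : ∀ k, dd (b k) u (y k) < 0) :
    ∑ i, a i * e i = 0 ∧ ∃ φ : ℕ → ℕ, StrictMono φ ∧ ∃ c : ℝ, 0 < c ∧
      Tendsto (fun k => dd e u (y (φ k))) atTop (𝓝 c) := by
  obtain ⟨φ, hφ, v, hv, hTL, h1, h2⟩ := exists_TL hu y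
  have hva : ∀ x, 0 ≤ dd a v x := fun x =>
    ge_of_tendsto' (dd_tendsto tendsto_const_nhds (fun i => h2 x i)) fun k => hK _
  have hva0 : dd a v 0 ≤ 0 := by
    have h3 : Tendsto (fun k => dd (b (φ k)) u (0 + y (φ k))) atTop (𝓝 (dd a v 0)) :=
      dd_tendsto (hb.comp hφ.tendsto_atTop) (fun i => h2 0 i)
    refine le_of_tendsto' h3 fun k => ?_
    rw [zero_add]
    exact (hneg (φ k)).le
  have hva1 : ∀ x, dd a v x = 0 := dd_smp hv hva (le_antisymm hva0 (hva 0))
  have hD := H1 v hv hTL a ha hva1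
  obtain ⟨hpos, hpd⟩ := limit_ident hβ1 he hu hNR (fun k => hy (φ k)) hv h1 h2 hD
  have h2pos : 0 < Real.sqrt 2 := by positivity
  constructor
  · have h3 := hva1 0
    unfold dd at h3
    simp_rw [hpd] at h3
    have h4 : (∑ i, a i * e i) * (psi v 0 / Real.sqrt 2) = 0 := by
      rw [Finset.sum_mul, ← h3]
      refine Finset.sum_congr rfl fun i _ => by ring
    rcases mul_eq_zero.mp h4 with h5 | h5
    · exact h5
    · exact absurd h5 (by positivity)
  · refine ⟨φ, hφ, psi v 0 / Real.sqrt 2, by positivity, ?_⟩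
    have h3 : Tendsto (fun k => dd e u (0 + y (φ k))) atTop (𝓝 (dd e v 0)) :=
      dd_tendsto tendsto_const_nhds (fun i => h2 0 i)
    have h4 : dd e v 0 = psi v 0 / Real.sqrt 2 := by
      unfold dd
      simp_rw [hpd]
      have : ∀ i, e i * (e i * (psi v 0 / Real.sqrt 2)) = e i ^ 2 * (psi v 0 / Real.sqrt 2) :=
        fun i => by ring
      simp_rw [this]
      rw [← Finset.sum_mul, he, one_mul]
    rw [h4] at h3
    simpa only [zero_add] using h3

lemma dd_add (a b x : Fin n → ℝ) : dd (a + b) u x = dd a u x + dd b u x := by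
  unfold dd
  rw [← Finset.sum_add_distrib]
  refine Finset.sum_congr rfl fun i _ => ?_
  simp only [Pi.add_apply]; ring

lemma dd_smul (t : ℝ) (a x : Fin n → ℝ) : dd (t • a) u x = t * dd a u x := by
  unfold dd
  rw [Finset.mul_sum]
  refine Finset.sum_congr rfl fun i _ => ?_
  simp only [Pi.smul_apply, smul_eq_mul]; ring

lemma dd_single (x : Fin n → ℝ) : dd (Pi.single q 1) u x = pd q u x := by
  unfold dd
  simp [Pi.single_apply]

/-- The cone of monotonicity directions. -/
def Kc (u : (Fin n → ℝ) → ℝ) : Set (Fin n → ℝ) := {a | ∀ x, 0 ≤ dd a u x}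

lemma isClosed_Kc (u : (Fin n → ℝ) → ℝ) : IsClosed (Kc u) := by
  have : Kc u = ⋂ x, {a | 0 ≤ dd a u x} := by
    ext a; simp [Kc]
  rw [this]
  apply isClosed_iInter
  intro x
  apply isClosed_le continuous_const
  unfold dd
  exact continuous_finsetSum _ fun i _ => (continuous_apply i).mul continuous_const

/-- Outside the cone there is a bad interface point. -/
lemma bad_point (hu : Sol u) {β : ℝ} (hβ : 1 < 3 * β ^ 2) (hβ0 : 0 ≤ β) {b : Fin n → ℝ}
    (hb : b ∉ Kc u) : ∃ y, |u y| ≤ β ∧ dd b u y < 0 := by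
  by_contra hcon
  push Not at hcon
  exact hb fun x => sign_of_interface hu hβ hβ0 hcon x

/-- (8.2): moving in the direction `e`. -/
lemma move_e {β : ℝ} (hβ : 1 < 3 * β ^ 2) (hβ0 : 0 ≤ β) (hβ1 : β < 1) {e : Fin n → ℝ}
    (he : ∑ i, e i ^ 2 = 1) (hu : Sol u) (hNR : NR β e u) (H1 : DegRigid u) {a : Fin n → ℝ}
    (ha : a ≠ 0) (hK : a ∈ Kc u) : ∃ ε : ℝ, 0 < ε ∧ ∀ t, 0 < t → t < ε → a + t • e ∈ Kc u := by
  by_contra hcon
  push Not at hcon
  have h1 : ∀ k : ℕ, ∃ t : ℝ, 0 < t ∧ t < 1 / ((k:ℝ) + 1) ∧ a + t • e ∉ Kc u := fun k =>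
    hcon _ (by positivity)
  choose t ht0 ht1 htK using h1
  have h2 : ∀ k, ∃ y, |u y| ≤ β ∧ dd (a + t k • e) u y < 0 := fun k =>
    bad_point hu hβ hβ0 (htK k)
  choose y hy hneg using h2
  have htl : Tendsto t atTop (𝓝 0) :=
    tendsto_of_tendsto_of_tendsto_of_le_of_le tendsto_const_nhds
      tendsto_one_div_add_atTop_nhds_zero_nat (fun k => (ht0 k).le) (fun k => (ht1 k).le)
  have hb : Tendsto (fun k => a + t k • e) atTop (𝓝 a) := by
    have : Tendsto (fun k => a + t k • e) atTop (𝓝 (a + (0:ℝ) • e)) :=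
      tendsto_const_nhds.add (htl.smul_const e)
    simpa using this
  obtain ⟨-, φ, hφ, c, hc, hlim⟩ := lemmaU hβ1 he hu hNR H1 ha hK hb hy hneg
  obtain ⟨k, hk⟩ := (hlim.eventually (lt_mem_nhds hc)).exists
  have h3 := hneg (φ k)
  rw [dd_add, dd_smul] at h3
  have h4 := hK (y (φ k))
  have h5 : 0 < t (φ k) * dd e u (y (φ k)) := mul_pos (ht0 _) hk
  linarith

/-- (8.1): the cone is relatively open in the half space. -/
lemma cone_open {β : ℝ} (hβ : 1 < 3 * β ^ 2) (hβ0 : 0 ≤ β) (hβ1 : β < 1) {e : Fin n → ℝ}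
    (he : ∑ i, e i ^ 2 = 1) (hu : Sol u) (hNR : NR β e u) (H1 : DegRigid u) {a : Fin n → ℝ}
    (hK : a ∈ Kc u) (hae : 0 < ∑ i, a i * e i) : Kc u ∈ 𝓝 a := by
  have ha : a ≠ 0 := by
    rintro rfl
    simp at hae
  by_contra hcon
  have h1 : ∀ k : ℕ, ∃ b, dist b a < 1 / ((k:ℝ) + 1) ∧ b ∉ Kc u := by
    intro k
    by_contra h
    push Not at h
    apply hcon
    rw [Metric.mem_nhds_iff]
    exact ⟨1 / ((k:ℝ) + 1), by positivity, fun b hb => h b hb⟩
  choose b hb hbK using h1
  have h2 : ∀ k, ∃ y, |u y| ≤ β ∧ dd (b k) u y < 0 := fun k => bad_point hu hβ hβ0 (hbK k)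
  choose y hy hneg using h2
  have hbl : Tendsto b atTop (𝓝 a) := by
    rw [tendsto_iff_dist_tendsto_zero]
    exact tendsto_of_tendsto_of_tendsto_of_le_of_le tendsto_const_nhds
      tendsto_one_div_add_atTop_nhds_zero_nat (fun k => dist_nonneg) (fun k => (hb k).le)
  exact absurd (lemmaU hβ1 he hu hNR H1 ha hK hbl hy hneg).1 hae.ne'

/-- Sliding of directions. -/
theorem sliding {β : ℝ} (hβ : 1 < 3 * β ^ 2) (hβ0 : 0 ≤ β) (hβ1 : β < 1) {e : Fin n → ℝ}
    (he : ∑ i, e i ^ 2 = 1) (hu : Sol u) (hq : ∀ x, 0 < pd q u x) (hne : e ≠ - Pi.single q 1)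
    (hNR : NR β e u) (H1 : DegRigid u) :
    ∀ a : Fin n → ℝ, ∑ i, a i * e i = 0 → ∀ x, dd a u x = 0 := by
  have hqK : (Pi.single q 1 : Fin n → ℝ) ∈ Kc u := fun x => by
    rw [dd_single]; exact (hq x).le
  -- the ray
  have hray : ∀ s : ℝ, 0 ≤ s → Pi.single q 1 + s • e ∈ Kc u := by
    intro s hs
    set S : Set ℝ := {s | (Pi.single q 1 : Fin n → ℝ) + s • e ∈ Kc u} with hS
    have hScl : IsClosed S := (isClosed_Kc u).preimage (by fun_prop)
    have h0 : (0:ℝ) ∈ S := by
      show (Pi.single q 1 : Fin n → ℝ) + (0:ℝ) • e ∈ Kc u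
      simpa using hqK
    have hsub : Set.Icc 0 s ⊆ S := by
      apply IsClosed.Icc_subset_of_forall_mem_nhdsWithin (hScl.inter isClosed_Icc) h0
      intro t ht
      have htS : (Pi.single q 1 : Fin n → ℝ) + t • e ∈ Kc u := ht.1
      have hne0 : (Pi.single q 1 : Fin n → ℝ) + t • e ≠ 0 := by
        intro h
        have h1 : ∀ i, t * e i = - (Pi.single q 1 : Fin n → ℝ) i := by
          intro i
          have := congrFun h i
          simp only [Pi.add_apply, Pi.smul_apply, smul_eq_mul, Pi.zero_apply] at this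
          linarith
        have h2 : t ^ 2 = 1 := by
          have h3 : ∑ i, (t * e i) ^ 2 = ∑ i, (- (Pi.single q 1 : Fin n → ℝ) i) ^ 2 :=
            Finset.sum_congr rfl fun i _ => by rw [h1]
          simp_rw [mul_pow, neg_sq] at h3
          rw [← Finset.mul_sum, he, mul_one] at h3
          rw [h3]
          simp [Pi.single_apply]
        have h4 : t = 1 := by
          have := ht.2.1
          nlinarith
        apply hne
        funext i
        have := h1 i
        rw [h4, one_mul] at this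
        simpa using this
      obtain ⟨ε, hε, hmove⟩ := move_e hβ hβ0 hβ1 he hu hNR H1 hne0 htS
      have : Set.Ioo t (t + ε) ⊆ S := by
        intro r hr
        have h1 := hmove (r - t) (by linarith [hr.1]) (by linarith [hr.2])
        show (Pi.single q 1 : Fin n → ℝ) + r • e ∈ Kc u
        have e1 : (Pi.single q 1 : Fin n → ℝ) + r • e
            = Pi.single q 1 + t • e + (r - t) • e := by
          rw [sub_smul]; abel
        rw [e1]; exact h1
      exact Filter.mem_of_superset (Ioo_mem_nhdsGT (by linarith)) this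
    exact hsub ⟨hs, le_rfl⟩
  -- `e` is in the cone
  have heK : e ∈ Kc u := by
    intro x
    by_contra hneg
    push Not at hneg
    set s : ℝ := (pd q u x + 1) / (- dd e u x) with hs
    have hs0 : 0 ≤ s := by
      have := hq x
      have : 0 < - dd e u x := by linarith
      rw [hs]; positivity
    have h1 := hray s hs0 x
    rw [dd_add, dd_smul, dd_single] at h1
    have h2 : s * dd e u x = -(pd q u x + 1) := by
      have : dd e u x ≠ 0 := hneg.ne
      rw [hs]
      field_simp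
    rw [h2] at h1
    linarith
  -- the open half space is in the cone
  have hhalf : ∀ b : Fin n → ℝ, 0 < ∑ i, b i * e i → b ∈ Kc u := by
    intro b hb
    set S : Set ℝ := {t | (1 - t) • e + t • b ∈ Kc u} with hS
    have hcont : Continuous (fun t : ℝ => (1 - t) • e + t • b) := by fun_prop
    have hScl : IsClosed S := (isClosed_Kc u).preimage hcont
    have h0 : (0:ℝ) ∈ S := by
      show (1 - (0:ℝ)) • e + (0:ℝ) • b ∈ Kc u
      simpa using heK
    have hsub : Set.Icc (0:ℝ) 1 ⊆ S := by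
      apply IsClosed.Icc_subset_of_forall_mem_nhdsWithin (hScl.inter isClosed_Icc) h0
      intro t ht
      have htS : (1 - t) • e + t • b ∈ Kc u := ht.1
      have hpos : 0 < ∑ i, ((1 - t) • e + t • b) i * e i := by
        have e1 : ∀ i, ((1 - t) • e + t • b) i * e i = (1 - t) * e i ^ 2 + t * (b i * e i) := by
          intro i
          simp only [Pi.add_apply, Pi.smul_apply, smul_eq_mul]; ring
        simp_rw [e1]
        rw [Finset.sum_add_distrib, ← Finset.mul_sum, ← Finset.mul_sum, he]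
        have h1 := ht.2.1
        have h2 := ht.2.2
        nlinarith
      have h3 := cone_open hβ hβ0 hβ1 he hu hNR H1 htS hpos
      have h4 : S ∈ 𝓝 t := hcont.continuousAt.preimage_mem_nhds h3
      exact mem_nhdsWithin_of_mem_nhds h4
    have := hsub (Set.right_mem_Icc.mpr zero_le_one)
    have h1 : (1 - (1:ℝ)) • e + (1:ℝ) • b ∈ Kc u := this
    simpa using h1
  have hperp : ∀ a : Fin n → ℝ, ∑ i, a i * e i = 0 → ∀ x, 0 ≤ dd a u x := by
    intro a ha x
    by_contra hneg
    push Not at hneg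
    have hex := heK x
    set ε : ℝ := (- dd a u x) / (2 * (dd e u x + 1)) with hε
    have hε0 : 0 < ε := by rw [hε]; apply div_pos <;> linarith
    have h1 := hhalf (a + ε • e) (by
      have e1 : ∀ i, (a + ε • e) i * e i = a i * e i + ε * e i ^ 2 := by
        intro i
        simp only [Pi.add_apply, Pi.smul_apply, smul_eq_mul]; ring
      simp_rw [e1]
      rw [Finset.sum_add_distrib, ← Finset.mul_sum, he, ha]
      linarith) x
    rw [dd_add, dd_smul] at h1
    have h2 : ε * dd e u x ≤ (- dd a u x) / 2 := by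
      rw [hε, div_mul_eq_mul_div, div_le_div_iff₀ (by linarith) (by norm_num)]
      nlinarith
    linarith
  intro a ha x
  apply le_antisymm _ (hperp a ha x)
  have h1 := hperp (-a) (by simp only [Pi.neg_apply, neg_mul, Finset.sum_neg_distrib, ha, neg_zero]) x
  have h2 : dd (-a) u x = - dd a u x := by
    rw [← neg_one_smul ℝ a, dd_smul]; ring
  rw [h2] at h1
  linarith

/-- One-dimensionality. -/
theorem one_dim_of_perp {e : Fin n → ℝ} (he : ∑ i, e i ^ 2 = 1) (hu : Sol u)
    (h : ∀ a : Fin n → ℝ, ∑ i, a i * e i = 0 → ∀ x, dd a u x = 0) :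
    ∃ g : ℝ → ℝ, ∀ x, u x = g (∑ i, e i * x i) := by
  refine ⟨fun t => u (t • e), fun x => ?_⟩
  set t : ℝ := ∑ i, e i * x i with ht
  set a : Fin n → ℝ := x - t • e with ha
  have hd : Differentiable ℝ u := hu.c2.differentiable (by norm_num)
  have ha0 : ∑ i, a i * e i = 0 := by
    have : ∀ i, a i * e i = e i * x i - t * e i ^ 2 := by
      intro i; simp [ha]; ring
    simp_rw [this]
    rw [Finset.sum_sub_distrib, ← Finset.mul_sum, he, ← ht]
    ring
  have hder : ∀ s : ℝ, HasDerivAt (fun s : ℝ => u (t • e + s • a)) 0 s := by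
    intro s
    have h1 := hasDerivAt_dd hd (t • e) a s
    rwa [h a ha0] at h1
  have hconst := is_const_of_deriv_eq_zero (f := fun s : ℝ => u (t • e + s • a))
    (fun s => (hder s).differentiableAt) (fun s => (hder s).deriv) 1 0
  simp only [one_smul, zero_smul, add_zero, ha] at hconst
  rw [show t • e + (x - t • e) = x by abel] at hconst
  exact hconst

end Vale.Agent.P134.H765
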