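import Vale.Agent.P134.M4.Defs
import Vale.Agent.P134.H765.Slide

set_option linter.all false

/-! The end of the argument (2.8): if the tilt of a stable solution on the ball of radius `R`,
measured with respect to a unit vector depending on `R`, is `o(R²)`, then the solution is
one-dimensional. -/

namespace Vale.Agent.P134.H765

open Vale.Agent.P134 Vale.Agent.P134.SM Vale.Agent.P134.M4 MeasureTheory Filter Topology

variable {n : ℕ} {u v w η : (Fin n → ℝ) → ℝ} {x : Fin n → ℝ} {i j k : Fin n}

/-- `∂_k d`, where `u = tanh (d/√2)`. -/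
noncomputable def dk (u : (Fin n → ℝ) → ℝ) (k : Fin n) (x : Fin n → ℝ) : ℝ :=
  √2 * pd k u x / psi u x

lemma dk_c2 (hu : Sol u) (hp : ∀ x, 0 < psi u x) (k : Fin n) : ContDiff ℝ 2 (dk u k) :=
  (contDiff_const.mul (Sol.pd_c2 hu k)).div hu.psi_contDiff (fun x => (hp x).ne')

lemma pd_dk (hu : Sol u) (hp : ∀ x, 0 < psi u x) (k j : Fin n) (x : Fin n → ℝ) :
    psi u x ^ 2 * pd j (dk u k) x
      = √2 * (psi u x * pd j (pd k u) x + 2 * u x * pd j u x * pd k u x) := by
  have hd1 : DifferentiableAt ℝ (fun y => √2 * pd k u y) x :=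
    ((Sol.pd_c2 hu k).differentiable (by norm_num) x).const_mul _
  have hd2 : DifferentiableAt ℝ (psi u) x := hu.psi_contDiff.differentiable (by norm_num) x
  have hne := (hp x).ne'
  unfold dk
  rw [pd_div hd1 hd2 hne, pd_mul (f := fun _ => √2) (by fun_prop)
    ((Sol.pd_c2 hu k).differentiable (by norm_num) x), pd_const, hu.pd_psi]
  field_simp
  ring

/-- The equation for `∂_k d`. -/
lemma div_dk (hu : Sol u) (hp : ∀ x, 0 < psi u x) (k : Fin n) (x : Fin n → ℝ) :
    ∑ j, pd j (fun y => psi u y ^ 2 * pd j (dk u k) y) x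
      = - (2 * psi u x * defi u x * dk u k x) := by
  have c1 : ∀ j, Differentiable ℝ (pd j u) := fun j =>
    (Sol.pd_c2 hu j).differentiable (by norm_num)
  have c2 : ∀ i j, Differentiable ℝ (pd i (pd j u)) := fun i j =>
    (Sol.pd2_c2 hu i j).differentiable (by norm_num)
  have du : Differentiable ℝ u := hu.c2.differentiable (by norm_num)
  have dp : Differentiable ℝ (psi u) := hu.psi_contDiff.differentiable (by norm_num)
  have e1 : ∀ j, (fun y => psi u y ^ 2 * pd j (dk u k) y)
      = fun y => √2 * (psi u y * pd j (pd k u) y + 2 * (u y * (pd j u y * pd k u y))) := by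
    intro j; funext y
    rw [pd_dk hu hp]; ring
  have e2 : ∀ j, pd j (fun y => psi u y ^ 2 * pd j (dk u k) y) x
      = √2 * ((psi u x * pd j (pd j (pd k u)) x + pd j (pd k u) x * (-2 * u x * pd j u x))
        + 2 * (u x * (pd j u x * pd j (pd k u) x + pd k u x * pd j (pd j u) x)
          + (pd j u x * pd k u x) * pd j u x)) := by
    intro j
    have h1 : DifferentiableAt ℝ (fun y => psi u y * pd j (pd k u) y) x := (dp x).mul (c2 j k x)
    have h2 : DifferentiableAt ℝ (fun y => pd j u y * pd k u y) x := (c1 j x).mul (c1 k x)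
    have h3 : DifferentiableAt ℝ (fun y => u y * (pd j u y * pd k u y)) x := (du x).mul h2
    rw [e1, pd_mul (f := fun _ => √2) (by fun_prop) (h1.fun_add (h3.const_mul 2)), pd_const,
      pd_add h1 (h3.const_mul 2), pd_mul (dp x) (c2 j k x), hu.pd_psi,
      pd_mul (f := fun _ => (2:ℝ)) (by fun_prop) h3, pd_const, pd_mul (du x) h2,
      pd_mul (c1 j x) (c1 k x)]
    ring
  simp_rw [e2]
  rw [← Finset.mul_sum]
  have e3 : ∑ j, ((psi u x * pd j (pd j (pd k u)) x + pd j (pd k u) x * (-2 * u x * pd j u x))
        + 2 * (u x * (pd j u x * pd j (pd k u) x + pd k u x * pd j (pd j u) x)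
          + (pd j u x * pd k u x) * pd j u x))
      = psi u x * lap (pd k u) x + 2 * u x * pd k u x * lap u x + 2 * pd k u x * gs u x := by
    unfold lap gs
    rw [Finset.mul_sum, Finset.mul_sum, Finset.mul_sum, ← Finset.sum_add_distrib,
      ← Finset.sum_add_distrib]
    refine Finset.sum_congr rfl fun j _ => ?_
    ring
  rw [e3, Sol.lap_pd hu, Sol.lap_eq hu, defi_eq]
  have hne := (hp x).ne'
  unfold dk
  field_simp
  unfold psi
  ring

/-- Caccioppoli inequality for the second derivatives of `d`. -/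
theorem cacc (hu : Sol u) (hp : ∀ x, 0 < psi u x)
    (hst : ∀ η : (Fin n → ℝ) → ℝ, ContDiff ℝ 1 η → HasCompactSupport η →
      2 * ∫ x, psi u x * defi u x * η x ^ 2 ≤ ∫ x, psi u x ^ 2 * gs η x)
    {e : Fin n → ℝ} (he : ∑ i, e i ^ 2 = 1) (hη : ContDiff ℝ 1 η) (hc : HasCompactSupport η) :
    ∫ x, psi u x ^ 2 * (∑ k, gs (dk u k) x) * η x ^ 2
      ≤ 6 * ∫ x, psi u x ^ 2 * (∑ k, (dk u k x - e k) ^ 2) * gs η x := by
  have cp : Continuous (psi u) := hu.psi_contDiff.continuous
  have cD : Continuous (defi u) := hu.defi_continuous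
  have cdk : ∀ k, Continuous (dk u k) := fun k => (dk_c2 hu hp k).continuous
  have cpdk : ∀ k j, Continuous (pd j (dk u k)) := fun k j =>
    (contDiff_pd_one (dk_c2 hu hp k)).continuous
  have cη : Continuous η := hη.continuous
  have cpη : ∀ j, Continuous (pd j η) := fun j => continuous_pd hη
  have cgη : Continuous (gs η) := continuous_finsetSum _ fun j _ => (cpη j).pow 2
  have sη2 : HasCompactSupport (fun x => η x ^ 2) := hcs_sq hc
  have spη : ∀ j, HasCompactSupport (fun x => pd j η x ^ 2) := fun j =>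
    hcs_sq (hasCompactSupport_pd hc)
  have sgη : HasCompactSupport (gs η) := by
    apply HasCompactSupport.intro (hc)
    intro x hx
    unfold gs
    apply Finset.sum_eq_zero
    intro j _
    rw [pd_eq_zero_of_notMem_tsupport hx]
    norm_num
  set V : Fin n → (Fin n → ℝ) → ℝ := fun k x => dk u k x - e k with hV
  have cV : ∀ k, ContDiff ℝ 2 (V k) := fun k => (dk_c2 hu hp k).sub contDiff_const
  have dV : ∀ k, Differentiable ℝ (V k) := fun k => (cV k).differentiable (by norm_num)
  have hpV : ∀ k j x, pd j (V k) x = pd j (dk u k) x := by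
    intro k j x
    rw [hV, pd_sub ((dk_c2 hu hp k).differentiable (by norm_num) x) (by fun_prop), pd_const,
      sub_zero]
  have dη : Differentiable ℝ η := hη.differentiable (by norm_num)
  -- the integrands
  have key1 : ∀ k, ∫ x, (∑ j, psi u x ^ 2 * pd j (dk u k) x * (η x ^ 2 * pd j (dk u k) x
      + V k x * (2 * η x * pd j η x)) - 2 * psi u x * defi u x * dk u k x * (η x ^ 2 * V k x))
      = 0 := by
    intro k
    have hg1 : ContDiff ℝ 1 (fun x => η x ^ 2 * V k x) :=
      (hη.pow 2).mul ((cV k).of_le (by norm_num))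
    have hgc : HasCompactSupport (fun x => η x ^ 2 * V k x) := sη2.mul_right
    have hf1 : ∀ j, ContDiff ℝ 1 (fun x => psi u x ^ 2 * pd j (dk u k) x) := fun j =>
      ((hu.psi_contDiff.of_le (by norm_num)).pow 2).mul (contDiff_pd_one (dk_c2 hu hp k))
    have h1 : ∀ j, ∫ x, (psi u x ^ 2 * pd j (dk u k) x) * pd j (fun x => η x ^ 2 * V k x) x
        = - ∫ x, pd j (fun x => psi u x ^ 2 * pd j (dk u k) x) x * (η x ^ 2 * V k x) := fun j =>
      integral_mul_pd (hf1 j) hg1 hgc
    have i1 : ∀ j, Integrable (fun x => (psi u x ^ 2 * pd j (dk u k) x) *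
        pd j (fun x => η x ^ 2 * V k x) x) := fun j =>
      ((hf1 j).continuous.mul (continuous_pd hg1)).integrable_of_hasCompactSupport
        (hasCompactSupport_pd hgc).mul_left
    have i2 : ∀ j, Integrable (fun x => pd j (fun x => psi u x ^ 2 * pd j (dk u k) x) x *
        (η x ^ 2 * V k x)) := fun j =>
      ((continuous_pd (hf1 j)).mul hg1.continuous).integrable_of_hasCompactSupport hgc.mul_left
    have i3 : Integrable (fun x => 2 * psi u x * defi u x * dk u k x * (η x ^ 2 * V k x)) :=
      ((((continuous_const.mul cp).mul cD).mul (cdk k)).mul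
        hg1.continuous).integrable_of_hasCompactSupport hgc.mul_left
    have i4 : Integrable (fun x => ∑ j, psi u x ^ 2 * pd j (dk u k) x * (η x ^ 2 * pd j (dk u k) x
      + V k x * (2 * η x * pd j η x))) := by
      apply integrable_finsetSum
      intro j _
      refine (i1 j).congr (Eventually.of_forall fun x => ?_)
      simp only
      rw [pd_mul ((dη x).fun_pow 2) (dV k x), pd_sq (dη x), hpV]
    rw [integral_sub i4 i3]
    have h2 : ∫ x, ∑ j, psi u x ^ 2 * pd j (dk u k) x * (η x ^ 2 * pd j (dk u k) x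
      + V k x * (2 * η x * pd j η x))
        = ∑ j, ∫ x, (psi u x ^ 2 * pd j (dk u k) x) * pd j (fun x => η x ^ 2 * V k x) x := by
      rw [← integral_finsetSum _ (fun j _ => i1 j)]
      congr 1; funext x
      refine Finset.sum_congr rfl fun j _ => ?_
      rw [pd_mul ((dη x).fun_pow 2) (dV k x), pd_sq (dη x), hpV]
    rw [h2]
    simp_rw [h1]
    rw [Finset.sum_neg_distrib, ← integral_finsetSum _ (fun j _ => i2 j)]
    have h3 : ∫ x, ∑ j, pd j (fun x => psi u x ^ 2 * pd j (dk u k) x) x * (η x ^ 2 * V k x)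
        = ∫ x, -(2 * psi u x * defi u x * dk u k x * (η x ^ 2 * V k x)) := by
      congr 1; funext x
      rw [← Finset.sum_mul, div_dk hu hp]; ring
    rw [h3, integral_neg]
    ring
  have key2 : ∀ k, 0 ≤ ∫ x, (psi u x ^ 2 * gs (fun x => η x * V k x) x
      - 2 * (psi u x * defi u x * (η x * V k x) ^ 2)) := by
    intro k
    have hg1 : ContDiff ℝ 1 (fun x => η x * V k x) := hη.mul ((cV k).of_le (by norm_num))
    have hgc : HasCompactSupport (fun x => η x * V k x) := hc.mul_right
    have h1 := hst _ hg1 hgc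
    have cgs : Continuous (gs (fun x => η x * V k x)) :=
      continuous_finsetSum _ fun j _ => (continuous_pd hg1).pow 2
    have sgs : HasCompactSupport (gs (fun x => η x * V k x)) := by
      apply HasCompactSupport.intro (hgc)
      intro x hx
      unfold gs
      apply Finset.sum_eq_zero
      intro j _
      rw [pd_eq_zero_of_notMem_tsupport hx]
      norm_num
    have i1 : Integrable (fun x => psi u x ^ 2 * gs (fun x => η x * V k x) x) :=
      ((cp.pow 2).mul cgs).integrable_of_hasCompactSupport sgs.mul_left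
    have i2 : Integrable (fun x => psi u x * defi u x * (η x * V k x) ^ 2) :=
      ((cp.mul cD).mul (hg1.continuous.pow 2)).integrable_of_hasCompactSupport
        (hcs_sq hgc).mul_left
    rw [integral_sub i1 (i2.const_mul 2), integral_const_mul]
    linarith
  -- the pointwise inequality
  have hpw : ∀ x, ∑ k, ((psi u x ^ 2 * gs (fun x => η x * V k x) x
      - 2 * (psi u x * defi u x * (η x * V k x) ^ 2))
      - 2 * (∑ j, psi u x ^ 2 * pd j (dk u k) x * (η x ^ 2 * pd j (dk u k) x
      + V k x * (2 * η x * pd j η x)) - 2 * psi u x * defi u x * dk u k x * (η x ^ 2 * V k x)))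
      ≤ -(1 / 2) * (psi u x ^ 2 * (∑ k, gs (dk u k) x) * η x ^ 2)
        + 3 * (psi u x ^ 2 * (∑ k, (dk u k x - e k) ^ 2) * gs η x) := by
    intro x
    have hp0 := hp x
    have hD0 := hu.defi_nonneg x
    have e1 : ∀ k, gs (fun x => η x * V k x) x
        = ∑ j, (η x * pd j (dk u k) x + V k x * pd j η x) ^ 2 := by
      intro k
      unfold gs
      refine Finset.sum_congr rfl fun j _ => ?_
      rw [pd_mul (dη x) (dV k x), hpV]
    have h1 : ∀ k, psi u x ^ 2 * gs (fun x => η x * V k x) x
        - 2 * ∑ j, psi u x ^ 2 * pd j (dk u k) x * (η x ^ 2 * pd j (dk u k) x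
          + V k x * (2 * η x * pd j η x))
        ≤ -(1 / 2) * (psi u x ^ 2 * gs (dk u k) x * η x ^ 2)
          + 3 * (psi u x ^ 2 * V k x ^ 2 * gs η x) := by
      intro k
      rw [e1, Finset.mul_sum, Finset.mul_sum, ← Finset.sum_sub_distrib]
      have : -(1 / 2) * (psi u x ^ 2 * gs (dk u k) x * η x ^ 2)
          + 3 * (psi u x ^ 2 * V k x ^ 2 * gs η x)
          = ∑ j, (-(1 / 2) * (psi u x ^ 2 * pd j (dk u k) x ^ 2 * η x ^ 2)
            + 3 * (psi u x ^ 2 * V k x ^ 2 * pd j η x ^ 2)) := by
        unfold gs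
        rw [Finset.sum_add_distrib]
        congr 1
        · rw [Finset.mul_sum, Finset.sum_mul, Finset.mul_sum]
        · rw [Finset.mul_sum, Finset.mul_sum]
      rw [this]
      apply Finset.sum_le_sum
      intro j _
      have h2 : 0 ≤ psi u x ^ 2 * (η x * pd j (dk u k) x + 2 * V k x * pd j η x) ^ 2 := by
        positivity
      nlinarith [h2]
    have h2 : ∑ k, (- (2 * (psi u x * defi u x * (η x * V k x) ^ 2))
        + 2 * (2 * psi u x * defi u x * dk u k x * (η x ^ 2 * V k x))) ≤ 0 := by
      have e2 : ∀ k, - (2 * (psi u x * defi u x * (η x * V k x) ^ 2))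
        + 2 * (2 * psi u x * defi u x * dk u k x * (η x ^ 2 * V k x))
          = 2 * psi u x * defi u x * η x ^ 2 * (dk u k x ^ 2 - e k ^ 2) := by
        intro k; simp only [hV]; ring
      simp_rw [e2]
      rw [← Finset.mul_sum, Finset.sum_sub_distrib, he]
      have h3 : ∑ k, dk u k x ^ 2 ≤ 1 := by
        have : ∑ k, dk u k x ^ 2 = 2 * gs u x / psi u x ^ 2 := by
          unfold dk gs
          simp_rw [div_pow, mul_pow, Real.sq_sqrt (show (0:ℝ) ≤ 2 by norm_num)]
          rw [← Finset.sum_div, ← Finset.mul_sum]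
        rw [this, div_le_one (by positivity)]
        rw [defi_eq] at hD0
        linarith
      have h4 : 0 ≤ 2 * psi u x * defi u x * η x ^ 2 := by positivity
      nlinarith
    have h3 : ∑ k, ((psi u x ^ 2 * gs (fun x => η x * V k x) x
        - 2 * (psi u x * defi u x * (η x * V k x) ^ 2))
        - 2 * (∑ j, psi u x ^ 2 * pd j (dk u k) x * (η x ^ 2 * pd j (dk u k) x
        + V k x * (2 * η x * pd j η x)) - 2 * psi u x * defi u x * dk u k x * (η x ^ 2 * V k x)))
        = ∑ k, (psi u x ^ 2 * gs (fun x => η x * V k x) x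
          - 2 * ∑ j, psi u x ^ 2 * pd j (dk u k) x * (η x ^ 2 * pd j (dk u k) x
          + V k x * (2 * η x * pd j η x)))
          + ∑ k, (- (2 * (psi u x * defi u x * (η x * V k x) ^ 2))
        + 2 * (2 * psi u x * defi u x * dk u k x * (η x ^ 2 * V k x))) := by
      rw [← Finset.sum_add_distrib]
      refine Finset.sum_congr rfl fun k _ => ?_
      ring
    rw [h3]
    have h4 := Finset.sum_le_sum fun k (_ : k ∈ Finset.univ) => h1 k
    have h5 : ∑ k, (-(1 / 2) * (psi u x ^ 2 * gs (dk u k) x * η x ^ 2)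
          + 3 * (psi u x ^ 2 * V k x ^ 2 * gs η x))
        = -(1 / 2) * (psi u x ^ 2 * (∑ k, gs (dk u k) x) * η x ^ 2)
        + 3 * (psi u x ^ 2 * (∑ k, (dk u k x - e k) ^ 2) * gs η x) := by
      rw [Finset.sum_add_distrib]
      congr 1
      · rw [Finset.mul_sum, Finset.sum_mul, Finset.mul_sum]
      · simp only [hV]; rw [Finset.mul_sum, Finset.sum_mul, Finset.mul_sum]
    rw [h5] at h4
    linarith
  -- integrate
  have cgs2 : ∀ k, Continuous (gs (dk u k)) := fun k =>
    continuous_finsetSum _ fun j _ => (cpdk k j).pow 2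
  have j1 : Integrable (fun x => psi u x ^ 2 * (∑ k, gs (dk u k) x) * η x ^ 2) :=
    (((cp.pow 2).mul (continuous_finsetSum _ fun k _ => cgs2 k)).mul
      (cη.pow 2)).integrable_of_hasCompactSupport sη2.mul_left
  have j2 : Integrable (fun x => psi u x ^ 2 * (∑ k, (dk u k x - e k) ^ 2) * gs η x) :=
    (((cp.pow 2).mul (continuous_finsetSum _ fun k _ =>
      ((cdk k).sub continuous_const).pow 2)).mul cgη).integrable_of_hasCompactSupport sgη.mul_left
  have j3 : ∀ k, Integrable (fun x => ∑ j, psi u x ^ 2 * pd j (dk u k) x *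
      (η x ^ 2 * pd j (dk u k) x + V k x * (2 * η x * pd j η x))
      - 2 * psi u x * defi u x * dk u k x * (η x ^ 2 * V k x)) := by
    intro k
    apply Continuous.integrable_of_hasCompactSupport
    · exact (continuous_finsetSum _ fun j _ => ((cp.pow 2).mul (cpdk k j)).mul
        (((cη.pow 2).mul (cpdk k j)).add ((cV k).continuous.mul
          ((continuous_const.mul cη).mul (cpη j))))).sub
        ((((continuous_const.mul cp).mul cD).mul (cdk k)).mul ((cη.pow 2).mul (cV k).continuous))
    · apply HasCompactSupport.intro hc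
      intro x hx
      have h1 : η x = 0 := image_eq_zero_of_notMem_tsupport hx
      simp [h1]
  have j4 : ∀ k, Integrable (fun x => psi u x ^ 2 * gs (fun x => η x * V k x) x
      - 2 * (psi u x * defi u x * (η x * V k x) ^ 2)) := by
    intro k
    have hg1 : ContDiff ℝ 1 (fun x => η x * V k x) := hη.mul ((cV k).of_le (by norm_num))
    have hgc : HasCompactSupport (fun x => η x * V k x) := hc.mul_right
    apply Continuous.integrable_of_hasCompactSupport
    · exact ((cp.pow 2).mul (continuous_finsetSum _ fun j _ => (continuous_pd hg1).pow 2)).sub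
        (continuous_const.mul ((cp.mul cD).mul (hg1.continuous.pow 2)))
    · apply HasCompactSupport.intro hgc
      intro x hx
      have h1 : η x * V k x = 0 := image_eq_zero_of_notMem_tsupport
        (f := fun x => η x * V k x) hx
      have h2 : gs (fun x => η x * V k x) x = 0 := by
        unfold gs
        apply Finset.sum_eq_zero
        intro j _
        rw [pd_eq_zero_of_notMem_tsupport hx]
        norm_num
      rw [h1, h2]; ring
  have j5 : ∀ k, Integrable (fun x => (psi u x ^ 2 * gs (fun x => η x * V k x) x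
      - 2 * (psi u x * defi u x * (η x * V k x) ^ 2))
      - 2 * (∑ j, psi u x ^ 2 * pd j (dk u k) x * (η x ^ 2 * pd j (dk u k) x
      + V k x * (2 * η x * pd j η x)) - 2 * psi u x * defi u x * dk u k x * (η x ^ 2 * V k x))) :=
    fun k => (j4 k).sub ((j3 k).const_mul 2)
  have j6 : Integrable (fun x => -(1 / 2) * (psi u x ^ 2 * (∑ k, gs (dk u k) x) * η x ^ 2)
        + 3 * (psi u x ^ 2 * (∑ k, (dk u k x - e k) ^ 2) * gs η x)) :=
    (j1.const_mul (-(1/2))).add (j2.const_mul 3)
  have hfin : 0 ≤ ∫ x, ∑ k, ((psi u x ^ 2 * gs (fun x => η x * V k x) x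
      - 2 * (psi u x * defi u x * (η x * V k x) ^ 2))
      - 2 * (∑ j, psi u x ^ 2 * pd j (dk u k) x * (η x ^ 2 * pd j (dk u k) x
      + V k x * (2 * η x * pd j η x)) - 2 * psi u x * defi u x * dk u k x * (η x ^ 2 * V k x))) := by
    rw [integral_finsetSum _ (fun k _ => j5 k)]
    apply Finset.sum_nonneg
    intro k _
    rw [integral_sub (j4 k) ((j3 k).const_mul 2), integral_const_mul, key1 k]
    have := key2 k
    linarith
  have hle := integral_mono (integrable_finsetSum _ fun k _ => j5 k) j6 hpw
  have hsp : ∫ x, (-(1 / 2) * (psi u x ^ 2 * (∑ k, gs (dk u k) x) * η x ^ 2)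
        + 3 * (psi u x ^ 2 * (∑ k, (dk u k x - e k) ^ 2) * gs η x))
      = -(1 / 2) * (∫ x, psi u x ^ 2 * (∑ k, gs (dk u k) x) * η x ^ 2)
        + 3 * ∫ x, psi u x ^ 2 * (∑ k, (dk u k x - e k) ^ 2) * gs η x := by
    rw [integral_add (j1.const_mul (-(1/2))) (j2.const_mul 3), integral_const_mul,
      integral_const_mul]
  have := hfin.trans hle
  rw [hsp] at this
  linarith

/-- The tilt density of `u` with respect to `e`: `|∇u|² - 2 m ∂_e u + m²`, `m = ψ/√2`. -/
noncomputable def TD (e : Fin n → ℝ) (u : (Fin n → ℝ) → ℝ) (x : Fin n → ℝ) : ℝ :=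
  gs u x - √2 * psi u x * dd e u x + psi u x ^ 2 / 2

lemma TD_eq (hp : ∀ x, 0 < psi u x) {e : Fin n → ℝ} (he : ∑ i, e i ^ 2 = 1) (x : Fin n → ℝ) :
    psi u x ^ 2 * (∑ k, (dk u k x - e k) ^ 2) = 2 * TD e u x := by
  have hne := (hp x).ne'
  have h2 : √2 ^ 2 = 2 := Real.sq_sqrt (by norm_num)
  have e1 : ∀ k, psi u x ^ 2 * (dk u k x - e k) ^ 2
      = 2 * pd k u x ^ 2 - 2 * (√2 * psi u x * (e k * pd k u x)) + psi u x ^ 2 * e k ^ 2 := by
    intro k
    unfold dk
    field_simp
    linear_combination (pd k u x ^ 2) * h2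
  rw [Finset.mul_sum]
  simp_rw [e1]
  rw [Finset.sum_add_distrib, Finset.sum_sub_distrib, ← Finset.mul_sum, ← Finset.mul_sum,
    ← Finset.mul_sum, ← Finset.mul_sum, he]
  unfold TD gs dd
  ring

lemma TD_nonneg (hp : ∀ x, 0 < psi u x) {e : Fin n → ℝ} (he : ∑ i, e i ^ 2 = 1)
    (x : Fin n → ℝ) : 0 ≤ TD e u x := by
  have h1 := TD_eq hp he x
  have h2 : 0 ≤ psi u x ^ 2 * (∑ k, (dk u k x - e k) ^ 2) :=
    mul_nonneg (sq_nonneg _) (Finset.sum_nonneg fun _ _ => sq_nonneg _)
  linarith

/-- The end of the argument. -/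
theorem end28 (hn : 0 < n) (hu : Sol u) (hlt : ∀ x, |u x| < 1)
    (hst : ∀ η : (Fin n → ℝ) → ℝ, ContDiff ℝ 1 η → HasCompactSupport η →
      2 * ∫ x, psi u x * defi u x * η x ^ 2 ≤ ∫ x, psi u x ^ 2 * gs η x)
    (hT : ∀ ε : ℝ, 0 < ε → ∀ R0 : ℝ, ∃ R : ℝ, R0 ≤ R ∧ ∃ e : Fin n → ℝ, ∑ i, e i ^ 2 = 1 ∧
      ∫ x in bl R, TD e u x ≤ ε * R ^ 2) :
    ∃ (e : Fin n → ℝ) (h : ℝ → ℝ), ∑ i, e i ^ 2 = 1 ∧ ∀ x, u x = h (∑ i, e i * x i) := by
  have hp : ∀ x, 0 < psi u x := by
    intro x
    have h1 := abs_lt.mp (hlt x)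
    unfold psi
    nlinarith
  have cp : Continuous (psi u) := hu.psi_contDiff.continuous
  have cgs2 : ∀ k, Continuous (gs (dk u k)) := fun k =>
    continuous_finsetSum _ fun j _ => ((contDiff_pd_one (dk_c2 hu hp k)).continuous).pow 2
  set F : (Fin n → ℝ) → ℝ := fun x => psi u x ^ 2 * (∑ k, gs (dk u k) x) with hF
  have cF : Continuous F := (cp.pow 2).mul (continuous_finsetSum _ fun k _ => cgs2 k)
  have F0 : ∀ x, 0 ≤ F x := fun x =>
    mul_nonneg (sq_nonneg _) (Finset.sum_nonneg fun k _ => gs_nonneg _ _)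
  obtain ⟨C, hC1, hC⟩ := exists_th_bound
  have hn' : (0:ℝ) < n := by exact_mod_cast hn
  have hbl : ∀ R : ℝ, MeasurableSet (bl R : Set (Fin n → ℝ)) := fun R =>
    measurableSet_le (rho_contDiff (k := 0) _).continuous.measurable measurable_const
  have hblc : ∀ R : ℝ, 0 ≤ R → IsCompact (bl R : Set (Fin n → ℝ)) := by
    intro R hR
    have h1 : (bl R : Set (Fin n → ℝ)) ⊆ box n R := by
      intro x hx
      rw [mem_box]
      intro i
      have h2 := sq_le_rho (Finset.mem_univ i) x
      have h3 : rho Finset.univ x ≤ R ^ 2 := hx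
      exact abs_le_of_sq_le_sq (by linarith) hR
    exact (isCompact_box R).of_isClosed_subset
      (isClosed_le (rho_contDiff (k := 0) _).continuous continuous_const) h1
  have hcs : ∀ r : ℝ, 0 < r → HasCompactSupport (cutb (Finset.univ : Finset (Fin n)) r) := by
    intro r hr
    apply HasCompactSupport.intro (hblc (2 * r) (by linarith))
    intro x hx
    apply cutb_eq_zero hr
    have : ¬ rho Finset.univ x ≤ (2 * r) ^ 2 := hx
    push Not at this
    nlinarith
  -- the energy estimate
  have key : ∀ r : ℝ, 0 < r → ∫ x, F x * cutb Finset.univ r x ^ 2 ≤ 0 := by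
    intro r hr
    apply le_of_forall_pos_le_add
    intro δ hδ
    obtain ⟨R, hR, e, he, hTe⟩ := hT (δ / (432 * n * C ^ 2)) (by positivity) (4 * r + 1)
    have hR0 : 0 < R := by linarith
    have h1 := cacc hu hp hst he (cutb_contDiff Finset.univ (R / 2)) (hcs (R / 2) (by linarith))
    have h2 : ∫ x, F x * cutb Finset.univ r x ^ 2 ≤ ∫ x, F x * cutb Finset.univ (R / 2) x ^ 2 := by
      apply integral_mono
      · exact (cF.mul ((cutb_contDiff _ _).continuous.pow 2)).integrable_of_hasCompactSupport
          (hcs_sq (hcs r hr)).mul_left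
      · exact (cF.mul ((cutb_contDiff _ _).continuous.pow 2)).integrable_of_hasCompactSupport
          (hcs_sq (hcs (R / 2) (by linarith))).mul_left
      · intro x
        simp only
        apply mul_le_mul_of_nonneg_left _ (F0 x)
        by_cases hx : rho Finset.univ x ≤ 2 * r ^ 2
        · have h3 : cutb Finset.univ (R / 2) x = 1 := by
            unfold cutb
            apply th_one
            rw [div_le_one (by positivity)]
            nlinarith
          rw [h3]
          have h4 := cutb_nonneg (Finset.univ : Finset (Fin n)) r x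
          have h5 := cutb_le_one (Finset.univ : Finset (Fin n)) r x
          nlinarith
        · push Not at hx
          rw [cutb_eq_zero hr hx.le]
          nlinarith [sq_nonneg (cutb Finset.univ (R / 2) x)]
    have h3 : ∫ x, psi u x ^ 2 * (∑ k, (dk u k x - e k) ^ 2) * gs (cutb Finset.univ (R / 2)) x
        ≤ (n * (6 * C / R) ^ 2) * (2 * ∫ x in bl R, TD e u x) := by
      have cTD : Continuous (TD e u) := by
        unfold TD
        exact (((continuous_finsetSum _ fun j _ =>
          ((contDiff_pd_one hu.c2).continuous.pow 2)).sub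
          ((continuous_const.mul cp).mul (dd_continuous hu e)))).add ((cp.pow 2).div_const 2)
      rw [← integral_const_mul, ← integral_const_mul, ← integral_indicator (hbl R)]
      apply integral_mono_of_nonneg
      · refine Eventually.of_forall fun x => ?_
        exact mul_nonneg (mul_nonneg (sq_nonneg _) (Finset.sum_nonneg fun _ _ => sq_nonneg _))
          (gs_nonneg _ _)
      · rw [integrable_indicator_iff (hbl R)]
        exact ((continuous_const.mul (continuous_const.mul cTD)).continuousOn.integrableOn_compact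
          (hblc R hR0.le))
      · refine Eventually.of_forall fun x => ?_
        simp only
        rw [TD_eq hp he]
        by_cases hx : x ∈ (bl R : Set (Fin n → ℝ))
        · rw [Set.indicator_of_mem hx]
          have h4 : gs (cutb Finset.univ (R / 2)) x ≤ n * (6 * C / R) ^ 2 := by
            unfold gs
            calc ∑ i, pd i (cutb Finset.univ (R / 2)) x ^ 2 ≤ ∑ _i : Fin n, (6 * C / R) ^ 2 := by
                  apply Finset.sum_le_sum
                  intro i _
                  have h5 := pd_cutb_bound (i := i) (x := x) hC Finset.univ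
                    (show (0:ℝ) < R / 2 by linarith)
                  have h6 : 3 * C / (R / 2) = 6 * C / R := by field_simp; ring
                  rw [h6] at h5
                  rw [← sq_abs]
                  exact pow_le_pow_left₀ (abs_nonneg _) h5 2
              _ = n * (6 * C / R) ^ 2 := by
                  rw [Finset.sum_const, Finset.card_univ, Fintype.card_fin, nsmul_eq_mul]
          have h5 := TD_nonneg hp he x
          nlinarith
        · rw [Set.indicator_of_notMem hx]
          have h4 : gs (cutb Finset.univ (R / 2)) x = 0 := by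
            unfold gs
            apply Finset.sum_eq_zero
            intro i _
            have hx' : R ^ 2 < rho Finset.univ x := not_le.mp hx
            rw [pd_cutb, th_deriv_of_gt]
            · simp
            · rw [lt_div_iff₀ (by positivity)]
              nlinarith
          rw [h4, mul_zero]
    have h4 : 6 * ((n * (6 * C / R) ^ 2) * (2 * ∫ x in bl R, TD e u x)) ≤ δ := by
      calc 6 * ((n * (6 * C / R) ^ 2) * (2 * ∫ x in bl R, TD e u x))
          ≤ 6 * ((n * (6 * C / R) ^ 2) * (2 * (δ / (432 * n * C ^ 2) * R ^ 2))) := by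
            gcongr
        _ = δ := by
            have hC0 : C ≠ 0 := by linarith
            field_simp
            ring
    have h5 : ∫ x, F x * cutb Finset.univ (R / 2) x ^ 2
        ≤ 6 * ∫ x, psi u x ^ 2 * (∑ k, (dk u k x - e k) ^ 2) * gs (cutb Finset.univ (R / 2)) x := h1
    linarith
  -- the second derivatives vanish
  have hzero : ∀ x, F x = 0 := by
    intro x
    by_contra hne
    set r : ℝ := Real.sqrt (rho Finset.univ x) + 1 with hr
    have hr0 : 0 < r := by positivity
    have hx1 : cutb Finset.univ r x = 1 := by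
      unfold cutb
      apply th_one
      rw [div_le_one (by positivity)]
      have h1 : rho Finset.univ x = Real.sqrt (rho Finset.univ x) ^ 2 :=
        (Real.sq_sqrt (rho_nonneg _ _)).symm
      rw [h1, hr]
      have := Real.sqrt_nonneg (rho Finset.univ x)
      nlinarith
    have h1 : 0 < ∫ x, F x * cutb Finset.univ r x ^ 2 := by
      apply Continuous.integral_pos_of_hasCompactSupport_nonneg_nonzero (x := x)
      · exact cF.mul ((cutb_contDiff _ _).continuous.pow 2)
      · exact (hcs_sq (hcs r hr0)).mul_left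
      · intro y; exact mul_nonneg (F0 y) (sq_nonneg _)
      · rw [hx1, one_pow, mul_one]; exact hne
    exact absurd (key r hr0) (not_le.mpr h1)
  have hpd0 : ∀ k j x, pd j (dk u k) x = 0 := by
    intro k j x
    have h1 := hzero x
    have h2 : ∑ k, gs (dk u k) x = 0 := by
      rcases mul_eq_zero.mp h1 with h3 | h3
      · have := hp x
        exact absurd h3 (by positivity)
      · exact h3
    have h3 := (Finset.sum_eq_zero_iff_of_nonneg (fun k _ => gs_nonneg (dk u k) x)).mp h2 k
      (Finset.mem_univ k)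
    have h4 := (Finset.sum_eq_zero_iff_of_nonneg (fun j _ => sq_nonneg (pd j (dk u k) x))).mp h3 j
      (Finset.mem_univ j)
    exact pow_eq_zero_iff (two_ne_zero) |>.mp h4
  set a : Fin n → ℝ := fun k => dk u k 0 with ha
  have hconst : ∀ k x, dk u k x = a k := by
    intro k x
    have hd : Differentiable ℝ (dk u k) := (dk_c2 hu hp k).differentiable (by norm_num)
    have hder : ∀ t : ℝ, HasDerivAt (fun t : ℝ => dk u k (0 + t • x)) 0 t := by
      intro t
      have h2 := hasDerivAt_dd hd 0 x t
      have h3 : dd x (dk u k) (0 + t • x) = 0 := by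
        unfold dd
        simp [hpd0]
      rwa [h3] at h2
    have h3 := is_const_of_deriv_eq_zero (fun t => (hder t).differentiableAt)
      (fun t => (hder t).deriv) 1 0
    simpa using h3
  have hpdu : ∀ k x, pd k u x = a k * (psi u x / √2) := by
    intro k x
    have h1 := hconst k x
    unfold dk at h1
    have h2 := (hp x).ne'
    have h3 : (√2 : ℝ) ≠ 0 := by positivity
    rw [← h1]
    field_simp
  have hperp : ∀ w : Fin n → ℝ, ∑ i, w i * a i = 0 → ∀ x, dd w u x = 0 := by
    intro w hw x
    unfold dd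
    simp_rw [hpdu]
    have : ∀ i, w i * (a i * (psi u x / √2)) = (w i * a i) * (psi u x / √2) := fun i => by ring
    simp_rw [this]
    rw [← Finset.sum_mul, hw, zero_mul]
  by_cases ha0 : a = 0
  · obtain ⟨g, hg⟩ := one_dim_of_perp (e := Pi.single (⟨0, hn⟩ : Fin n) 1)
      (by simp [Pi.single_apply]) hu (fun w _ x => hperp w (by rw [ha0]; simp) x)
    exact ⟨_, g, by simp [Pi.single_apply], hg⟩
  · set N : ℝ := ∑ i, a i ^ 2 with hN
    have hN0 : 0 < N := by
      apply lt_of_le_of_ne (Finset.sum_nonneg fun i _ => sq_nonneg _)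
      intro h0
      apply ha0
      funext i
      have := (Finset.sum_eq_zero_iff_of_nonneg (fun i _ => sq_nonneg (a i))).mp h0.symm i
        (Finset.mem_univ i)
      exact pow_eq_zero_iff (two_ne_zero) |>.mp this
    have hs0 : 0 < Real.sqrt N := Real.sqrt_pos.mpr hN0
    have he1 : ∑ i, ((Real.sqrt N)⁻¹ * a i) ^ 2 = 1 := by
      simp_rw [mul_pow]
      rw [← Finset.mul_sum, ← hN, inv_pow, Real.sq_sqrt hN0.le, inv_mul_cancel₀ hN0.ne']
    obtain ⟨g, hg⟩ := one_dim_of_perp (e := fun i => (Real.sqrt N)⁻¹ * a i) he1 hu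
      (fun w hw x => hperp w (by
        have : ∀ i, w i * ((Real.sqrt N)⁻¹ * a i) = (Real.sqrt N)⁻¹ * (w i * a i) :=
          fun i => by ring
        simp_rw [this] at hw
        rw [← Finset.mul_sum] at hw
        exact (mul_eq_zero.mp hw).resolve_left (inv_ne_zero hs0.ne')) x)
    exact ⟨_, g, he1, hg⟩

end Vale.Agent.P134.H765
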