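import Vale.Agent.P134.SM.Smooth

set_option linter.all false

/-! Strong maximum principle for `Δ w ≤ C w`, `w ≥ 0`, and the linearised equation for
directional derivatives. -/

namespace Vale.Agent.P134.H765

open Vale.Agent.P134 Filter Topology

variable {n : ℕ} {f g u v w : (Fin n → ℝ) → ℝ} {x : Fin n → ℝ} {i j : Fin n}

lemma esq_contDiff {k : WithTop ℕ∞} (y : Fin n → ℝ) : ContDiff ℝ k (fun x : Fin n → ℝ => esq (x - y)) := by
  unfold esq
  apply ContDiff.sum
  intro i _
  have : ContDiff ℝ k (fun x : Fin n → ℝ => (x - y) i) := by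
    simp only [Pi.sub_apply]
    fun_prop
  exact this.pow 2

lemma pd_esq (y : Fin n → ℝ) (i : Fin n) (x : Fin n → ℝ) :
    pd i (fun x : Fin n → ℝ => esq (x - y)) x = 2 * (x i - y i) := by
  have h : (fun x : Fin n → ℝ => esq (x - y)) = fun x => rho Finset.univ (x + (-y)) := by
    funext x; unfold esq rho
    refine Finset.sum_congr rfl fun i _ => ?_
    rw [sub_eq_add_neg]
  rw [h, pd_shift (w := rho Finset.univ) (-y), pd_rho]
  simp
  ring

/-- Gaussian-type bump. -/
noncomputable def ga (α : ℝ) (y : Fin n → ℝ) (x : Fin n → ℝ) : ℝ := Real.exp (-α * esq (x - y))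

lemma ga_contDiff {k : WithTop ℕ∞} (α : ℝ) (y : Fin n → ℝ) : ContDiff ℝ k (ga α y) :=
  (contDiff_const.mul (esq_contDiff y)).exp

lemma pd_ga (α : ℝ) (y : Fin n → ℝ) (i : Fin n) (x : Fin n → ℝ) :
    pd i (ga α y) x = (-2 * α * (x i - y i)) * ga α y x := by
  have hd : DifferentiableAt ℝ (fun x : Fin n → ℝ => esq (x - y)) x :=
    ((esq_contDiff (k := 1) y).differentiable (by norm_num)) x
  have h1 : pd i (fun x : Fin n → ℝ => -α * esq (x - y)) x = -α * (2 * (x i - y i)) := by
    rw [pd_mul (f := fun _ => -α) (by fun_prop) hd, pd_const, pd_esq]; ring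
  unfold ga
  rw [pd_comp (h := Real.exp) (Real.differentiableAt_exp) (hd.const_mul _), h1, Real.deriv_exp]
  ring

lemma pd_pd_ga (α : ℝ) (y : Fin n → ℝ) (i : Fin n) (x : Fin n → ℝ) :
    pd i (pd i (ga α y)) x = (4 * α ^ 2 * (x i - y i) ^ 2 - 2 * α) * ga α y x := by
  have e : pd i (ga α y) = fun x => (-2 * α * (x i - y i)) * ga α y x := by
    funext z; exact pd_ga α y i z
  have hd : DifferentiableAt ℝ (ga α y) x :=
    ((ga_contDiff (k := 1) α y).differentiable (by norm_num)) x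
  have h1 : pd i (fun x : Fin n → ℝ => -2 * α * (x i - y i)) x = -2 * α := by
    rw [pd_mul (f := fun _ => -2 * α) (by fun_prop) (by fun_prop), pd_const,
      pd_sub (by fun_prop) (by fun_prop), pd_const, pd_coord]
    simp
  rw [e, pd_mul (by fun_prop) hd, h1, pd_ga]
  ring

lemma lap_ga (α : ℝ) (y : Fin n → ℝ) (x : Fin n → ℝ) :
    ∑ i, pd i (pd i (ga α y)) x = (4 * α ^ 2 * esq (x - y) - 2 * n * α) * ga α y x := by
  simp_rw [pd_pd_ga]
  rw [← Finset.sum_mul, Finset.sum_sub_distrib, ← Finset.mul_sum]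
  simp only [Finset.sum_const, Finset.card_univ, Fintype.card_fin, nsmul_eq_mul]
  unfold esq
  simp only [Pi.sub_apply]
  ring

lemma pd2_nonneg_of_isLocalMin (hw : ContDiff ℝ 2 w) {x : Fin n → ℝ}
    (hmin : IsLocalMin w x) (i : Fin n) : 0 ≤ pd i (pd i w) x := by
  have h1 : IsLocalMax (fun y => - w y) x := hmin.neg
  have h2 := pd2_nonpos_of_isLocalMax hw.neg h1 i
  have e1 : pd i (fun y => - w y) = fun y => - pd i w y := by funext y; exact pd_neg
  rw [e1, pd_neg] at h2
  linarith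

lemma continuous_esq_sub (y : Fin n → ℝ) : Continuous (fun x : Fin n → ℝ => esq (x - y)) :=
  (esq_contDiff (k := 0) y).continuous

lemma isCompact_esq_le (y : Fin n → ℝ) (r : ℝ) : IsCompact {x : Fin n → ℝ | esq (x - y) ≤ r} := by
  have hcl : IsClosed {x : Fin n → ℝ | esq (x - y) ≤ r} :=
    isClosed_le (continuous_esq_sub y) continuous_const
  apply (isCompact_closedBall y (Real.sqrt r)).of_isClosed_subset hcl
  intro x hx
  rw [Metric.mem_closedBall, dist_eq_norm]
  have h1 := norm_le_eno (x - y)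
  have h2 : eno (x - y) ≤ Real.sqrt r := Real.sqrt_le_sqrt hx
  exact h1.trans h2

/-- Strong maximum principle. -/
theorem smp (hw : ContDiff ℝ 2 w) (h0 : ∀ x, 0 ≤ w x) {C : ℝ}
    (hC : ∀ x, ∑ i, pd i (pd i w) x ≤ C * w x) {x0 : Fin n → ℝ} (hx0 : w x0 = 0)
    (y0 : Fin n → ℝ) : w y0 = 0 := by
  by_contra hne
  have hy0 : 0 < w y0 := lt_of_le_of_ne (h0 y0) (Ne.symm hne)
  -- closest zero
  obtain ⟨z, hz0, hzmin⟩ : ∃ z, w z = 0 ∧ ∀ x, w x = 0 → esq (z - y0) ≤ esq (x - y0) := by
    have hcl : IsClosed {x : Fin n → ℝ | w x = 0} := isClosed_eq hw.continuous continuous_const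
    have hK : IsCompact ({x : Fin n → ℝ | esq (x - y0) ≤ esq (x0 - y0)} ∩ {x | w x = 0}) :=
      (isCompact_esq_le y0 _).inter_right hcl
    have hx0m : x0 ∈ {x : Fin n → ℝ | esq (x - y0) ≤ esq (x0 - y0)} := le_refl (esq (x0 - y0))
    obtain ⟨z, hzK, hz⟩ := hK.exists_isMinOn ⟨x0, hx0m, hx0⟩ (continuous_esq_sub y0).continuousOn
    refine ⟨z, hzK.2, fun x hx => ?_⟩
    by_cases hxx : esq (x - y0) ≤ esq (x0 - y0)
    · exact hz ⟨hxx, hx⟩
    · exact (hz ⟨hx0m, hx0⟩).trans (not_le.mp hxx).le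
  set r2 : ℝ := esq (z - y0) with hr2
  have hzy : z ≠ y0 := by rintro rfl; exact hne hz0
  have hr0 : 0 < r2 := by
    have h1 := eno_pos (z := z - y0) (sub_ne_zero.mpr hzy)
    rw [hr2, ← eno_sq]; positivity
  have hpos : ∀ x, esq (x - y0) < r2 → 0 < w x := by
    intro x hx
    refine lt_of_le_of_ne (h0 x) fun h => ?_
    exact absurd (hzmin x h.symm) (not_le.mpr hx)
  -- constants
  set C' : ℝ := |C| + 1 with hC'
  have hC'0 : 0 < C' := by positivity
  have hCw : ∀ x, ∑ i, pd i (pd i w) x ≤ C' * w x := fun x =>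
    (hC x).trans (mul_le_mul_of_nonneg_right (by rw [hC']; linarith [le_abs_self C]) (h0 x))
  set α : ℝ := (C' + 2 * n + 1) / r2 + 1 + 2 * n / r2 with hα
  have hα1 : 1 ≤ α := by
    rw [hα]
    have : 0 ≤ (C' + 2 * n + 1) / r2 := by positivity
    have : 0 ≤ 2 * (n:ℝ) / r2 := by positivity
    linarith
  have hαr : C' + 2 * n ≤ α * r2 := by
    have : α * r2 = (C' + 2 * n + 1) + r2 + 2 * n := by rw [hα]; field_simp
    rw [this]; nlinarith [hr0, (Nat.cast_nonneg n : (0:ℝ) ≤ n)]
  have hαC : C' ≤ α ^ 2 * r2 - 2 * n * α := by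
    have : α ^ 2 * r2 - 2 * n * α = α * (α * r2 - 2 * n) := by ring
    rw [this]
    nlinarith
  -- inner compact ball
  have hKin : IsCompact {x : Fin n → ℝ | esq (x - y0) ≤ r2 / 4} := isCompact_esq_le y0 _
  obtain ⟨p0, hp0, hp0min⟩ := hKin.exists_isMinOn ⟨y0, by
    show esq (y0 - y0) ≤ r2 / 4
    rw [sub_self]; unfold esq; simp; positivity⟩ hw.continuous.continuousOn
  set m : ℝ := w p0 with hm
  have hm0 : 0 < m := hpos p0 (lt_of_le_of_lt hp0 (by linarith))
  have hwm : ∀ x, esq (x - y0) ≤ r2 / 4 → m ≤ w x := fun x hx => hp0min hx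
  -- barrier
  set c1 : ℝ := Real.exp (-α * r2) with hc1
  have hc1pos : 0 < c1 := Real.exp_pos _
  set F : (Fin n → ℝ) → ℝ := fun x => w x - m * (ga α y0 x - c1) with hF
  have hFc : ContDiff ℝ 2 F := hw.sub (contDiff_const.mul ((ga_contDiff α y0).sub contDiff_const))
  have hga1 : ∀ x, ga α y0 x ≤ 1 := by
    intro x
    unfold ga
    rw [Real.exp_le_one_iff]
    have := esq_nonneg (x - y0)
    nlinarith
  have hKA : IsCompact {x : Fin n → ℝ | esq (x - y0) ≤ r2} := isCompact_esq_le y0 _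
  have hKA2 : IsCompact ({x : Fin n → ℝ | esq (x - y0) ≤ r2} ∩ {x | r2 / 4 ≤ esq (x - y0)}) :=
    hKA.inter_right (isClosed_le continuous_const (continuous_esq_sub y0))
  obtain ⟨p, hp, hpmin⟩ := hKA2.exists_isMinOn ⟨z, (le_refl r2 : esq (z - y0) ≤ r2), by
    show r2 / 4 ≤ r2; linarith⟩ hFc.continuous.continuousOn
  have hFp : 0 ≤ F p := by
    by_contra hneg
    push Not at hneg
    have h1 : esq (p - y0) ≠ r2 := by
      intro h
      have : ga α y0 p = c1 := by unfold ga; rw [h]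
      have h2 : F p = w p := by rw [hF]; simp only [this, sub_self, mul_zero, sub_zero]
      rw [h2] at hneg
      exact absurd (h0 p) (not_le.mpr hneg)
    have h2 : esq (p - y0) ≠ r2 / 4 := by
      intro h
      have h3 := hwm p h.le
      have h4 := hga1 p
      have : F p = w p - m * (ga α y0 p - c1) := rfl
      rw [this] at hneg
      nlinarith
    have h3 : esq (p - y0) < r2 := lt_of_le_of_ne hp.1 h1
    have h4 : r2 / 4 < esq (p - y0) := lt_of_le_of_ne hp.2 (Ne.symm h2)
    have hloc : IsLocalMin F p := by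
      have hopen : IsOpen ({x : Fin n → ℝ | esq (x - y0) < r2} ∩ {x | r2 / 4 < esq (x - y0)}) :=
        (isOpen_lt (continuous_esq_sub y0) continuous_const).inter
          (isOpen_lt continuous_const (continuous_esq_sub y0))
      filter_upwards [hopen.mem_nhds ⟨h3, h4⟩] with x hx
      have hx1 : esq (x - y0) < r2 := hx.1
      have hx2 : r2 / 4 < esq (x - y0) := hx.2
      exact hpmin ⟨hx1.le, hx2.le⟩
    have h5 : 0 ≤ ∑ i, pd i (pd i F) p :=
      Finset.sum_nonneg fun i _ => pd2_nonneg_of_isLocalMin hFc hloc i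
    have dw : Differentiable ℝ w := hw.differentiable (by norm_num)
    have dg : Differentiable ℝ (ga α y0) := (ga_contDiff (k := 1) α y0).differentiable (by norm_num)
    have dwi : ∀ i, Differentiable ℝ (pd i w) := fun i =>
      (contDiff_pd_one hw).differentiable (by norm_num)
    have dgi : ∀ i, Differentiable ℝ (pd i (ga α y0)) := fun i =>
      (contDiff_pd_one (ga_contDiff (k := 2) α y0)).differentiable (by norm_num)
    have e1 : ∀ i, pd i F = fun x => pd i w x - m * pd i (ga α y0) x := by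
      intro i; funext x
      rw [hF, pd_sub (dw x) (((dg x).sub_const _).const_mul _),
        pd_mul (f := fun _ => m) (by fun_prop) ((dg x).sub_const _), pd_const,
        pd_sub (dg x) (by fun_prop), pd_const]
      ring
    have e2 : ∀ i, pd i (pd i F) p = pd i (pd i w) p - m * pd i (pd i (ga α y0)) p := by
      intro i
      rw [e1, pd_sub (dwi i p) ((dgi i p).const_mul _),
        pd_mul (f := fun _ => m) (by fun_prop) (dgi i p), pd_const]
      ring
    simp_rw [e2] at h5
    rw [Finset.sum_sub_distrib, ← Finset.mul_sum, lap_ga] at h5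
    have hga0 : 0 < ga α y0 p := Real.exp_pos _
    have h6 : C' ≤ 4 * α ^ 2 * esq (p - y0) - 2 * n * α := by
      have : α ^ 2 * r2 ≤ 4 * α ^ 2 * esq (p - y0) := by
        nlinarith [sq_nonneg α]
      linarith
    have h7 : C' * (ga α y0 p - c1) ≤ (4 * α ^ 2 * esq (p - y0) - 2 * n * α) * ga α y0 p := by
      have h8 : C' * ga α y0 p ≤ (4 * α ^ 2 * esq (p - y0) - 2 * n * α) * ga α y0 p :=
        mul_le_mul_of_nonneg_right h6 hga0.le
      have h9 : 0 ≤ C' * c1 := by positivity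
      nlinarith
    have h8 := hCw p
    have h9 : m * (C' * (ga α y0 p - c1))
        ≤ m * ((4 * α ^ 2 * esq (p - y0) - 2 * n * α) * ga α y0 p) :=
      mul_le_mul_of_nonneg_left h7 hm0.le
    have h10 : C' * F p = C' * w p - m * (C' * (ga α y0 p - c1)) := by rw [hF]; ring
    have h11 : C' * F p < 0 := mul_neg_of_pos_of_neg hC'0 hneg
    linarith
  have hFA : ∀ x, esq (x - y0) ≤ r2 → r2 / 4 ≤ esq (x - y0) → 0 ≤ F x := fun x h1 h2 =>
    hFp.trans (hpmin ⟨h1, h2⟩)
  -- derivative at `z`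
  have hFz : F z = 0 := by
    have : ga α y0 z = c1 := by unfold ga; rw [← hr2]
    rw [hF]; simp only [this, sub_self, mul_zero, sub_zero]; exact hz0
  set φ : ℝ → ℝ := fun s => F (z + s • (y0 - z)) with hφ
  have hes : ∀ s : ℝ, esq (z + s • (y0 - z) - y0) = (1 - s) ^ 2 * r2 := by
    intro s
    rw [hr2]; unfold esq
    rw [Finset.mul_sum]
    refine Finset.sum_congr rfl fun i _ => ?_
    simp only [Pi.sub_apply, Pi.add_apply, Pi.smul_apply, smul_eq_mul]
    ring
  have hφ0 : φ 0 = 0 := by simp only [hφ, zero_smul, add_zero]; exact hFz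
  have hφn : ∀ s, 0 ≤ s → s ≤ 1 / 2 → 0 ≤ φ s := by
    intro s hs0 hs1
    apply hFA
    · rw [hes]
      have : (1 - s) ^ 2 ≤ 1 := by nlinarith
      nlinarith
    · rw [hes]
      have : 1 / 4 ≤ (1 - s) ^ 2 := by nlinarith
      nlinarith
  have hwz : ∀ i, pd i w z = 0 := by
    intro i
    have hl : IsLocalMin w z := Filter.Eventually.of_forall fun x => by rw [hz0]; exact h0 x
    unfold pd
    rw [hl.fderiv_eq_zero]; rfl
  have hdφ : HasDerivAt φ (dd (y0 - z) F z) 0 := by
    have := hasDerivAt_dd (hFc.differentiable (by norm_num)) z (y0 - z) 0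
    simpa only [zero_smul, add_zero] using this
  have hval : dd (y0 - z) F z = - (m * (2 * α * r2 * c1)) := by
    unfold dd
    have dw : Differentiable ℝ w := hw.differentiable (by norm_num)
    have dg : Differentiable ℝ (ga α y0) := (ga_contDiff (k := 1) α y0).differentiable (by norm_num)
    have hgz : ga α y0 z = c1 := by unfold ga; rw [← hr2]
    have e1 : ∀ i, pd i F z = - (m * ((-2 * α * (z i - y0 i)) * c1)) := by
      intro i
      rw [hF, pd_sub (dw z) (((dg z).sub_const _).const_mul _),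
        pd_mul (f := fun _ => m) (by fun_prop) ((dg z).sub_const _), pd_const,
        pd_sub (dg z) (by fun_prop), pd_const, pd_ga, hwz, hgz]
      ring
    simp_rw [e1]
    have e2 : ∀ i, (y0 - z) i * -(m * (-2 * α * (z i - y0 i) * c1))
        = - (m * (2 * α * c1)) * (z - y0) i ^ 2 := by
      intro i; simp only [Pi.sub_apply]; ring
    simp_rw [e2]
    rw [← Finset.mul_sum]
    have : ∑ i, (z - y0) i ^ 2 = r2 := rfl
    rw [this]; ring
  have hneg : dd (y0 - z) F z < 0 := by
    rw [hval]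
    have : 0 < m * (2 * α * r2 * c1) := by positivity
    linarith
  -- contradiction
  rw [hasDerivAt_iff_tendsto_slope] at hdφ
  have h1 : ∀ᶠ s in 𝓝[≠] (0:ℝ), slope φ 0 s < 0 := hdφ.eventually (gt_mem_nhds hneg)
  have h2 : ∀ᶠ s in 𝓝[>] (0:ℝ), slope φ 0 s < 0 :=
    h1.filter_mono (nhdsWithin_mono _ (fun s (hs : (0:ℝ) < s) => ne_of_gt hs))
  have h3 : ∀ᶠ s in 𝓝[>] (0:ℝ), s < 1 / 2 :=
    Filter.Eventually.filter_mono nhdsWithin_le_nhds (gt_mem_nhds (by norm_num))
  have h4 : ∀ᶠ s in 𝓝[>] (0:ℝ), 0 < s := self_mem_nhdsWithin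
  obtain ⟨s, hs⟩ := (h2.and (h3.and h4)).exists
  obtain ⟨hs1, hs2, hs3⟩ := hs
  have h5 := hφn s hs3.le hs2.le
  rw [slope_def_field, hφ0, sub_zero, sub_zero] at hs1
  have h6 : 0 ≤ φ s / s := by positivity
  linarith

/-- The linearised equation for directional derivatives. -/
lemma lap_dd (hu : Sol u) (e x : Fin n → ℝ) :
    ∑ i, pd i (pd i (dd e u)) x = (3 * u x ^ 2 - 1) * dd e u x := by
  have c3 : ContDiff ℝ 3 u := by exact_mod_cast SM.Sol.contDiff_nat hu 3
  have cj : ∀ j, ContDiff ℝ 2 (pd j u) := fun j => contDiff_pd (k := 2) (by exact_mod_cast c3)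
  have cij : ∀ i j, ContDiff ℝ 1 (pd i (pd j u)) := fun i j => contDiff_pd_one (cj j)
  have dij : ∀ i j, Differentiable ℝ (pd i (pd j u)) := fun i j =>
    (cij i j).differentiable (by norm_num)
  have e1 : ∀ i, pd i (dd e u) = fun x => ∑ j, e j * pd i (pd j u) x := by
    intro i; funext y; exact pd_dd hu.c2 i y
  have e2 : ∀ i, pd i (pd i (dd e u)) x = ∑ j, e j * pd i (pd i (pd j u)) x := by
    intro i
    rw [e1, pd_sum Finset.univ (F := fun j y => e j * pd i (pd j u) y)
      (fun j _ => (dij i j x).const_mul _)]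
    refine Finset.sum_congr rfl fun j _ => ?_
    rw [pd_mul (f := fun _ => e j) (by fun_prop) (dij i j x), pd_const]
    ring
  simp_rw [e2]
  rw [Finset.sum_comm]
  simp_rw [← Finset.mul_sum]
  unfold dd
  rw [Finset.mul_sum]
  refine Finset.sum_congr rfl fun j _ => ?_
  have e3 : ∀ i, pd i (pd i (pd j u)) x = pd j (pd i (pd i u)) x := by
    intro i
    have h1 : pd i (pd j u) = pd j (pd i u) := by funext y; exact pd_comm hu.c2
    rw [h1]
    exact pd_comm (cj i)
  simp_rw [e3]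
  have e4 : ∑ i, pd j (pd i (pd i u)) x = pd j (fun y => ∑ i, pd i (pd i u) y) x := by
    rw [pd_sum Finset.univ (F := fun i y => pd i (pd i u) y) (fun i _ => dij i i x)]
  rw [e4]
  have e5 : (fun y => ∑ i, pd i (pd i u) y) = fun y => u y ^ 3 - u y := by
    funext y; exact hu.eq y
  rw [e5, pd_cube_sub ((hu.c2.differentiable (by norm_num)) x)]
  ring

lemma dd_contDiff2 (hu : Sol u) (e : Fin n → ℝ) : ContDiff ℝ 2 (dd e u) := by
  have c3 : ContDiff ℝ 3 u := by exact_mod_cast SM.Sol.contDiff_nat hu 3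
  have cj : ∀ j, ContDiff ℝ 2 (pd j u) := fun j => contDiff_pd (k := 2) (by exact_mod_cast c3)
  exact ContDiff.sum fun i _ => contDiff_const.mul (cj i)

/-- Strong maximum principle for directional derivatives of solutions. -/
theorem dd_smp (hu : Sol u) {e : Fin n → ℝ} (h0 : ∀ x, 0 ≤ dd e u x) {x0 : Fin n → ℝ}
    (hx0 : dd e u x0 = 0) (x : Fin n → ℝ) : dd e u x = 0 := by
  apply smp (dd_contDiff2 hu e) h0 (C := 2) _ hx0
  intro y
  rw [lap_dd hu]
  have hb := abs_le.mp (hu.bd y)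
  have h1 : u y ^ 2 ≤ 1 := by nlinarith
  exact mul_le_mul_of_nonneg_right (by linarith) (h0 y)

end Vale.Agent.P134.H765
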