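import Vale.Agent.P134.H491.Hyp
import Vale.Agent.P134.H765.SMP
import Mathlib.Analysis.Calculus.ContDiff.Convolution
import Mathlib.Analysis.Calculus.BumpFunction.FiniteDimension
import Mathlib.Analysis.Calculus.BumpFunction.Normed
import Mathlib.MeasureTheory.Function.L2Space

set_option linter.all false

/-! Tools for the existence of bounded Riccati fields for stable potentials: abstract minimising
sequences, smooth functions from bounded iterated partial derivatives, an exponential weight. -/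

namespace Vale.Agent.P134.H765

open Vale.Agent.P134 Vale.Agent.P134.SM Filter Topology MeasureTheory

/-- Abstract minimising sequences for quadratic functionals. -/
theorem min_seq {E : Type*} [AddCommGroup E] [Module ℝ E] {A S : Set E} {J : E → ℝ}
    {D : E → E → ℝ} {Q : E → ℝ} (hA : ∀ x ∈ A, ∀ y ∈ A, ∀ t : ℝ, x + t • y ∈ A)
    (hJ : ∀ x ∈ A, ∀ y ∈ A, ∀ t : ℝ, J (x + t • y) = J x + t * D x y + t ^ 2 / 2 * Q y)
    (hb : ∃ m, ∀ x ∈ A, m ≤ J x) (hSA : S ⊆ A)
    (hS : ∀ x ∈ A, ∀ e : ℝ, 0 < e → ∃ y ∈ S, J y ≤ J x + e) (hne : A.Nonempty) :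
    ∃ y : ℕ → E, (∀ k, y k ∈ S) ∧
      (∀ k l, Q (y k - y l) ≤ 4 * (1 / ((k:ℝ) + 1) + 1 / ((l:ℝ) + 1))) ∧
      ∀ z ∈ A, Tendsto (fun k => D (y k) z) atTop (𝓝 0) := by
  set m : ℝ := sInf (J '' A) with hm
  have hbd : BddBelow (J '' A) := by
    obtain ⟨b, hb⟩ := hb
    exact ⟨b, by rintro _ ⟨x, hx, rfl⟩; exact hb x hx⟩
  have hmle : ∀ x ∈ A, m ≤ J x := fun x hx => csInf_le hbd ⟨x, hx, rfl⟩
  have hex : ∀ k : ℕ, ∃ y ∈ S, J y ≤ m + 1 / ((k:ℝ) + 1) := by
    intro k
    have hk : (0:ℝ) < 1 / ((k:ℝ) + 1) / 2 := by positivity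
    obtain ⟨_, ⟨x, hx, rfl⟩, hlt⟩ := exists_lt_of_csInf_lt (hne.image J) (lt_add_of_pos_right m hk)
    obtain ⟨y, hy, hle⟩ := hS x hx _ hk
    exact ⟨y, hy, by linarith⟩
  choose y hyS hyJ using hex
  refine ⟨y, hyS, fun k l => ?_, fun z hz => ?_⟩
  · have hk := hSA (hyS k)
    have hl := hSA (hyS l)
    have hz : y k - y l ∈ A := by
      have := hA _ hk _ hl (-1)
      rwa [neg_smul, one_smul, ← sub_eq_add_neg] at this
    have h1 := hJ _ hl _ hz 1
    have h2 := hJ _ hl _ hz (1 / 2)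
    have h3 := hmle _ (hA _ hl _ hz (1 / 2))
    rw [one_smul, add_sub_cancel] at h1
    rw [h2] at h3
    have h4 := hyJ k
    have h5 := hyJ l
    linarith
  · have hkey : ∀ k : ℕ, D (y k) z ^ 2 ≤ 2 * Q z * (1 / ((k:ℝ) + 1)) := by
      intro k
      have hk := hSA (hyS k)
      have h1 : ∀ t : ℝ, 0 ≤ (Q z / 2) * (t * t) + D (y k) z * t + 1 / ((k:ℝ) + 1) := by
        intro t
        have h2 := hmle _ (hA _ hk _ hz t)
        rw [hJ _ hk _ hz t] at h2
        have h3 := hyJ k
        nlinarith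
      have h4 := discrim_le_zero h1
      unfold discrim at h4
      linarith
    have hlim : Tendsto (fun k : ℕ => 2 * Q z * (1 / ((k:ℝ) + 1))) atTop (𝓝 0) := by
      have := (tendsto_one_div_add_atTop_nhds_zero_nat (𝕜 := ℝ)).const_mul (2 * Q z)
      simpa using this
    have hsq : Tendsto (fun k : ℕ => D (y k) z ^ 2) atTop (𝓝 0) :=
      squeeze_zero (fun k => sq_nonneg _) hkey hlim
    have habs : Tendsto (fun k : ℕ => |D (y k) z|) atTop (𝓝 0) := by
      have h := hsq.sqrt
      simpa [Real.sqrt_sq_eq_abs] using h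
    exact (tendsto_zero_iff_abs_tendsto_zero _).mpr habs

variable {n : ℕ} {f g u v w V W φ η ζ : (Fin n → ℝ) → ℝ} {x : Fin n → ℝ} {i j : Fin n}

lemma ipd_append (l : List (Fin n)) (i : Fin n) (f : (Fin n → ℝ) → ℝ) :
    ipd (l ++ [i]) f = ipd l (pd i f) := by
  induction l with
  | nil => rfl
  | cons j l ih => simp only [List.cons_append, ipd_cons, ih]

lemma dl_differentiable (hf : Differentiable ℝ f) :
    ∀ l : List (Fin n → ℝ), Differentiable ℝ (dl l f) := by
  intro l
  induction l with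
  | nil => exact hf
  | cons v l ih =>
      have h1 : Differentiable ℝ (fun y : Fin n → ℝ => dl l f (y + v)) :=
        ih.comp (differentiable_id.add_const v)
      exact h1.sub ih

/-- Functions with bounded iterated partial derivatives of all orders. -/
lemma exists_DB_of_ipd : ∀ (m : ℕ) (f : (Fin n → ℝ) → ℝ),
    (∀ l : List (Fin n), Differentiable ℝ (ipd l f) ∧ ∃ C, ∀ x, |ipd l f x| ≤ C) →
    ∃ C, DB m C f := by
  intro m
  induction m with
  | zero =>
      intro f h
      obtain ⟨-, C, hC⟩ := h []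
      refine ⟨C, fun l hl x => ?_⟩
      have hl0 : l = [] := List.length_eq_zero_iff.mp (Nat.le_zero.mp hl)
      subst hl0
      simpa [dl_nil, ipd_nil] using hC x
  | succ m ih =>
      intro f h
      obtain ⟨C0, hC0⟩ := ih f h
      have hi : ∀ i : Fin n, ∃ C, DB m C (pd i f) := by
        intro i
        apply ih
        intro l
        rw [← ipd_append]
        exact h _
      choose C hC using hi
      have hd : Differentiable ℝ f := (h []).1
      set B : ℝ := C0 + ∑ i, C i with hB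
      have hC0' := hC0.nonneg
      have hCi : ∀ i, 0 ≤ C i := fun i => (hC i).nonneg
      have hB0 : 0 ≤ B := add_nonneg hC0' (Finset.sum_nonneg fun i _ => hCi i)
      have hBi : ∀ i, C i ≤ B := fun i => by
        have := Finset.single_le_sum (fun i _ => hCi i) (Finset.mem_univ i)
        rw [hB]; linarith
      refine ⟨max B (n * B), fun l hl x => ?_⟩
      rcases l with _ | ⟨v, l⟩
      · have := hC0.bd x
        simp only [dl_nil, List.map_nil, List.prod_nil, mul_one]
        refine (this.trans ?_).trans (le_max_left _ _)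
        rw [hB]; linarith [Finset.sum_nonneg fun i (_ : i ∈ Finset.univ) => hCi i]
      · have hl' : l.length ≤ m := by simpa using hl
        have hP : 0 ≤ (l.map norm).prod := List.prod_nonneg (by simp)
        have hg : ∀ y i, |pd i (dl l f) y| ≤ B * (l.map norm).prod := by
          intro y i
          rw [(pd_dl hd i l y).2]
          exact (hC i l hl' y).trans (mul_le_mul_of_nonneg_right (hBi i) hP)
        have h1 := abs_sub_le_of_pd (dl_differentiable hd l) hg x v
        rw [dl_cons]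
        calc _ ≤ _ := h1
          _ = (n * B) * (‖v‖ * (l.map norm).prod) := by ring
          _ ≤ max B (n * B) * (‖v‖ * (l.map norm).prod) :=
              mul_le_mul_of_nonneg_right (le_max_right _ _) (mul_nonneg (norm_nonneg _) hP)
          _ = _ := by simp only [List.map_cons, List.prod_cons]

lemma nice_of_ipd (h : ∀ l : List (Fin n), Differentiable ℝ (ipd l f) ∧
    ∃ C, ∀ x, |ipd l f x| ≤ C) : Nice f := ⟨(h []).1, fun m => exists_DB_of_ipd m f h⟩

/-! ### Convolutions `∫ φ(y) g(x - y) dy` -/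

/-- Convolution. -/
noncomputable def cg (φ g : (Fin n → ℝ) → ℝ) (x : Fin n → ℝ) : ℝ := ∫ y, φ y * g (x - y)

lemma cg_eq (φ g : (Fin n → ℝ) → ℝ) :
    cg φ g = convolution φ g (ContinuousLinearMap.mul ℝ ℝ) volume := rfl

lemma cg_pd (hφ : LocallyIntegrable φ volume) (hg : ContDiff ℝ 1 g) (hc : HasCompactSupport g) :
    Differentiable ℝ (cg φ g) ∧ ∀ i, pd i (cg φ g) = cg φ (pd i g) := by
  have h := fun x => hc.hasFDerivAt_convolution_right (ContinuousLinearMap.mul ℝ ℝ) hφ hg x
  refine ⟨fun x => (h x).differentiableAt, fun i => funext fun x => ?_⟩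
  have h1 : fderiv ℝ (cg φ g) x = _ := (h x).fderiv
  unfold pd
  rw [h1, convolution_precompR_apply (ContinuousLinearMap.mul ℝ ℝ) hφ (hc.fderiv ℝ)
    (hg.continuous_fderiv (by norm_num))]
  rfl

lemma abs_mul_le_sq_add (a b : ℝ) : |a * b| ≤ a ^ 2 + b ^ 2 := by
  rw [abs_mul, ← sq_abs a, ← sq_abs b]
  nlinarith [sq_nonneg (|a| - |b|), sq_nonneg (|a|), sq_nonneg (|b|)]

lemma hcs_sq (hc : HasCompactSupport g) : HasCompactSupport (fun y => g y ^ 2) := by
  have e : (fun y => g y ^ 2) = fun y => g y * g y := funext fun y => sq (g y)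
  rw [e]
  exact hc.mul_right

lemma integrable_sq_cc (hg : Continuous g) (hc : HasCompactSupport g) :
    Integrable (fun y => g y ^ 2) :=
  (hg.pow 2).integrable_of_hasCompactSupport (hcs_sq hc)

lemma cg_bdd (hφ : MemLp φ 2 volume) (hg : Continuous g) (hc : HasCompactSupport g) :
    ∃ C, ∀ x, |cg φ g x| ≤ C := by
  have h1 : Integrable (fun y => φ y ^ 2) := hφ.integrable_sq
  have h2 : Integrable (fun y => g y ^ 2) := integrable_sq_cc hg hc
  refine ⟨(∫ y, φ y ^ 2) + ∫ y, g y ^ 2, fun x => ?_⟩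
  have h3 : Integrable (fun y => g (x - y) ^ 2) := h2.comp_sub_left x
  have h4 : ∫ y, g (x - y) ^ 2 = ∫ y, g y ^ 2 := integral_sub_left_eq_self (fun y => g y ^ 2) volume x
  have h5 : Integrable (fun y => φ y ^ 2 + g (x - y) ^ 2) := h1.add h3
  have h6 : ‖∫ y, φ y * g (x - y)‖ ≤ ∫ y, (φ y ^ 2 + g (x - y) ^ 2) :=
    norm_integral_le_of_norm_le h5 (Eventually.of_forall fun y => abs_mul_le_sq_add _ _)
  rw [integral_add h1 h3, h4] at h6
  exact h6

lemma hcs_ipd (hc : HasCompactSupport g) : ∀ l : List (Fin n), HasCompactSupport (ipd l g) := by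
  intro l
  induction l with
  | nil => exact hc
  | cons i l ih => exact hasCompactSupport_pd ih

lemma cd_ipd (hg : ContDiff ℝ (⊤ : ℕ∞) g) :
    ∀ l : List (Fin n), ContDiff ℝ (⊤ : ℕ∞) (ipd l g) := by
  intro l
  induction l with
  | nil => exact hg
  | cons i l ih =>
      have : ContDiff ℝ (⊤ : ℕ∞) (fderiv ℝ (ipd l g)) := ih.fderiv_right (by simp)
      exact this.clm_apply contDiff_const

theorem cg_nice (hφ : MemLp φ 2 volume) (hg : ContDiff ℝ (⊤ : ℕ∞) g) (hc : HasCompactSupport g) :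
    Nice (cg φ g) := by
  have hl : LocallyIntegrable φ volume := hφ.locallyIntegrable (by norm_num)
  have h1 : ∀ l : List (Fin n), ipd l (cg φ g) = cg φ (ipd l g) := by
    intro l
    induction l with
    | nil => rfl
    | cons i l ih =>
        rw [ipd_cons, ih, (cg_pd hl ((cd_ipd hg l).of_le (by exact_mod_cast le_top))
          (hcs_ipd hc l)).2 i]
        rfl
  apply nice_of_ipd
  intro l
  rw [h1 l]
  exact ⟨(cg_pd hl ((cd_ipd hg l).of_le (by exact_mod_cast le_top)) (hcs_ipd hc l)).1,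
    cg_bdd hφ (cd_ipd hg l).continuous (hcs_ipd hc l)⟩

/-! ### The weight `exp (- ∑ √(1 + xᵢ²))` -/

/-- One-dimensional weight. -/
noncomputable def w1 (t : ℝ) : ℝ := Real.sqrt (1 + t ^ 2)

lemma w1_pos (t : ℝ) : 0 < w1 t := Real.sqrt_pos.mpr (by positivity)
lemma w1_sq (t : ℝ) : w1 t ^ 2 = 1 + t ^ 2 := Real.sq_sqrt (by positivity)
lemma one_le_w1 (t : ℝ) : 1 ≤ w1 t := by
  rw [w1, Real.one_le_sqrt]; nlinarith [sq_nonneg t]

lemma w1_contDiff {k : WithTop ℕ∞} : ContDiff ℝ k w1 := by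
  unfold w1
  exact (contDiff_const.add (contDiff_id.pow 2)).sqrt fun t => by positivity

lemma w1_deriv (t : ℝ) : HasDerivAt w1 (t / w1 t) t := by
  have h : HasDerivAt (fun t : ℝ => 1 + t ^ 2) (2 * t) t := by
    simpa using (hasDerivAt_pow 2 t).const_add 1
  have h2 := h.sqrt (by positivity)
  refine h2.congr_deriv ?_
  unfold w1
  field_simp

lemma w1_deriv2 (t : ℝ) : HasDerivAt (fun t => t / w1 t) (1 / w1 t ^ 3) t := by
  have h := (hasDerivAt_id t).div (w1_deriv t) (w1_pos t).ne'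
  refine h.congr_deriv ?_
  have hp := (w1_pos t).ne'
  have hs := w1_sq t
  simp only [id]
  field_simp
  nlinarith

lemma abs_w1_deriv (t : ℝ) : |t / w1 t| ≤ 1 := by
  rw [abs_div, abs_of_pos (w1_pos t), div_le_one (w1_pos t)]
  apply abs_le_of_sq_le_sq _ (w1_pos t).le
  rw [w1_sq]; linarith

lemma w1_lip (s t : ℝ) : |w1 s - w1 t| ≤ |s - t| := by
  have := Convex.norm_image_sub_le_of_norm_hasDerivWithin_le (f := w1) (f' := fun t => t / w1 t)
    (s := Set.univ) (C := 1) (x := t) (y := s) (fun x _ => (w1_deriv x).hasDerivWithinAt)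
    (fun x _ => abs_w1_deriv x) convex_univ (Set.mem_univ _) (Set.mem_univ _)
  simpa using this

/-- The weight. -/
noncomputable def kf (x : Fin n → ℝ) : ℝ := Real.exp (-∑ i, w1 (x i))

lemma kf_pos (x : Fin n → ℝ) : 0 < kf x := Real.exp_pos _

lemma sw_contDiff {k : WithTop ℕ∞} : ContDiff ℝ k (fun x : Fin n → ℝ => -∑ i, w1 (x i)) :=
  (ContDiff.sum fun i _ => w1_contDiff.comp (contDiff_apply ℝ ℝ i)).neg

lemma kf_contDiff {k : WithTop ℕ∞} : ContDiff ℝ k (kf (n := n)) := sw_contDiff.exp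

lemma pd_sw (i : Fin n) (x : Fin n → ℝ) :
    pd i (fun x : Fin n → ℝ => -∑ i, w1 (x i)) x = - (x i / w1 (x i)) := by
  rw [pd_neg, pd_sum]
  · congr 1
    have : ∀ j, pd i (fun y : Fin n → ℝ => w1 (y j)) x = if j = i then x i / w1 (x i) else 0 := by
      intro j
      rw [pd_comp (h := w1) (f := fun y : Fin n → ℝ => y j) (w1_deriv _).differentiableAt
        (by fun_prop), pd_coord, (w1_deriv _).deriv]
      split_ifs with h
      · rw [h, mul_one]
      · rw [mul_zero]
    simp [this]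
  · intro j _
    exact (w1_contDiff.comp (contDiff_apply ℝ ℝ j)).differentiable (n := 1) (by norm_num) x

lemma pd_kf (i : Fin n) (x : Fin n → ℝ) : pd i kf x = - (x i / w1 (x i)) * kf x := by
  unfold kf
  rw [pd_comp (h := Real.exp) (f := fun x : Fin n → ℝ => -∑ i, w1 (x i))
    Real.differentiableAt_exp ((sw_contDiff (k := 1)).differentiable (by norm_num) x), pd_sw,
    Real.deriv_exp]
  ring

lemma pd_pd_kf (i : Fin n) (x : Fin n → ℝ) :
    pd i (pd i kf) x = ((x i / w1 (x i)) ^ 2 - 1 / w1 (x i) ^ 3) * kf x := by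
  have e : pd i (kf (n := n)) = fun x => - (x i / w1 (x i)) * kf x := funext fun x => pd_kf i x
  have h1 : pd i (fun x : Fin n → ℝ => - (x i / w1 (x i))) x = - (1 / w1 (x i) ^ 3) := by
    rw [pd_neg, pd_comp (h := fun t => t / w1 t) (f := fun y : Fin n → ℝ => y i)
      (w1_deriv2 _).differentiableAt (by fun_prop), pd_coord, (w1_deriv2 _).deriv]
    simp
  have hd : DifferentiableAt ℝ (fun x : Fin n → ℝ => - (x i / w1 (x i))) x := by
    have : DifferentiableAt ℝ (fun t => t / w1 t) (x i) := (w1_deriv2 _).differentiableAt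
    exact (this.comp x (by fun_prop : DifferentiableAt ℝ (fun y : Fin n → ℝ => y i) x)).neg
  rw [e, pd_mul hd ((kf_contDiff (k := 1)).differentiable (by norm_num) x), h1, pd_kf]
  ring

lemma lap_kf (x : Fin n → ℝ) : - (n * kf x) ≤ lap kf x := by
  unfold lap
  have : ∀ i : Fin n, - kf x ≤ pd i (pd i kf) x := by
    intro i
    rw [pd_pd_kf]
    have h1 : 1 / w1 (x i) ^ 3 ≤ 1 := by
      rw [div_le_one (pow_pos (w1_pos _) 3)]
      exact one_le_pow₀ (one_le_w1 _)
    nlinarith [kf_pos x, sq_nonneg (x i / w1 (x i))]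
  calc - (n * kf x) = ∑ _i : Fin n, - kf x := by simp
    _ ≤ _ := Finset.sum_le_sum fun i _ => this i

lemma kf_le_mul (x y : Fin n → ℝ) : kf x ≤ Real.exp (n * ‖x - y‖) * kf y := by
  unfold kf
  rw [← Real.exp_add, Real.exp_le_exp]
  have : ∑ i, w1 (y i) - ∑ i, w1 (x i) ≤ n * ‖x - y‖ := by
    rw [← Finset.sum_sub_distrib]
    calc ∑ i, (w1 (y i) - w1 (x i)) ≤ ∑ _i : Fin n, ‖x - y‖ := by
          apply Finset.sum_le_sum
          intro i _
          have h1 := (abs_le.mp (w1_lip (x i) (y i))).1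
          have h2 : |x i - y i| ≤ ‖x - y‖ := norm_le_pi_norm (x - y) i
          linarith
      _ = _ := by simp
  linarith

lemma kf_le_one (x : Fin n → ℝ) : kf x ≤ 1 := by
  unfold kf
  rw [Real.exp_le_one_iff, neg_nonpos]
  exact Finset.sum_nonneg fun i _ => (w1_pos _).le

lemma kf_integrable : Integrable (kf (n := n)) := by
  have h1 : Integrable (fun t : ℝ => Real.exp (- w1 t)) := by
    have h2 : Integrable (fun t : ℝ => 2 * (1 + t ^ 2)⁻¹) := integrable_inv_one_add_sq.const_mul 2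
    refine h2.mono' ((w1_contDiff (k := 1)).continuous.neg.rexp.aestronglyMeasurable)
      (Eventually.of_forall fun t => ?_)
    rw [Real.norm_eq_abs, abs_of_pos (Real.exp_pos _), Real.exp_neg, ← w1_sq]
    have h3 : w1 t ^ 2 / 2 ≤ Real.exp (w1 t) := by
      have := Real.quadratic_le_exp_of_nonneg (w1_pos t).le
      linarith [w1_pos t]
    have h4 : 0 < w1 t ^ 2 := pow_pos (w1_pos t) 2
    rw [← div_eq_mul_inv, inv_eq_one_div, div_le_div_iff₀ (Real.exp_pos _) h4]
    linarith
  have h2 := MeasureTheory.Integrable.fintype_prod (f := fun (_ : Fin n) (t : ℝ) => Real.exp (- w1 t))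
    (μ := fun _ => volume) (fun _ => h1)
  refine h2.congr (Eventually.of_forall fun x => ?_)
  simp only [kf]
  rw [← Real.exp_sum, Finset.sum_neg_distrib]

lemma kf_sq_integrable : Integrable (fun x : Fin n → ℝ => kf x ^ 2) := by
  refine kf_integrable.mono' (((kf_contDiff (k := 1)).continuous.pow 2).aestronglyMeasurable)
    (Eventually.of_forall fun x => ?_)
  rw [Real.norm_eq_abs, abs_of_nonneg (sq_nonneg _)]
  nlinarith [kf_pos x, kf_le_one x]

lemma norm_le_sw (x : Fin n → ℝ) : ‖x‖ ≤ ∑ i, w1 (x i) := by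
  rw [pi_norm_le_iff_of_nonneg (Finset.sum_nonneg fun i _ => (w1_pos _).le)]
  intro i
  have h1 : |x i| ≤ w1 (x i) := by
    have := abs_w1_deriv (x i)
    rwa [abs_div, abs_of_pos (w1_pos _), div_le_one (w1_pos _)] at this
  exact h1.trans (Finset.single_le_sum (f := fun i => w1 (x i)) (fun i _ => (w1_pos _).le)
    (Finset.mem_univ i))

lemma isCompact_kf {c : ℝ} (hc : 0 < c) : IsCompact {x : Fin n → ℝ | c ≤ kf x} := by
  have hcl : IsClosed {x : Fin n → ℝ | c ≤ kf x} :=
    isClosed_le continuous_const (kf_contDiff (k := 0)).continuous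
  apply (isCompact_closedBall (0 : Fin n → ℝ) (- Real.log c)).of_isClosed_subset hcl
  intro x hx
  rw [Metric.mem_closedBall, dist_zero_right]
  have h1 : c ≤ kf x := hx
  have h2 := Real.log_le_log hc h1
  unfold kf at h2
  rw [Real.log_exp] at h2
  linarith [norm_le_sw x]

end Vale.Agent.P134.H765
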