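import Vale.Agent.P134.H765.FCS1
import Vale.Agent.P134.SM.Ibp

set_option linter.all false

/-! Variational part: minimising sequences of the quadratic functional of a stable potential. -/

namespace Vale.Agent.P134.H765

open Vale.Agent.P134 Vale.Agent.P134.SM Filter Topology MeasureTheory

variable {n : ℕ} {f g u v w V W φ η ζ : (Fin n → ℝ) → ℝ} {x : Fin n → ℝ} {i j : Fin n}

/-- Test functions. -/
def TF (n : ℕ) : Set ((Fin n → ℝ) → ℝ) := {η | ContDiff ℝ (⊤ : ℕ∞) η ∧ HasCompactSupport η}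

/-- Stability of a potential. -/
def StabV (V : (Fin n → ℝ) → ℝ) : Prop := ∀ η ∈ TF n, 0 ≤ ∫ x, (gs η x + V x * η x ^ 2)

lemma TF.c (hη : η ∈ TF n) (k : ℕ) : ContDiff ℝ k η := hη.1.of_le (by exact_mod_cast le_top)
lemma TF.cont (hη : η ∈ TF n) : Continuous η := hη.1.continuous
lemma TF.diff (hη : η ∈ TF n) : Differentiable ℝ η := (TF.c hη 1).differentiable (by norm_num)
lemma TF.cpd (hη : η ∈ TF n) (i : Fin n) : Continuous (pd i η) := continuous_pd (TF.c hη 1)

lemma TF.pd (hη : η ∈ TF n) (i : Fin n) : Vale.Agent.P134.pd i η ∈ TF n :=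
  ⟨cd_ipd hη.1 [i], hasCompactSupport_pd hη.2⟩

lemma TF.comb (hη : η ∈ TF n) (hζ : ζ ∈ TF n) (t : ℝ) : η + t • ζ ∈ TF n := by
  refine ⟨hη.1.add (contDiff_const.smul hζ.1), hη.2.add ?_⟩
  exact HasCompactSupport.smul_left (f := fun _ => t) hζ.2

lemma TF.zero : (0 : (Fin n → ℝ) → ℝ) ∈ TF n := ⟨contDiff_const, HasCompactSupport.zero⟩

lemma cc_integrable (hg : Continuous g) (hη : HasCompactSupport η)
    (h0 : ∀ x, x ∉ tsupport η → g x = 0) : Integrable g :=
  hg.integrable_of_hasCompactSupport (HasCompactSupport.intro hη h0)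

lemma gs_cont (hη : η ∈ TF n) : Continuous (gs η) := by
  unfold gs
  exact continuous_finset_sum _ fun i _ => (TF.cpd hη i).pow 2

lemma gg_cont (hη : η ∈ TF n) (hζ : ζ ∈ TF n) : Continuous (gg η ζ) := by
  unfold gg
  exact continuous_finset_sum _ fun i _ => (TF.cpd hη i).mul (TF.cpd hζ i)

lemma gs_integrable (hη : η ∈ TF n) : Integrable (gs η) := by
  refine cc_integrable (gs_cont hη) hη.2 fun x hx => ?_
  unfold gs
  exact Finset.sum_eq_zero fun i _ => by rw [pd_eq_zero_of_notMem_tsupport hx]; norm_num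

lemma gg_integrable (hη : η ∈ TF n) (hζ : ζ ∈ TF n) : Integrable (gg η ζ) := by
  refine cc_integrable (gg_cont hη hζ) hζ.2 fun x hx => ?_
  unfold gg
  exact Finset.sum_eq_zero fun i _ => by rw [pd_eq_zero_of_notMem_tsupport hx, mul_zero]

lemma mul_integrable (hW : Continuous W) (hζ : ζ ∈ TF n) : Integrable (fun x => W x * ζ x) :=
  cc_integrable (hW.mul (TF.cont hζ)) hζ.2 fun x hx => by
    rw [image_eq_zero_of_notMem_tsupport hx, mul_zero]

lemma mulsq_integrable (hW : Continuous W) (hζ : ζ ∈ TF n) :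
    Integrable (fun x => W x * ζ x ^ 2) :=
  cc_integrable (hW.mul ((TF.cont hζ).pow 2)) hζ.2 fun x hx => by
    rw [image_eq_zero_of_notMem_tsupport hx]; norm_num

/-- The quadratic functional. -/
noncomputable def JJ (W f η : (Fin n → ℝ) → ℝ) : ℝ :=
  ∫ x, ((gs η x + W x * η x ^ 2) / 2 - f x * η x)
/-- Its derivative. -/
noncomputable def DD (W f η ζ : (Fin n → ℝ) → ℝ) : ℝ :=
  ∫ x, (gg η ζ x + W x * η x * ζ x - f x * ζ x)
/-- Its second derivative. -/
noncomputable def QQ (W ζ : (Fin n → ℝ) → ℝ) : ℝ := ∫ x, (gs ζ x + W x * ζ x ^ 2)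

lemma JJ_int (hW : Continuous W) (hf : Continuous f) (hη : η ∈ TF n) :
    Integrable (fun x => (gs η x + W x * η x ^ 2) / 2 - f x * η x) :=
  (((gs_integrable hη).add (mulsq_integrable hW hη)).div_const 2).sub (mul_integrable hf hη)

lemma DD_int (hW : Continuous W) (hf : Continuous f) (hη : η ∈ TF n) (hζ : ζ ∈ TF n) :
    Integrable (fun x => gg η ζ x + W x * η x * ζ x - f x * ζ x) :=
  ((gg_integrable hη hζ).add (mul_integrable (hW.mul (TF.cont hη)) hζ)).sub (mul_integrable hf hζ)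

lemma QQ_int (hW : Continuous W) (hζ : ζ ∈ TF n) : Integrable (fun x => gs ζ x + W x * ζ x ^ 2) :=
  (gs_integrable hζ).add (mulsq_integrable hW hζ)

lemma JJ_add (hW : Continuous W) (hf : Continuous f) (hη : η ∈ TF n) (hζ : ζ ∈ TF n) (t : ℝ) :
    JJ W f (η + t • ζ) = JJ W f η + t * DD W f η ζ + t ^ 2 / 2 * QQ W ζ := by
  unfold JJ DD QQ
  have k1 : Integrable (fun x => (gs η x + W x * η x ^ 2) / 2 - f x * η x +
      t * (gg η ζ x + W x * η x * ζ x - f x * ζ x)) :=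
    (JJ_int hW hf hη).add ((DD_int hW hf hη hζ).const_mul t)
  rw [← integral_const_mul, ← integral_const_mul, ← integral_add (JJ_int hW hf hη)
    ((DD_int hW hf hη hζ).const_mul t), ← integral_add k1 ((QQ_int hW hζ).const_mul _)]
  refine integral_congr_ae (Eventually.of_forall fun x => ?_)
  have h1 : ∀ i, pd i (η + t • ζ) x = pd i η x + t * pd i ζ x := by
    intro i
    have h2 : pd i (fun y => t * ζ y) x = t * pd i ζ x := by
      rw [pd_mul (f := fun _ => t) (by fun_prop) (TF.diff hζ x), pd_const]; ring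
    have e : η + t • ζ = fun y => η y + t * ζ y := rfl
    rw [e, pd_add (TF.diff hη x) ((TF.diff hζ x).const_mul t), h2]
  have h3 : gs (η + t • ζ) x = gs η x + 2 * t * gg η ζ x + t ^ 2 * gs ζ x := by
    unfold gs gg
    rw [Finset.mul_sum, Finset.mul_sum, ← Finset.sum_add_distrib, ← Finset.sum_add_distrib]
    exact Finset.sum_congr rfl fun i _ => by rw [h1 i]; ring
  simp only [h3, Pi.add_apply, Pi.smul_apply, smul_eq_mul]
  ring

lemma QQ_ge {ε : ℝ} (hV : Continuous V) (hs : StabV V) (hη : η ∈ TF n) :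
    ε * ∫ x, η x ^ 2 ≤ QQ (fun x => V x + ε) η := by
  have h1 := hs η hη
  have h2 : QQ (fun x => V x + ε) η = (∫ x, (gs η x + V x * η x ^ 2)) + ε * ∫ x, η x ^ 2 := by
    unfold QQ
    rw [← integral_const_mul, ← integral_add (QQ_int hV hη)
      ((integrable_sq_cc (TF.cont hη) hη.2).const_mul ε)]
    exact integral_congr_ae (Eventually.of_forall fun x => by ring)
  linarith

lemma JJ_ge {ε : ℝ} (hε : 0 < ε) (hV : Continuous V) (hs : StabV V) (hη : η ∈ TF n) :
    - (1 / (2 * ε) * ∫ x : Fin n → ℝ, kf x ^ 2) ≤ JJ (fun x => V x + ε) kf η := by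
  have h1 := hs η hη
  have hkc : Continuous (kf (n := n)) := (kf_contDiff (k := 0)).continuous
  have e2 : Integrable (fun x => ε / 2 * η x ^ 2 - kf x * η x) :=
    ((integrable_sq_cc (TF.cont hη) hη.2).const_mul (ε / 2)).sub (mul_integrable hkc hη)
  have h2 : JJ (fun x => V x + ε) kf η = (∫ x, (gs η x + V x * η x ^ 2)) / 2
      + ∫ x, (ε / 2 * η x ^ 2 - kf x * η x) := by
    unfold JJ
    rw [← integral_div, ← integral_add ((QQ_int hV hη).div_const 2) e2]
    exact integral_congr_ae (Eventually.of_forall fun x => by ring)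
  have h3 : ∫ x : Fin n → ℝ, - (1 / (2 * ε) * kf x ^ 2) ≤ ∫ x, (ε / 2 * η x ^ 2 - kf x * η x) := by
    apply integral_mono (kf_sq_integrable.const_mul _).neg e2
    intro x
    have h4 : 0 ≤ ε / 2 * (η x - kf x / ε) ^ 2 := by positivity
    have h5 : ε / 2 * (η x - kf x / ε) ^ 2
        = (ε / 2 * η x ^ 2 - kf x * η x) + 1 / (2 * ε) * kf x ^ 2 := by
      field_simp
      ring
    show -(1 / (2 * ε) * kf x ^ 2) ≤ _
    linarith
  rw [integral_neg, integral_const_mul] at h3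
  linarith

/-! ### Regularised absolute value -/

/-- `√(t² + δ²) - δ`. -/
noncomputable def ra (δ t : ℝ) : ℝ := Real.sqrt (t ^ 2 + δ ^ 2) - δ

section ra

variable {δ : ℝ} (hδ : 0 < δ)

include hδ

lemma ra_sq_pos (t : ℝ) : 0 < t ^ 2 + δ ^ 2 := by positivity

lemma ra_contDiff {k : WithTop ℕ∞} : ContDiff ℝ k (ra δ) := by
  unfold ra
  exact (((contDiff_id.pow 2).add contDiff_const).sqrt fun t =>
    (ra_sq_pos hδ t).ne').sub contDiff_const

lemma ra_zero : ra δ 0 = 0 := by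
  unfold ra
  rw [zero_pow (by norm_num), zero_add, Real.sqrt_sq hδ.le, sub_self]

lemma ra_nonneg (t : ℝ) : 0 ≤ ra δ t := by
  unfold ra
  rw [sub_nonneg]
  apply Real.le_sqrt_of_sq_le
  nlinarith [sq_nonneg t]

lemma ra_le (t : ℝ) : ra δ t ≤ |t| := by
  unfold ra
  rw [sub_le_iff_le_add, Real.sqrt_le_left (by positivity)]
  nlinarith [sq_abs t, abs_nonneg t]

lemma le_ra (t : ℝ) : |t| - δ ≤ ra δ t := by
  unfold ra
  have : |t| ≤ Real.sqrt (t ^ 2 + δ ^ 2) := by
    apply Real.le_sqrt_of_sq_le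
    rw [sq_abs]; nlinarith
  linarith

lemma ra_deriv (t : ℝ) : HasDerivAt (ra δ) (t / Real.sqrt (t ^ 2 + δ ^ 2)) t := by
  have h : HasDerivAt (fun t : ℝ => t ^ 2 + δ ^ 2) (2 * t) t := by
    simpa using (hasDerivAt_pow 2 t).add_const (δ ^ 2)
  have h2 := (h.sqrt (ra_sq_pos hδ t).ne').sub_const δ
  refine h2.congr_deriv ?_
  field_simp

lemma ra_deriv_sq (t : ℝ) : (deriv (ra δ) t) ^ 2 ≤ 1 := by
  rw [(ra_deriv hδ t).deriv, div_pow, Real.sq_sqrt (ra_sq_pos hδ t).le,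
    div_le_one (ra_sq_pos hδ t)]
  nlinarith

lemma TF.ra (hη : η ∈ TF n) : (fun x => ra δ (η x)) ∈ TF n := by
  refine ⟨(ra_contDiff hδ).comp hη.1, HasCompactSupport.intro hη.2 fun x hx => ?_⟩
  rw [image_eq_zero_of_notMem_tsupport hx, ra_zero hδ]

lemma gs_ra (hη : η ∈ TF n) (x : Fin n → ℝ) : gs (fun x => ra δ (η x)) x ≤ gs η x := by
  unfold gs
  refine Finset.sum_le_sum fun i _ => ?_
  rw [pd_comp (h := H765.ra δ) (ra_deriv hδ _).differentiableAt (TF.diff hη x), mul_pow]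
  nlinarith [ra_deriv_sq hδ (η x), sq_nonneg (pd i η x)]

end ra

/-- Replacing a test function by a nonnegative one. -/
lemma exists_nonneg {K e : ℝ} (hW : Continuous W) (hK : ∀ x, |W x| ≤ K) (he : 0 < e)
    (hη : η ∈ TF n) : ∃ ζ ∈ TF n, (∀ x, 0 ≤ ζ x) ∧ JJ W kf ζ ≤ JJ W kf η + e := by
  have hK0 : 0 ≤ K := (abs_nonneg _).trans (hK 0)
  have hkc : Continuous (kf (n := n)) := (kf_contDiff (k := 0)).continuous
  have ha : Integrable (fun x => |η x|) :=
    ((TF.cont hη).integrable_of_hasCompactSupport hη.2).abs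
  set B : ℝ := ∫ x, (K * |η x| + kf x) with hB
  have hBi : Integrable (fun x => K * |η x| + kf x) := (ha.const_mul K).add kf_integrable
  have hB0 : 0 ≤ B := integral_nonneg fun x =>
    add_nonneg (mul_nonneg hK0 (abs_nonneg _)) (kf_pos x).le
  set δ : ℝ := e / (B + 1) with hδ
  have hδ0 : 0 < δ := by positivity
  refine ⟨fun x => ra δ (η x), TF.ra hδ0 hη, fun x => ra_nonneg hδ0 _, ?_⟩
  have h1 : JJ W kf (fun x => ra δ (η x)) ≤ JJ W kf η + δ * B := by
    unfold JJ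
    rw [hB, ← integral_const_mul, ← integral_add (JJ_int hW hkc hη) (hBi.const_mul δ)]
    apply integral_mono (JJ_int hW hkc (TF.ra hδ0 hη)) ((JJ_int hW hkc hη).add (hBi.const_mul δ))
    intro x
    simp only [Pi.add_apply]
    have g1 := gs_ra hδ0 hη x
    have g2 := ra_nonneg hδ0 (η x)
    have g3 := ra_le hδ0 (η x)
    have g4 := le_ra hδ0 (η x)
    have g5 : |W x * (ra δ (η x) ^ 2 - η x ^ 2)| ≤ K * (2 * δ * |η x|) := by
      rw [abs_mul]
      apply mul_le_mul (hK x) _ (abs_nonneg _) hK0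
      rw [← sq_abs (η x), abs_le]
      constructor <;> nlinarith [abs_nonneg (η x)]
    have g6 := (abs_le.mp g5).2
    have g7 := kf_pos x
    have g8 : kf x * (η x - δ) ≤ kf x * ra δ (η x) :=
      mul_le_mul_of_nonneg_left (by linarith [le_abs_self (η x)]) g7.le
    nlinarith
  have h2 : δ * B ≤ e := by
    rw [hδ, div_mul_eq_mul_div, div_le_iff₀ (by positivity)]
    nlinarith
  linarith

/-- Minimising sequences of nonnegative test functions. -/
theorem exists_seq {K ε : ℝ} (hε : 0 < ε) (hV : Continuous V) (hK : ∀ x, |V x + ε| ≤ K)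
    (hs : StabV V) : ∃ y : ℕ → (Fin n → ℝ) → ℝ, (∀ k, y k ∈ TF n) ∧ (∀ k x, 0 ≤ y k x) ∧
    (∀ k l, ∫ x, (y k x - y l x) ^ 2 ≤ 4 / ε * (1 / ((k:ℝ) + 1) + 1 / ((l:ℝ) + 1))) ∧
    ∀ z ∈ TF n, Tendsto (fun k => DD (fun x => V x + ε) kf (y k) z) atTop (𝓝 0) := by
  have hkc : Continuous (kf (n := n)) := (kf_contDiff (k := 0)).continuous
  have hW : Continuous (fun x => V x + ε) := hV.add continuous_const
  obtain ⟨y, h1, h2, h3⟩ := min_seq (A := TF n) (S := {η | η ∈ TF n ∧ ∀ x, 0 ≤ η x})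
    (J := JJ (fun x => V x + ε) kf) (D := DD (fun x => V x + ε) kf)
    (Q := QQ (fun x => V x + ε)) (fun x hx y hy t => TF.comb hx hy t)
    (fun x hx y hy t => JJ_add hW hkc hx hy t) ⟨_, fun x hx => JJ_ge hε hV hs hx⟩
    (fun x hx => hx.1) (fun x hx e he => by
      obtain ⟨ζ, g1, g2, g3⟩ := exists_nonneg hW hK he hx
      exact ⟨ζ, ⟨g1, g2⟩, g3⟩) ⟨0, TF.zero⟩
  refine ⟨y, fun k => (h1 k).1, fun k => (h1 k).2, fun k l => ?_, h3⟩
  have h4 : y k - y l ∈ TF n := by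
    have := TF.comb (h1 k).1 (h1 l).1 (-1)
    rwa [neg_smul, one_smul, ← sub_eq_add_neg] at this
  have h5 := QQ_ge (ε := ε) hV hs h4
  have h6 := h2 k l
  have h7 : ε * ∫ x, (y k x - y l x) ^ 2 ≤ 4 * (1 / ((k:ℝ) + 1) + 1 / ((l:ℝ) + 1)) :=
    h5.trans h6
  rw [div_mul_eq_mul_div, le_div_iff₀ hε]
  linarith

end Vale.Agent.P134.H765
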