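import Vale.Agent.P134.H765.FCS2

set_option linter.all false

/-! Stable potentials admit bounded approximate Riccati fields. -/

namespace Vale.Agent.P134.H765

open Vale.Agent.P134 Vale.Agent.P134.SM Filter Topology MeasureTheory
open scoped InnerProductSpace

variable {n : ℕ} {f g u v w V W φ η ζ : (Fin n → ℝ) → ℝ} {x : Fin n → ℝ} {i j : Fin n}

lemma inner_toLp (hf : MemLp f 2 volume) (hg : MemLp g 2 volume) :
    ⟪hf.toLp f, hg.toLp g⟫_ℝ = ∫ x, f x * g x := by
  rw [L2.inner_def]
  apply integral_congr_ae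
  filter_upwards [hf.coeFn_toLp, hg.coeFn_toLp] with x h1 h2
  rw [h1, h2]
  simp only [RCLike.inner_apply, conj_trivial]
  ring

/-- `L²` limits. -/
theorem exists_limit {y : ℕ → (Fin n → ℝ) → ℝ} (hy : ∀ k, y k ∈ TF n) {C : ℝ} (hC : 0 ≤ C)
    (hc : ∀ k l, ∫ x, (y k x - y l x) ^ 2 ≤ C * (1 / ((k:ℝ) + 1) + 1 / ((l:ℝ) + 1))) :
    ∃ φ : (Fin n → ℝ) → ℝ, MemLp φ 2 volume ∧ ∀ g : (Fin n → ℝ) → ℝ, Continuous g →
      HasCompactSupport g →
      Tendsto (fun k => ∫ x, y k x * g x) atTop (𝓝 (∫ x, φ x * g x)) := by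
  have hm : ∀ k, MemLp (y k) 2 volume := fun k =>
    (TF.cont (hy k)).memLp_of_hasCompactSupport (hy k).2
  set e : ℕ → Lp ℝ 2 (volume : Measure (Fin n → ℝ)) := fun k => (hm k).toLp (y k) with he
  have hd : ∀ k l, ‖e k - e l‖ ^ 2 ≤ C * (1 / ((k:ℝ) + 1) + 1 / ((l:ℝ) + 1)) := by
    intro k l
    have h1 : e k - e l = ((hm k).sub (hm l)).toLp (y k - y l) := (MemLp.toLp_sub _ _).symm
    rw [h1, ← real_inner_self_eq_norm_sq, inner_toLp]
    refine le_trans (le_of_eq ?_) (hc k l)
    exact integral_congr_ae (Eventually.of_forall fun x => by simp only [Pi.sub_apply]; ring)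
  have hcau : CauchySeq e := by
    apply cauchySeq_of_le_tendsto_0 (fun N : ℕ => Real.sqrt (C * (2 * (1 / ((N:ℝ) + 1)))))
    · intro k l N hk hl
      rw [dist_eq_norm]
      apply Real.le_sqrt_of_sq_le
      refine (hd k l).trans (mul_le_mul_of_nonneg_left ?_ hC)
      have hN : (0:ℝ) < (N:ℝ) + 1 := by positivity
      have h1 : 1 / ((k:ℝ) + 1) ≤ 1 / ((N:ℝ) + 1) :=
        one_div_le_one_div_of_le hN (by exact_mod_cast Nat.succ_le_succ hk)
      have h2 : 1 / ((l:ℝ) + 1) ≤ 1 / ((N:ℝ) + 1) :=
        one_div_le_one_div_of_le hN (by exact_mod_cast Nat.succ_le_succ hl)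
      linarith
    · have h1 : Tendsto (fun N : ℕ => C * (2 * (1 / ((N:ℝ) + 1)))) atTop (𝓝 0) := by
        have := ((tendsto_one_div_add_atTop_nhds_zero_nat (𝕜 := ℝ)).const_mul 2).const_mul C
        simpa using this
      simpa using h1.sqrt
  obtain ⟨Φ, hΦ⟩ := cauchySeq_tendsto_of_complete hcau
  refine ⟨Φ, Lp.memLp Φ, fun g hg hgc => ?_⟩
  have hgm : MemLp g 2 volume := hg.memLp_of_hasCompactSupport hgc
  have h1 : Tendsto (fun k => ⟪e k, hgm.toLp g⟫_ℝ) atTop (𝓝 ⟪Φ, hgm.toLp g⟫_ℝ) :=
    hΦ.inner tendsto_const_nhds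
  have h2 : ⟪Φ, hgm.toLp g⟫_ℝ = ∫ x, Φ x * g x := by
    have := inner_toLp (Lp.memLp Φ) hgm
    rwa [Lp.toLp_coeFn] at this
  rw [h2] at h1
  refine h1.congr fun k => ?_
  exact inner_toLp (hm k) hgm

lemma pd_const_sub (hg : Differentiable ℝ g) (x : Fin n → ℝ) (i : Fin n) :
    pd i (fun y => g (x - y)) = fun y => - pd i g (x - y) := by
  funext y
  unfold pd
  have h1 : HasFDerivAt (fun y : Fin n → ℝ => x - y) (-(ContinuousLinearMap.id ℝ (Fin n → ℝ))) y :=
    (hasFDerivAt_id y).const_sub x
  have h2 : HasFDerivAt (fun y => g (x - y)) ((fderiv ℝ g (x - y)).comp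
      (-(ContinuousLinearMap.id ℝ (Fin n → ℝ)))) y := (hg (x - y)).hasFDerivAt.comp y h1
  rw [h2.fderiv]
  simp

lemma TF.refl (hg : g ∈ TF n) (x : Fin n → ℝ) : (fun y => g (x - y)) ∈ TF n := by
  refine ⟨hg.1.comp (contDiff_const.sub contDiff_id), ?_⟩
  have h := hg.2.comp_homeomorph (Homeomorph.subLeft x)
  exact h

lemma lap_refl (hg : g ∈ TF n) (x y : Fin n → ℝ) :
    lap (fun y => g (x - y)) y = lap g (x - y) := by
  unfold lap
  refine Finset.sum_congr rfl fun i _ => ?_
  rw [pd_const_sub (TF.diff hg) x i]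
  have h1 : pd i (fun y => - pd i g (x - y)) y = - pd i (fun y => pd i g (x - y)) y := pd_neg
  rw [h1, pd_const_sub (TF.diff (TF.pd hg i)) x i]
  simp

lemma l2_mul (hφ : MemLp φ 2 volume) (hg : Continuous g) (hc : HasCompactSupport g) :
    Integrable (fun z => φ z * g z) := by
  have h : MemLp g 2 volume := hg.memLp_of_hasCompactSupport hc
  exact MemLp.integrable_mul (p := 2) (q := 2) hφ h

/-- Properties of the mollified minimiser. -/
theorem exists_super {K L ε d : ℝ} (hε : 0 < ε) (hd : 0 < d) (hd1 : d ≤ 1) (hL : 0 ≤ L)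
    (hVL : ∀ x y, |V x - V y| ≤ L * ‖x - y‖) (hK : ∀ x, |V x + ε| ≤ K) (hs : StabV V) :
    ∃ P : (Fin n → ℝ) → ℝ, Nice P ∧ (∀ x, 0 ≤ P x) ∧
      (∀ x, lap P x ≤ (V x + ε + L * d) * P x - Real.exp (-n) * kf x) ∧
      (∀ x, (V x + ε - L * d) * P x - Real.exp n * kf x ≤ lap P x) := by
  have hVc : Continuous V := by
    have : LipschitzWith (Real.toNNReal L) V := by
      apply LipschitzWith.of_dist_le_mul
      intro a b
      rw [Real.dist_eq, dist_eq_norm, Real.coe_toNNReal _ hL]
      exact hVL a b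
    exact this.continuous
  obtain ⟨y, hy, hy0, hyc, hyD⟩ := exists_seq hε hVc hK hs
  obtain ⟨φ, hφ, hlim⟩ := exists_limit hy (C := 4 / ε) (by positivity) hyc
  -- the bump
  let b : ContDiffBump (0 : Fin n → ℝ) := ⟨d / 2, d, by positivity, by linarith⟩
  set ρ : (Fin n → ℝ) → ℝ := b.normed volume with hρ
  have hρT : ρ ∈ TF n := ⟨b.contDiff_normed, b.hasCompactSupport_normed⟩
  have hρ0 : ∀ z, 0 ≤ ρ z := fun z => b.nonneg_normed z
  have hρ1 : ∫ z, ρ z = 1 := b.integral_normed
  have hρs : ∀ z, ρ z ≠ 0 → ‖z‖ ≤ d := by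
    intro z hz
    have h1 : z ∈ Function.support ρ := hz
    rw [hρ, b.support_normed_eq, Metric.mem_ball, dist_zero_right] at h1
    exact h1.le
  have hρ1' : ∀ x : Fin n → ℝ, ∫ z, ρ (x - z) = 1 := fun x => by
    rw [integral_sub_left_eq_self (fun z => ρ z) volume x, hρ1]
  set P : (Fin n → ℝ) → ℝ := cg φ ρ with hP
  have hkc : Continuous (kf (n := n)) := (kf_contDiff (k := 0)).continuous
  have hWc : Continuous (fun x => V x + ε) := hVc.add continuous_const
  -- limits
  have hPlim : ∀ x, Tendsto (fun k => ∫ z, y k z * ρ (x - z)) atTop (𝓝 (P x)) := fun x =>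
    hlim _ (TF.cont (TF.refl hρT x)) (TF.refl hρT x).2
  have hP0 : ∀ x, 0 ≤ P x := fun x => ge_of_tendsto (hPlim x)
    (Eventually.of_forall fun k => integral_nonneg fun z => mul_nonneg (hy0 k z) (hρ0 _))
  -- commutator
  have hE : ∀ x, |∫ z, φ z * ((V z - V x) * ρ (x - z))| ≤ L * d * P x := by
    intro x
    have hgc : Continuous (fun z => (V z - V x) * ρ (x - z)) :=
      (hVc.sub continuous_const).mul (TF.cont (TF.refl hρT x))
    have hgs : HasCompactSupport (fun z => (V z - V x) * ρ (x - z)) :=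
      (TF.refl hρT x).2.mul_left
    have h1 := (hlim _ hgc hgs).abs
    have h2 := (hPlim x).const_mul (L * d)
    refine le_of_tendsto_of_tendsto' h1 h2 fun k => ?_
    have h3 : Integrable (fun z => L * d * (y k z * ρ (x - z))) :=
      (mul_integrable (TF.cont (hy k)) (TF.refl hρT x)).const_mul _
    have h4 : ‖∫ z, y k z * ((V z - V x) * ρ (x - z))‖ ≤ ∫ z, L * d * (y k z * ρ (x - z)) := by
      apply norm_integral_le_of_norm_le h3 (Eventually.of_forall fun z => ?_)
      rw [Real.norm_eq_abs, abs_mul, abs_mul, abs_of_nonneg (hy0 k z), abs_of_nonneg (hρ0 _)]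
      by_cases hz : ρ (x - z) = 0
      · rw [hz]; simp
      · have h5 := hρs _ hz
        have h6 := hVL z x
        rw [norm_sub_rev] at h6
        have h7 : |V z - V x| ≤ L * d := h6.trans (mul_le_mul_of_nonneg_left h5 hL)
        have h8 : 0 ≤ y k z * ρ (x - z) := mul_nonneg (hy0 k z) (hρ0 _)
        nlinarith
    rw [integral_const_mul] at h4
    exact h4
  -- Euler-Lagrange equation
  have hEL : ∀ ζ ∈ TF n, ∫ z, φ z * (lap ζ z - (V z + ε) * ζ z) = - ∫ z, kf z * ζ z := by
    intro ζ hζ
    have hlc : Continuous (lap ζ) := by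
      unfold lap
      exact continuous_finset_sum _ fun i _ => TF.cpd (TF.pd hζ i) i
    have hgc : Continuous (fun z => lap ζ z - (V z + ε) * ζ z) :=
      hlc.sub (hWc.mul (TF.cont hζ))
    have hgs : HasCompactSupport (fun z => lap ζ z - (V z + ε) * ζ z) := by
      refine HasCompactSupport.intro hζ.2 fun z hz => ?_
      have h1 : lap ζ z = 0 := by
        unfold lap
        refine Finset.sum_eq_zero fun i _ => ?_
        exact pd_eq_zero_of_notMem_tsupport fun h => hz (tsupport_pd_subset ζ i h)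
      rw [h1, image_eq_zero_of_notMem_tsupport hz]; ring
    have h1 := hlim _ hgc hgs
    have h2 := hyD ζ hζ
    have h3 : ∀ k, ∫ z, y k z * (lap ζ z - (V z + ε) * ζ z)
        = - DD (fun x => V x + ε) kf (y k) ζ - ∫ z, kf z * ζ z := by
      intro k
      have e1 : Integrable (fun z => y k z * lap ζ z) :=
        cc_integrable ((TF.cont (hy k)).mul hlc) (hy k).2 fun z hz => by
          rw [image_eq_zero_of_notMem_tsupport hz, zero_mul]
      have e2 : Integrable (fun z => (V z + ε) * y k z * ζ z) :=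
        mul_integrable (hWc.mul (TF.cont (hy k))) hζ
      have e3 : Integrable (fun z => kf z * ζ z) := mul_integrable hkc hζ
      have e4 := gg_integrable (hy k) hζ
      have h4 := int_lap (TF.c (hy k) 1) (hy k).2 (TF.c hζ 2)
      have h5 : DD (fun x => V x + ε) kf (y k) ζ
          = (∫ z, gg (y k) ζ z) + (∫ z, (V z + ε) * y k z * ζ z) - ∫ z, kf z * ζ z := by
        have e5 : Integrable (fun z => gg (y k) ζ z + (V z + ε) * y k z * ζ z) := e4.add e2
        unfold DD
        rw [← integral_add e4 e2, ← integral_sub e5 e3]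
      have h6 : ∫ z, y k z * (lap ζ z - (V z + ε) * ζ z)
          = (∫ z, y k z * lap ζ z) - ∫ z, (V z + ε) * y k z * ζ z := by
        rw [← integral_sub e1 e2]
        exact integral_congr_ae (Eventually.of_forall fun z => by ring)
      rw [h6, h4, h5]; ring
    have h4 : Tendsto (fun k => ∫ z, y k z * (lap ζ z - (V z + ε) * ζ z)) atTop
        (𝓝 (-0 - ∫ z, kf z * ζ z)) := by
      refine (h2.neg.sub_const _).congr fun k => (h3 k).symm
    have h5 := tendsto_nhds_unique h1 h4
    rw [h5]; ring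
  -- Laplacian of `P`
  have hll : LocallyIntegrable φ volume := hφ.locallyIntegrable (by norm_num)
  have hlapP : ∀ x, lap P x = ∫ z, φ z * lap ρ (x - z) := by
    intro x
    have h1 : ∀ i, pd i (pd i P) = cg φ (pd i (pd i ρ)) := by
      intro i
      rw [hP, (cg_pd hll (TF.c hρT 1) hρT.2).2 i, (cg_pd hll (TF.c (TF.pd hρT i) 1)
        (TF.pd hρT i).2).2 i]
    unfold lap
    simp only [h1, cg]
    rw [← integral_finset_sum]
    · exact integral_congr_ae (Eventually.of_forall fun z => by simp only [Finset.mul_sum])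
    · intro i _
      have hT := TF.refl (TF.pd (TF.pd hρT i) i) x
      exact l2_mul hφ (TF.cont hT) hT.2
  have hmain : ∀ x, lap P x = (V x + ε) * P x + (∫ z, φ z * ((V z - V x) * ρ (x - z)))
      - ∫ z, kf z * ρ (x - z) := by
    intro x
    have hT := TF.refl hρT x
    have h1 := hEL _ hT
    have i1 : Integrable (fun z => φ z * ρ (x - z)) :=
      l2_mul hφ (TF.cont hT) hT.2
    have hgc : Continuous (fun z => (V z - V x) * ρ (x - z)) :=
      (hVc.sub continuous_const).mul (TF.cont hT)
    have hgs : HasCompactSupport (fun z => (V z - V x) * ρ (x - z)) := hT.2.mul_left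
    have i2 : Integrable (fun z => φ z * ((V z - V x) * ρ (x - z))) :=
      l2_mul hφ hgc hgs
    have hlc : Continuous (lap (fun z => ρ (x - z))) := by
      unfold lap
      exact continuous_finset_sum _ fun i _ => TF.cpd (TF.pd hT i) i
    have hls : HasCompactSupport (lap (fun z => ρ (x - z))) := by
      refine HasCompactSupport.intro hT.2 fun z hz => ?_
      unfold lap
      refine Finset.sum_eq_zero fun i _ => ?_
      exact pd_eq_zero_of_notMem_tsupport fun h => hz (tsupport_pd_subset _ i h)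
    have i3 : Integrable (fun z => φ z * lap (fun z => ρ (x - z)) z) :=
      l2_mul hφ hlc hls
    have h2 : ∫ z, φ z * (lap (fun z => ρ (x - z)) z - (V z + ε) * ρ (x - z))
        = (∫ z, φ z * lap (fun z => ρ (x - z)) z) - (V x + ε) * (∫ z, φ z * ρ (x - z))
          - ∫ z, φ z * ((V z - V x) * ρ (x - z)) := by
      have i4 : Integrable (fun z => φ z * lap (fun z => ρ (x - z)) z
          - (V x + ε) * (φ z * ρ (x - z))) := i3.sub (i1.const_mul _)
      rw [← integral_const_mul, ← integral_sub i3 (i1.const_mul _), ← integral_sub i4 i2]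
      exact integral_congr_ae (Eventually.of_forall fun z => by ring)
    have h3 : ∫ z, φ z * lap (fun z => ρ (x - z)) z = lap P x := by
      rw [hlapP]
      exact integral_congr_ae (Eventually.of_forall fun z => by simp only [lap_refl hρT])
    rw [h2, h3] at h1
    have h4 : P x = ∫ z, φ z * ρ (x - z) := rfl
    rw [← h4] at h1
    linarith
  -- the right side
  have hF : ∀ x : Fin n → ℝ, Real.exp (-n) * kf x ≤ ∫ z, kf z * ρ (x - z) ∧
      ∫ z, kf z * ρ (x - z) ≤ Real.exp n * kf x := by
    intro x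
    have hT := TF.refl hρT x
    have i1 : Integrable (fun z => kf z * ρ (x - z)) := mul_integrable hkc hT
    have i2 : Integrable (fun z => ρ (x - z)) :=
      (TF.cont hT).integrable_of_hasCompactSupport hT.2
    have hn : (0:ℝ) ≤ n := Nat.cast_nonneg n
    constructor
    · have h1 : ∫ z, Real.exp (-n) * kf x * ρ (x - z) ≤ ∫ z, kf z * ρ (x - z) := by
        apply integral_mono (i2.const_mul _) i1
        intro z
        simp only
        by_cases hz : ρ (x - z) = 0
        · rw [hz]; simp
        · apply mul_le_mul_of_nonneg_right _ (hρ0 _)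
          have h2 := kf_le_mul x z
          have h3 : Real.exp (n * ‖x - z‖) ≤ Real.exp n := by
            rw [Real.exp_le_exp]
            nlinarith [hρs _ hz]
          have h4 : kf x ≤ Real.exp n * kf z :=
            h2.trans (mul_le_mul_of_nonneg_right h3 (kf_pos z).le)
          calc Real.exp (-n) * kf x ≤ Real.exp (-n) * (Real.exp n * kf z) :=
                mul_le_mul_of_nonneg_left h4 (Real.exp_pos _).le
            _ = kf z := by rw [← mul_assoc, ← Real.exp_add]; simp
      rw [integral_const_mul, hρ1', mul_one] at h1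
      exact h1
    · have h1 : ∫ z, kf z * ρ (x - z) ≤ ∫ z, Real.exp n * kf x * ρ (x - z) := by
        apply integral_mono i1 (i2.const_mul _)
        intro z
        simp only
        by_cases hz : ρ (x - z) = 0
        · rw [hz]; simp
        · apply mul_le_mul_of_nonneg_right _ (hρ0 _)
          have h2 := kf_le_mul z x
          rw [norm_sub_rev] at h2
          have h3 : Real.exp (n * ‖x - z‖) ≤ Real.exp n := by
            rw [Real.exp_le_exp]
            nlinarith [hρs _ hz]
          exact h2.trans (mul_le_mul_of_nonneg_right h3 (kf_pos x).le)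
      rw [integral_const_mul, hρ1', mul_one] at h1
      exact h1
  refine ⟨P, cg_nice hφ hρT.1 hρT.2, hP0, fun x => ?_, fun x => ?_⟩
  · rw [hmain x]
    have h1 := (abs_le.mp (hE x)).2
    have h2 := (hF x).1
    linarith
  · rw [hmain x]
    have h1 := (abs_le.mp (hE x)).1
    have h2 := (hF x).2
    linarith

end Vale.Agent.P134.H765
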