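import Vale.Agent.P134.H765.FCS3

set_option linter.all false

/-! Stable potentials admit bounded approximate Riccati fields: conclusion. -/

namespace Vale.Agent.P134.H765

open Vale.Agent.P134 Vale.Agent.P134.SM Filter Topology MeasureTheory

variable {n : ℕ} {f g u v w V W P φ η ζ : (Fin n → ℝ) → ℝ} {x : Fin n → ℝ} {i j : Fin n}

/-- Lower bound by the weight. -/
theorem pos_lower (hP : ContDiff ℝ 2 P) (hP0 : ∀ x, 0 ≤ P x) {M c₁ : ℝ} (hM : 0 < M)
    (hc : 0 < c₁) (h : ∀ x, lap P x ≤ M * P x - c₁ * kf x) (x : Fin n → ℝ) :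
    c₁ / (M + n) * kf x ≤ P x := by
  have hn : (0:ℝ) ≤ n := Nat.cast_nonneg n
  set c : ℝ := c₁ / (M + n) with hcdef
  have hc0 : 0 < c := by positivity
  have hcM : c * (M + n) = c₁ := by rw [hcdef]; field_simp
  by_contra hneg
  push Not at hneg
  have hk2 : ContDiff ℝ 2 (kf (n := n)) := kf_contDiff
  set w : (Fin n → ℝ) → ℝ := fun x => P x - c * kf x with hw
  have hw2 : ContDiff ℝ 2 w := hP.sub (contDiff_const.mul hk2)
  have hwx : w x < 0 := by rw [hw]; simp only; linarith
  have hSc : IsCompact {y | w y ≤ w x} := by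
    have hcl : IsClosed {y | w y ≤ w x} := isClosed_le hw2.continuous continuous_const
    apply (isCompact_kf (n := n) (c := -w x / c) (div_pos (by linarith) hc0)).of_isClosed_subset hcl
    intro y hy
    have h1 : P y - c * kf y ≤ w x := hy
    have h2 := hP0 y
    show -w x / c ≤ kf y
    rw [div_le_iff₀ hc0]; linarith
  obtain ⟨p, hp, hpmin⟩ := hSc.exists_isMinOn ⟨x, le_refl (w x)⟩ hw2.continuous.continuousOn
  have hpx : w p ≤ w x := hp
  have hglob : ∀ y, w p ≤ w y := by
    intro y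
    by_cases hy : w y ≤ w x
    · exact hpmin hy
    · exact hpx.trans (not_le.mp hy).le
  have hloc : IsLocalMin w p := Eventually.of_forall hglob
  have h1 : 0 ≤ lap w p := Finset.sum_nonneg fun i _ => pd2_nonneg_of_isLocalMin hw2 hloc i
  have h2 : lap w p = lap P p - c * lap kf p := by
    rw [hw, lap_sub hP (contDiff_const.mul hk2), lap_smul c hk2]
  have h3 := h p
  have h4 := lap_kf p
  have h5 : w p < 0 := lt_of_le_of_lt hpx hwx
  have h6 : w p = P p - c * kf p := rfl
  have h7 : c * (-(n * kf p)) ≤ c * lap kf p := mul_le_mul_of_nonneg_left h4 hc0.le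
  have h8 : lap w p ≤ M * w p := by
    rw [h2, h6]
    have : c₁ * kf p = c * (M + n) * kf p := by rw [hcM]
    nlinarith
  nlinarith

/-- Bounded logarithmic gradient. -/
theorem field_of_pos {K : ℝ} (hK : 0 ≤ K) (hg : Nice g) (h0 : ∀ x, 0 < g x)
    (hL : ∀ x, |SM.lap g x| ≤ K * g x) : ∃ X : Fin n → (Fin n → ℝ) → ℝ,
      (∀ j, ContDiff ℝ 1 (X j)) ∧ (∀ x, ∑ j, X j x ^ 2 ≤ (n * H283.cH n K) ^ 2) ∧
      ∀ x, ∑ j, pd j (X j) x + ∑ j, X j x ^ 2 = SM.lap g x / g x := by
  have hb := fun q x => H283.abs_pd_le hg hK (fun x => (h0 x).le) hL q x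
  have hc := H283.cH_pos n hK
  refine ⟨fun j x => pd j g x / g x, fun j => ?_, fun x => ?_, fun x => ?_⟩
  · exact (Nice.contDiff 1 _ (hg.pd j)).div (Nice.contDiff 1 _ hg) fun x => (h0 x).ne'
  · have h1 : ∀ j, (pd j g x / g x) ^ 2 ≤ H283.cH n K ^ 2 := by
      intro j
      have h2 : |pd j g x / g x| ≤ H283.cH n K := by
        rw [abs_div, abs_of_pos (h0 x), div_le_iff₀ (h0 x)]
        exact hb j x
      exact sq_le_sq.mpr (by rw [abs_of_pos hc]; exact h2)
    calc ∑ j, (pd j g x / g x) ^ 2 ≤ ∑ _j : Fin n, H283.cH n K ^ 2 :=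
          Finset.sum_le_sum fun j _ => h1 j
      _ = n * H283.cH n K ^ 2 := by simp
      _ ≤ (n * H283.cH n K) ^ 2 := by
          rw [mul_pow]
          apply mul_le_mul_of_nonneg_right _ (sq_nonneg _)
          rcases Nat.eq_zero_or_pos n with h | h
          · subst h; simp
          · have : (1:ℝ) ≤ n := by exact_mod_cast h
            nlinarith
  · have hd := hg.1 x
    have h1 : ∀ j, pd j (fun y => pd j g y / g y) x
        = pd j (pd j g) x / g x - (pd j g x / g x) ^ 2 := by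
      intro j
      rw [pd_div ((hg.pd j).1 x) hd (h0 x).ne']
      have := (h0 x).ne'
      field_simp
    rw [Finset.sum_congr rfl fun j _ => h1 j, Finset.sum_sub_distrib, sub_add_cancel,
      ← Finset.sum_div]
    rfl

/-- The constant. -/
noncomputable def cF (n : ℕ) (K : ℝ) : ℝ := K + 2 + Real.exp n * (Real.exp n * (K + 2 + n))

/-- **Stable potentials admit bounded approximate Riccati fields.** -/
theorem hypN_of_stab {K L : ℝ} (hL : 0 ≤ L) (hVL : ∀ x y, |V x - V y| ≤ L * ‖x - y‖)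
    (hK : ∀ x, |V x| ≤ K) (hs : StabV V) : H491.HypN n (n * H283.cH n (cF n K)) V := by
  have hn : (0:ℝ) ≤ n := Nat.cast_nonneg n
  have hK0 : 0 ≤ K := (abs_nonneg _).trans (hK 0)
  intro R ε hR hε
  set ε₁ : ℝ := min (ε / 2) 1 with hε₁
  have h1 : 0 < ε₁ := by rw [hε₁]; positivity
  have h1' : ε₁ ≤ 1 := min_le_right _ _
  have h1'' : ε₁ ≤ ε / 2 := min_le_left _ _
  set d : ℝ := ε₁ / (L + 1) with hd
  have hd0 : 0 < d := by positivity
  have hd1 : d ≤ 1 := by
    rw [hd, div_le_one (by positivity)]; linarith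
  have hLd : L * d ≤ ε₁ := by
    rw [hd, mul_div_assoc', div_le_iff₀ (by positivity)]
    nlinarith
  have hLd0 : 0 ≤ L * d := mul_nonneg hL hd0.le
  have hK' : ∀ x, |V x + ε₁| ≤ K + 1 := fun x =>
    (abs_add_le _ _).trans (add_le_add (hK x) (by rw [abs_of_pos h1]; exact h1'))
  obtain ⟨P, hN, hP0, hup, hlo⟩ := exists_super h1 hd0 hd1 hL hVL hK' hs
  have hM : ∀ x, lap P x ≤ (K + 2) * P x - Real.exp (-n) * kf x := by
    intro x
    have h2 := (abs_le.mp (hK x)).2
    have h3 : (V x + ε₁ + L * d) * P x ≤ (K + 2) * P x :=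
      mul_le_mul_of_nonneg_right (by linarith) (hP0 x)
    linarith [hup x]
  have hlow := pos_lower (H283.Nice.c2 hN) hP0 (M := K + 2) (c₁ := Real.exp (-n)) (by linarith)
    (Real.exp_pos _) hM
  have hkP : ∀ x, kf x ≤ Real.exp n * (K + 2 + n) * P x := by
    intro x
    have h2 := hlow x
    have h3 : kf x = (Real.exp n * (K + 2 + n)) * (Real.exp (-n) / (K + 2 + n) * kf x) := by
      have h4 : Real.exp n * Real.exp (-n) = 1 := by rw [← Real.exp_add]; simp
      have h5 : K + 2 + n ≠ 0 := by positivity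
      calc kf x = (Real.exp n * Real.exp (-n)) * kf x := by rw [h4, one_mul]
        _ = _ := by field_simp
    rw [h3]
    exact mul_le_mul_of_nonneg_left h2 (by positivity)
  have hPpos : ∀ x, 0 < P x := fun x =>
    lt_of_lt_of_le (mul_pos (by positivity) (kf_pos x)) (hlow x)
  have hcF : 0 ≤ cF n K := by unfold cF; positivity
  have habs : ∀ x, |SM.lap P x| ≤ cF n K * P x := by
    intro x
    have hp := hP0 x
    have hk := kf_pos x
    have hb := abs_le.mp (hK x)
    have h2 : Real.exp n * kf x ≤ Real.exp n * (Real.exp n * (K + 2 + n) * P x) :=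
      mul_le_mul_of_nonneg_left (hkP x) (Real.exp_pos _).le
    have h3 : 0 ≤ Real.exp n * (Real.exp n * (K + 2 + n)) * P x := by positivity
    have h4 : 0 < Real.exp (-n : ℝ) * kf x := by positivity
    have h5 : - (K + 2) * P x ≤ (V x + ε₁ - L * d) * P x :=
      mul_le_mul_of_nonneg_right (by linarith) hp
    unfold cF
    rw [abs_le]
    constructor
    · have := hlo x
      nlinarith
    · have := hM x
      nlinarith
  obtain ⟨X, hX1, hX2, hX3⟩ := field_of_pos hcF hN hPpos habs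
  refine ⟨X, hX1, fun x _ => hX2 x, fun x _ => ?_⟩
  rw [hX3 x, div_le_iff₀ (hPpos x)]
  have h2 := hup x
  have h3 : 0 < Real.exp (-n : ℝ) * kf x := mul_pos (Real.exp_pos _) (kf_pos x)
  have h4 : (V x + ε₁ + L * d) * P x ≤ (V x + ε) * P x :=
    mul_le_mul_of_nonneg_right (by linarith) (hP0 x)
  linarith

end Vale.Agent.P134.H765
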