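import Vale.Agent.P134.H134.Fin
import Vale.Agent.P134.H765.Dim4

set_option linter.all false

/-! Both final theorems from the last two blocks `StT3a`, `StT3b`. -/

namespace Vale.Agent.P134.H765

open Vale.Agent.P134 Vale.Agent.P134.LI Filter Topology MeasureTheory
open scoped InnerProductSpace Laplacian

theorem dim4_of_T3 (ha : StT3a) (hb : StT3b) {u : EuclideanSpace ℝ (Fin 4) → ℝ}
    (hu : ContDiff ℝ 2 u) (heq : ∀ x, Δ u x = u x ^ 3 - u x) (hbd : ∃ M : ℝ, ∀ x, |u x| ≤ M)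
    {a : EuclideanSpace ℝ (Fin 4)} (hpos : ∀ x, 0 < fderiv ℝ u x a) :
    ∃ (e : EuclideanSpace ℝ (Fin 4)) (c : ℝ), ‖e‖ = 1 ∧
      ∀ x, u x = Real.tanh ((⟪e, x⟫_ℝ - c) / √2) :=
  dim4_of_S3 (H134.s3_of_T3 ha hb) hu heq hbd hpos

theorem stable_of_T3 (ha : StT3a) (hb : StT3b) {u : EuclideanSpace ℝ (Fin 3) → ℝ}
    (hu : ContDiff ℝ 2 u) (heq : ∀ x, Δ u x = u x ^ 3 - u x) (hbd : ∃ M : ℝ, ∀ x, |u x| ≤ M)
    (hs : ∀ η : EuclideanSpace ℝ (Fin 3) → ℝ, ContDiff ℝ (⊤ : ℕ∞) η → HasCompactSupport η →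
      0 ≤ ∫ x, (‖fderiv ℝ η x‖ ^ 2 + (3 * u x ^ 2 - 1) * η x ^ 2)) :
    (∀ x, u x = 1) ∨ (∀ x, u x = -1) ∨ ∃ (e : EuclideanSpace ℝ (Fin 3)) (c : ℝ), ‖e‖ = 1 ∧
      ∀ x, u x = Real.tanh ((⟪e, x⟫_ℝ - c) / √2) :=
  stable_R3 (H134.s3_of_T3 ha hb) hu heq hbd hs

end Vale.Agent.P134.H765
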