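import Vale.Agent.P134.H765.Struct

set_option linter.all false

/-! Closed form of one-dimensional monotone solutions, and the Euclidean form of the final
statement in dimension `n ≤ 4`. -/

namespace Vale.Agent.P134.H765

open Vale.Agent.P134 Vale.Agent.P134.H891 MeasureTheory Filter Topology
open scoped InnerProductSpace Laplacian

variable {n : ℕ} {f g u v w U : (Fin n → ℝ) → ℝ} {x : Fin n → ℝ} {i j p q : Fin n}

/-- `u` depends on `e·x` only, in infinitesimal form. -/
lemma dd_zero_of_one_dim {e : Fin n → ℝ} (hu : Sol u) {h : ℝ → ℝ}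
    (h1 : ∀ x, u x = h (∑ i, e i * x i)) {a : Fin n → ℝ} (ha : ∑ i, a i * e i = 0)
    (x : Fin n → ℝ) : dd a u x = 0 := by
  have hd : Differentiable ℝ u := hu.c2.differentiable (by norm_num)
  have h2 := hasDerivAt_dd hd x a 0
  have h3 : (fun s : ℝ => u (x + s • a)) = fun _ => u x := by
    funext s
    rw [h1, h1 x]
    congr 1
    have : ∀ i, e i * (x + s • a) i = e i * x i + s * (a i * e i) := by
      intro i; simp only [Pi.add_apply, Pi.smul_apply, smul_eq_mul]; ring
    simp_rw [this]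
    rw [Finset.sum_add_distrib, ← Finset.mul_sum, ha]
    ring
  rw [h3] at h2
  have := h2.unique (hasDerivAt_const 0 (u x))
  simpa using this

/-- The deficit of a one-dimensional solution is constant. -/
lemma defi_const_of_one_dim {e : Fin n → ℝ} (he : ∑ i, e i ^ 2 = 1) (hu : Sol u)
    (h1 : ∀ a : Fin n → ℝ, ∑ i, a i * e i = 0 → ∀ x, dd a u x = 0) (x : Fin n → ℝ) :
    defi u x = defi u 0 := by
  classical
  set k : (Fin n → ℝ) → ℝ := dd e u with hk
  have hkc : ContDiff ℝ 1 k := dd_contDiff hu.c2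
  have dk : Differentiable ℝ k := hkc.differentiable (by norm_num)
  have du : Differentiable ℝ u := hu.c2.differentiable (by norm_num)
  have hpd : ∀ i x, pd i u x = e i * k x := by
    intro i x
    have h2 := h1 (Pi.single i 1 - e i • e) (by
      have : ∀ j, (Pi.single i 1 - e i • e : Fin n → ℝ) j * e j
          = (Pi.single i 1 : Fin n → ℝ) j * e j - e i * e j ^ 2 := by
        intro j; simp only [Pi.sub_apply, Pi.smul_apply, smul_eq_mul]; ring
      simp_rw [this]
      rw [Finset.sum_sub_distrib, ← Finset.mul_sum, he]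
      simp [Pi.single_apply]) x
    unfold dd at h2
    have h3 : ∀ j, (Pi.single i 1 - e i • e : Fin n → ℝ) j * pd j u x
        = (Pi.single i 1 : Fin n → ℝ) j * pd j u x - e i * (e j * pd j u x) := by
      intro j; simp only [Pi.sub_apply, Pi.smul_apply, smul_eq_mul]; ring
    simp_rw [h3] at h2
    rw [Finset.sum_sub_distrib, ← Finset.mul_sum] at h2
    have h4 : ∑ j, (Pi.single i 1 : Fin n → ℝ) j * pd j u x = pd i u x := by
      simp [Pi.single_apply]
    rw [h4] at h2
    have h5 : k x = ∑ j, e j * pd j u x := rfl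
    rw [h5]; linarith
  have hpdf : ∀ i, pd i u = fun x => e i * k x := fun i => funext (hpd i)
  have hpp : ∀ i j x, pd j (pd i u) x = e i * pd j k x := by
    intro i j x
    rw [hpdf, pd_mul (f := fun _ => e i) (by fun_prop) (dk x), pd_const]; ring
  have hkj : ∀ j x, pd j k x = e j * dd e k x := by
    intro j x
    have h2 : ∀ i, e i * (e i * pd j k x) = e j * (e i * pd i k x) := by
      intro i
      have h3 := pd_comm (i := j) (j := i) (x := x) hu.c2
      rw [hpp, hpp] at h3
      rw [h3]; ring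
    have h4 : ∑ i, e i * (e i * pd j k x) = ∑ i, e j * (e i * pd i k x) :=
      Finset.sum_congr rfl fun i _ => h2 i
    have h5 : ∑ i, e i * (e i * pd j k x) = pd j k x := by
      have : ∀ i, e i * (e i * pd j k x) = e i ^ 2 * pd j k x := fun i => by ring
      simp_rw [this]
      rw [← Finset.sum_mul, he, one_mul]
    rw [h5, ← Finset.mul_sum] at h4
    exact h4
  have hode : ∀ x, dd e k x = u x ^ 3 - u x := by
    intro x
    rw [← hu.eq x]
    unfold dd
    refine Finset.sum_congr rfl fun i _ => ?_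
    rw [hpp]
  -- derivative of the deficit
  have hdef : ∀ x, defi u x = psi u x ^ 2 / 2 - k x ^ 2 := by
    intro x
    unfold defi
    have : ∑ i, pd i u x ^ 2 = k x ^ 2 := by
      simp_rw [hpd, mul_pow]
      rw [← Finset.sum_mul, he, one_mul]
    rw [this]
  have dpsi : Differentiable ℝ (psi u) := hu.psi_contDiff.differentiable (by norm_num)
  have hdd : ∀ j x, pd j (defi u) x = 0 := by
    intro j x
    have e0 : defi u = fun x => (1 / 2) * psi u x ^ 2 - k x ^ 2 := by
      funext x; rw [hdef]; ring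
    rw [e0, pd_sub (((dpsi x).fun_pow 2).const_mul _) ((dk x).fun_pow 2),
      pd_mul (f := fun _ => (1 / 2 : ℝ)) (by fun_prop) ((dpsi x).fun_pow 2), pd_const,
      pd_sq (dpsi x), pd_sq (dk x), hu.pd_psi, hkj, hode, hpd]
    unfold psi
    ring
  have ddef : Differentiable ℝ (defi u) := by
    have e0 : defi u = fun x => (1 / 2) * psi u x ^ 2 - k x ^ 2 := by
      funext x; rw [hdef]; ring
    rw [e0]
    exact fun x => (((dpsi x).fun_pow 2).const_mul _).sub ((dk x).fun_pow 2)
  have hder : ∀ t : ℝ, HasDerivAt (fun t : ℝ => defi u (0 + t • x)) 0 t := by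
    intro t
    have h2 := hasDerivAt_dd ddef 0 x t
    have h3 : dd x (defi u) (0 + t • x) = 0 := by
      unfold dd
      simp [hdd]
    rwa [h3] at h2
  have h3 := is_const_of_deriv_eq_zero (fun t => (hder t).differentiableAt)
    (fun t => (hder t).deriv) 1 0
  simpa using h3

/-- One-dimensional `DStab` solutions have vanishing deficit. -/
theorem defi_zero_of_one_dim (hn : 0 < n) {e : Fin n → ℝ} (he : ∑ i, e i ^ 2 = 1) (hu : DStab u)
    (h1 : ∀ a : Fin n → ℝ, ∑ i, a i * e i = 0 → ∀ x, dd a u x = 0) (x : Fin n → ℝ) :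
    defi u x = 0 := by
  rw [defi_const_of_one_dim he hu.toSol h1 x]
  by_contra hne
  set c : ℝ := defi u 0 with hc
  have hc0 : 0 < c := lt_of_le_of_ne (hu.toSol.defi_nonneg 0) (Ne.symm hne)
  have hcx : ∀ x, defi u x = c := fun x => defi_const_of_one_dim he hu.toSol h1 x
  have hpc : ∀ x, c ≤ psi u x := by
    intro x
    have h2 := defi_le u x
    rw [hcx] at h2
    have h3 := hu.toSol.psi_nonneg x
    have h4 := psi_le_one u x
    nlinarith
  have hmd : MeanDef u (Finset.univ : Finset (Fin n)) :=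
    meanDef_of_growth hu hn (growth_of_card hu.toSol (by simp))
  obtain ⟨M0, hM0⟩ := hmd 1 (c ^ 2 / 2) (by positivity)
  set M : ℝ := max M0 1 with hM
  have hM1 : 1 ≤ M := le_max_right _ _
  have h2 := hM0 M (le_max_left _ _)
  have h3 : c ^ 2 * (2 * M) ^ n ≤ ∫ x in bxL (Finset.univ : Finset (Fin n)) M 1,
      psi u x * defi u x := by
    have hv := volume_bxL (Λ := (Finset.univ : Finset (Fin n))) (M := M) (R := 1)
      (by linarith) (by norm_num)
    calc c ^ 2 * (2 * M) ^ n = ∫ _x in bxL (Finset.univ : Finset (Fin n)) M 1, c ^ 2 := by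
          rw [setIntegral_const, smul_eq_mul, Measure.real, hv]
          simp; ring
      _ ≤ _ := by
          apply setIntegral_mono_on
          · exact integrableOn_const isCompact_bxL.measure_lt_top.ne
          · exact hu.toSol.psi_defi_continuous.continuousOn.integrableOn_compact isCompact_bxL
          · exact isCompact_bxL.measurableSet
          · intro x _
            rw [hcx]
            have := hpc x
            nlinarith
  have h4 : (1:ℝ) ≤ 2 ^ n := one_le_pow₀ (by norm_num)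
  have h5 : c ^ 2 / 2 * M ^ n < c ^ 2 * (2 * M) ^ n := by
    rw [mul_pow]
    have h6 : 0 < M ^ n := by positivity
    have h7 : M ^ n ≤ 2 ^ n * M ^ n := by nlinarith
    nlinarith [sq_nonneg c, mul_pos hc0 hc0]
  simp only [Finset.card_univ, Fintype.card_fin] at h2
  linarith

lemma gp_eq_tanh (s : ℝ) : gp s = Real.tanh (s / √2) := by
  have h1 : √2 * s = 2 * (s / √2) := by
    have h2 : √2 ^ 2 = 2 := Real.sq_sqrt (by norm_num)
    have h3 : (0:ℝ) < √2 := by positivity
    field_simp
    linear_combination s * h2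
  unfold gp
  rw [h1, Real.tanh_eq_sinh_div_cosh, Real.sinh_eq, Real.cosh_eq]
  set t : ℝ := s / √2 with ht
  have h4 : Real.exp (2 * t) = Real.exp t * Real.exp t := by rw [two_mul, Real.exp_add]
  have h5 : Real.exp (-t) = (Real.exp t)⁻¹ := Real.exp_neg t
  have h6 := Real.exp_pos t
  rw [h4, h5]
  field_simp
  ring

/-- Closed form of one-dimensional monotone solutions. -/
theorem closed_form (hn : 0 < n) {e : Fin n → ℝ} (he : ∑ i, e i ^ 2 = 1) (hu : Sol u)
    (hpos : ∀ x, 0 < pd q u x) {h : ℝ → ℝ} (h1 : ∀ x, u x = h (∑ i, e i * x i)) :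
    ∃ ν : Fin n → ℝ, ∑ i, ν i ^ 2 = 1 ∧ ∃ c : ℝ, ∀ x,
      u x = Real.tanh ((∑ i, ν i * x i - c) / √2) := by
  have hdd : ∀ x, 0 < dd (Pi.single q 1) u x := by
    intro x
    unfold dd
    simpa [Pi.single_apply] using hpos x
  have hDS : DStab u := DStab.of_dir hu hdd
  have hD := defi_zero_of_one_dim hn he hDS (fun a ha x => dd_zero_of_one_dim hu h1 ha x)
  rcases rigid_form hu hD with h2 | h2 | ⟨ν, hν, -, c, hc⟩
  · exfalso
    have h3 : u = fun _ => 1 := funext h2
    have h4 := hpos 0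
    rw [h3, pd_const] at h4
    exact lt_irrefl _ h4
  · exfalso
    have h3 : u = fun _ => -1 := funext h2
    have h4 := hpos 0
    rw [h3, pd_const] at h4
    exact lt_irrefl _ h4
  · refine ⟨ν, hν, -c, fun x => ?_⟩
    rw [hc, gp_eq_tanh, sub_neg_eq_add]

/-- The case of limits `±1` (Savin's case) in coordinates. -/
def SavinCase (n : ℕ) (q : Fin n) : Prop :=
  ∀ u : (Fin n → ℝ) → ℝ, Sol u → (∀ x, 0 < pd q u x) →
    (∀ x, Tendsto (fun t : ℝ => u (x + t • Pi.single q 1)) atTop (𝓝 1)) →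
    (∀ x, Tendsto (fun t : ℝ => u (x + t • Pi.single q 1)) atBot (𝓝 (-1))) →
    ∃ ν : Fin n → ℝ, ∑ i, ν i ^ 2 = 1 ∧ ∃ h : ℝ → ℝ, ∀ x, u x = h (∑ i, ν i * x i)

theorem final_coord (hn : n ≤ 4) (hP : ProfRigid n q) (hS : SavinCase n q) (hu : Sol u)
    (hpos : ∀ x, 0 < pd q u x) :
    ∃ ν : Fin n → ℝ, ∑ i, ν i ^ 2 = 1 ∧ ∃ c : ℝ, ∀ x,
      u x = Real.tanh ((∑ i, ν i * x i - c) / √2) := by
  obtain ⟨h1, h2⟩ := struct hn hP hu hpos
  obtain ⟨ν, hν, h, hh⟩ := hS u hu hpos h1 h2
  exact closed_form (lt_of_le_of_lt (Nat.zero_le _) q.isLt) hν hu hpos hh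

/-- Euclidean form of the final statement. -/
theorem final_euclid (hn : n ≤ 4) (hP : ProfRigid n q) (hS : SavinCase n q)
    {u : EuclideanSpace ℝ (Fin n) → ℝ} (hu : ContDiff ℝ 2 u)
    (heq : ∀ x, Δ u x = u x ^ 3 - u x) (hb : ∀ x, |u x| ≤ 1)
    {a : EuclideanSpace ℝ (Fin n)} (ha : ∀ x, 0 < fderiv ℝ u x a) :
    ∃ (e : EuclideanSpace ℝ (Fin n)) (c : ℝ), ‖e‖ = 1 ∧
      ∀ x, u x = Real.tanh ((⟪e, x⟫_ℝ - c) / √2) := by
  classical
  have ha0 : a ≠ 0 := by
    rintro rfl
    have := ha 0
    simp at this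
  have hna : 0 < ‖a‖ := norm_pos_iff.mpr ha0
  -- adapted basis
  obtain ⟨b, hb2⟩ : ∃ b : OrthonormalBasis (Fin n) ℝ (EuclideanSpace ℝ (Fin n)),
      b q = ‖a‖⁻¹ • a := by
    have hVo : Orthonormal ℝ (({q} : Set (Fin n)).restrict
        (fun _ : Fin n => ‖a‖⁻¹ • a)) := by
      constructor
      · rintro ⟨i, hi⟩
        show ‖‖a‖⁻¹ • a‖ = 1
        rw [norm_smul, norm_inv, norm_norm, inv_mul_cancel₀ hna.ne']
      · rintro ⟨i, hi⟩ ⟨j, hj⟩ hij
        exact absurd (Subtype.ext ((hi : i = q).trans (hj : j = q).symm)) hij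
    obtain ⟨b, hb⟩ := hVo.exists_orthonormalBasis_extension_of_card_eq (by simp)
    exact ⟨b, hb q (by simp)⟩
  have hs := sol_of_euclidean hu heq hb b 0
  have du : Differentiable ℝ u := hu.differentiable (by norm_num)
  have hpos : ∀ y, 0 < pd q (fun y => u (0 + coordMap b y)) y := by
    intro y
    rw [pd_coord_comp du b 0 q y, hb2, map_smul, smul_eq_mul]
    exact mul_pos (inv_pos.mpr hna) (ha _)
  obtain ⟨ν, hν, c, hc⟩ := final_coord hn hP hS hs hpos
  refine ⟨∑ i, ν i • b i, c, ?_, fun x => ?_⟩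
  · have h1 : ‖∑ i, ν i • b i‖ ^ 2 = 1 := by
      rw [← real_inner_self_eq_norm_sq, sum_inner]
      simp_rw [inner_sum, inner_smul_left, inner_smul_right, b.inner_eq_ite]
      simp only [mul_ite, mul_one, mul_zero, Finset.sum_ite_eq, Finset.mem_univ, if_true,
        conj_trivial]
      rw [← hν]
      refine Finset.sum_congr rfl fun i _ => by ring
    have h2 : 0 ≤ ‖∑ i, ν i • b i‖ := norm_nonneg _
    nlinarith
  · have h1 := hc (fun i => ⟪b i, x - 0⟫_ℝ)
    rw [coordMap_repr] at h1
    rw [h1]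
    congr 2
    rw [sum_inner]
    congr 1
    refine Finset.sum_congr rfl fun i _ => ?_
    rw [inner_smul_left, sub_zero]
    simp

end Vale.Agent.P134.H765
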