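import Vale.Agent.P134.H891.Liou

set_option linter.all false

/-! Structure of the limit profiles: if limit profiles of monotone solutions are rigid, then in
dimension at most four monotone solutions have the limits `±1`. -/

namespace Vale.Agent.P134.H765

open Vale.Agent.P134 Vale.Agent.P134.H891 MeasureTheory Filter Topology
open scoped InnerProductSpace

variable {n : ℕ} {f g u v w U : (Fin n → ℝ) → ℝ} {x : Fin n → ℝ} {i j p q : Fin n}

/-! ### Rotations -/

/-- Change of coordinates by an orthonormal basis. -/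
noncomputable def rot (b : OrthonormalBasis (Fin n) ℝ (EuclideanSpace ℝ (Fin n))) (y : Fin n → ℝ) :
    Fin n → ℝ := fun k => ∑ i, y i * (b i) k

lemma rot_eq_sum (b : OrthonormalBasis (Fin n) ℝ (EuclideanSpace ℝ (Fin n))) (y : Fin n → ℝ) :
    rot b y = ∑ i, y i • (fun k => (b i) k : Fin n → ℝ) := by
  funext k
  simp [rot, Finset.sum_apply]

lemma rot_add (b : OrthonormalBasis (Fin n) ℝ (EuclideanSpace ℝ (Fin n))) (y z : Fin n → ℝ) :
    rot b (y + z) = rot b y + rot b z := by
  funext k
  simp only [rot, Pi.add_apply, add_mul, Finset.sum_add_distrib]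

lemma rot_smul_single (b : OrthonormalBasis (Fin n) ℝ (EuclideanSpace ℝ (Fin n))) (t : ℝ)
    (i : Fin n) : rot b (t • Pi.single i 1) = t • (fun k => (b i) k : Fin n → ℝ) := by
  funext k
  simp only [rot, Pi.smul_apply, smul_eq_mul, Pi.single_apply, mul_ite, mul_one, mul_zero,
    ite_mul, zero_mul, Finset.sum_ite_eq', Finset.mem_univ, if_true]

lemma hasFDerivAt_rot (b : OrthonormalBasis (Fin n) ℝ (EuclideanSpace ℝ (Fin n)))
    (z y : Fin n → ℝ) :
    HasFDerivAt (fun y => rot b y + z) (∑ i, (ContinuousLinearMap.proj (R := ℝ)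
      (φ := fun _ : Fin n => ℝ) i).smulRight (fun k => (b i) k : Fin n → ℝ)) y := by
  have h : (fun y : Fin n → ℝ => rot b y + z) = fun y => (∑ i, (ContinuousLinearMap.proj (R := ℝ)
      (φ := fun _ : Fin n => ℝ) i).smulRight (fun k => (b i) k : Fin n → ℝ)) y + z := by
    funext y
    rw [rot_eq_sum]
    simp only [sum_apply, ContinuousLinearMap.smulRight_apply, ContinuousLinearMap.proj_apply]
  rw [h]
  exact (ContinuousLinearMap.hasFDerivAt _).add_const z

lemma contDiff_rot {k : WithTop ℕ∞} (b : OrthonormalBasis (Fin n) ℝ (EuclideanSpace ℝ (Fin n)))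
    (z : Fin n → ℝ) : ContDiff ℝ k (fun y => rot b y + z) := by
  apply contDiff_pi.mpr
  intro k
  simp only [Pi.add_apply, rot]
  fun_prop

lemma pd_rot (hv : Differentiable ℝ v) (b : OrthonormalBasis (Fin n) ℝ (EuclideanSpace ℝ (Fin n)))
    (z : Fin n → ℝ) (i : Fin n) (y : Fin n → ℝ) :
    pd i (fun y => v (rot b y + z)) y = dd (fun k => (b i) k) v (rot b y + z) := by
  have h1 := (hv (rot b y + z)).hasFDerivAt.comp y (hasFDerivAt_rot b z y)
  rw [dd_eq_fderiv]
  unfold pd
  rw [show (fun y => v (rot b y + z)) = v ∘ fun y => rot b y + z from rfl, h1.fderiv]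
  simp only [ContinuousLinearMap.comp_apply, sum_apply, ContinuousLinearMap.smulRight_apply,
    ContinuousLinearMap.proj_apply]
  congr 1
  rw [Finset.sum_eq_single i]
  · simp
  · intro j _ hj; simp [hj]
  · intro h; exact absurd (Finset.mem_univ i) h

lemma sum_basis (b : OrthonormalBasis (Fin n) ℝ (EuclideanSpace ℝ (Fin n))) (k l : Fin n) :
    ∑ i, (b i) k * (b i) l = if k = l then 1 else 0 := by
  have h := b.sum_inner_mul_inner (EuclideanSpace.single k (1:ℝ)) (EuclideanSpace.single l (1:ℝ))
  simp only [EuclideanSpace.inner_single_left, EuclideanSpace.inner_single_right, map_one, one_mul,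
    conj_trivial] at h
  rw [h]
  simp only [EuclideanSpace.single_apply, eq_comm]

theorem Sol.rot (hv : Sol v) (b : OrthonormalBasis (Fin n) ℝ (EuclideanSpace ℝ (Fin n)))
    (z : Fin n → ℝ) : Sol (fun y => v (rot b y + z)) where
  c2 := hv.c2.comp (contDiff_rot b z)
  bd := fun y => hv.bd _
  eq := fun y => by
    have dv : Differentiable ℝ v := hv.c2.differentiable (by norm_num)
    have ddv : ∀ e, Differentiable ℝ (dd e v) := fun e =>
      (dd_contDiff hv.c2).differentiable (by norm_num)
    have e1 : ∀ i, pd i (fun y => v (H765.rot b y + z))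
        = fun y => dd (fun k => (b i) k) v (H765.rot b y + z) := fun i =>
      funext fun y => pd_rot dv b z i y
    have e2 : ∀ i, pd i (pd i (fun y => v (H765.rot b y + z))) y
        = ∑ k, ∑ l, (b i) k * (b i) l * pd k (pd l v) (H765.rot b y + z) := by
      intro i
      rw [e1, pd_rot (ddv _) b z i y]
      unfold dd
      refine Finset.sum_congr rfl fun k _ => ?_
      have := pd_dd (e := fun k => (b i) k) hv.c2 k (H765.rot b y + z)
      unfold dd at this
      rw [this, Finset.mul_sum]
      refine Finset.sum_congr rfl fun l _ => by ring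
    simp_rw [e2]
    rw [Finset.sum_comm]
    have e3 : ∀ k, ∑ i, ∑ l, (b i) k * (b i) l * pd k (pd l v) (H765.rot b y + z)
        = pd k (pd k v) (H765.rot b y + z) := by
      intro k
      rw [Finset.sum_comm]
      have : ∀ l, ∑ i, (b i) k * (b i) l * pd k (pd l v) (H765.rot b y + z)
          = (if k = l then 1 else 0) * pd k (pd l v) (H765.rot b y + z) := by
        intro l
        rw [← Finset.sum_mul, sum_basis]
      simp_rw [this]
      simp
    simp_rw [e3]
    exact hv.eq _

/-- An orthonormal basis with two prescribed members. -/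
lemma exists_basis_two {a c : Fin n → ℝ} (hpq : p ≠ q) (ha : ∑ i, a i ^ 2 = 1)
    (hc : ∑ i, c i ^ 2 = 1) (hac : ∑ i, a i * c i = 0) :
    ∃ b : OrthonormalBasis (Fin n) ℝ (EuclideanSpace ℝ (Fin n)),
      (∀ k, (b p) k = a k) ∧ (∀ k, (b q) k = c k) := by
  classical
  set a' : EuclideanSpace ℝ (Fin n) := WithLp.toLp 2 a with ha'
  set c' : EuclideanSpace ℝ (Fin n) := WithLp.toLp 2 c with hc'
  have hna : ‖a'‖ = 1 := by
    rw [EuclideanSpace.norm_eq]
    simp only [ha', Real.norm_eq_abs, sq_abs, ha, Real.sqrt_one]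
  have hnc : ‖c'‖ = 1 := by
    rw [EuclideanSpace.norm_eq]
    simp only [hc', Real.norm_eq_abs, sq_abs, hc, Real.sqrt_one]
  have hin : ⟪a', c'⟫_ℝ = 0 := by
    rw [PiLp.inner_apply]
    simp only [ha', hc', RCLike.inner_apply, conj_trivial]
    rw [← hac]
    refine Finset.sum_congr rfl fun i _ => by ring
  set V : Fin n → EuclideanSpace ℝ (Fin n) := fun i => if i = p then a' else c' with hV
  have hVo : Orthonormal ℝ (({p, q} : Set (Fin n)).restrict V) := by
    constructor
    · rintro ⟨i, hi⟩
      show ‖V i‖ = 1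
      by_cases h : i = p
      · simp only [hV, if_pos h, hna]
      · simp only [hV, if_neg h, hnc]
    · rintro ⟨i, hi⟩ ⟨j, hj⟩ hij
      have hij' : i ≠ j := fun h => hij (Subtype.ext h)
      show ⟪V i, V j⟫_ℝ = 0
      have hi' : i = p ∨ i = q := hi
      have hj' : j = p ∨ j = q := hj
      rcases hi' with h1 | h1 <;> rcases hj' with h2 | h2
      · exact absurd (h1.trans h2.symm) hij'
      · simp only [hV, if_pos h1, h2, if_neg hpq.symm]; exact hin
      · simp only [hV, if_pos h2, h1, if_neg hpq.symm]; rw [real_inner_comm]; exact hin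
      · exact absurd (h1.trans h2.symm) hij'
  obtain ⟨b, hb⟩ := hVo.exists_orthonormalBasis_extension_of_card_eq (by simp)
  refine ⟨b, fun k => ?_, fun k => ?_⟩
  · rw [hb p (by simp)]; simp [hV, ha']
  · rw [hb q (by simp)]; simp [hV, hc', hpq.symm]

/-! ### The closed form of rigid profiles -/

/-- A solution with vanishing deficit is `±1` or a translate of the profile. -/
theorem rigid_form (hU : Sol U) (hD : ∀ x, defi U x = 0) :
    (∀ x, U x = 1) ∨ (∀ x, U x = -1) ∨
      ∃ ν : Fin n → ℝ, ∑ i, ν i ^ 2 = 1 ∧ (∀ x i, pd i U x = ν i * (psi U x / √2)) ∧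
        ∃ c : ℝ, ∀ x, U x = gp (∑ i, ν i * x i + c) := by
  rcases hU.rigid hD with h0 | ⟨ν, hν, hpd⟩
  · have h1 : U 0 = 1 ∨ U 0 = -1 := by
      have := h0 0
      unfold psi at this
      have h2 : (1 - U 0) * (1 + U 0) = 0 := by linarith
      rcases mul_eq_zero.mp h2 with h3 | h3
      · left; linarith
      · right; linarith
    rcases h1 with h1 | h1
    · left; exact hU.eq_one h1
    · right; left; exact hU.eq_neg_one h1
  · by_cases hps : ∀ x, psi U x = 0
    · have h1 : U 0 = 1 ∨ U 0 = -1 := by
        have := hps 0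
        unfold psi at this
        have h2 : (1 - U 0) * (1 + U 0) = 0 := by linarith
        rcases mul_eq_zero.mp h2 with h3 | h3
        · left; linarith
        · right; linarith
      rcases h1 with h1 | h1
      · left; exact hU.eq_one h1
      · right; left; exact hU.eq_neg_one h1
    right; right
    refine ⟨ν, hν, hpd, ?_⟩
    have hpos : ∀ x, 0 < psi U x := (hU.psi_dichotomy).resolve_left hps
    have hlt : ∀ x, 0 < 1 + U x ∧ 0 < 1 - U x := by
      intro x
      have h1 := hpos x
      have hb := abs_le.mp (hU.bd x)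
      unfold psi at h1
      constructor
      · rcases hb.1.lt_or_eq with h2 | h2
        · linarith
        · rw [← h2] at h1; norm_num at h1
      · rcases hb.2.lt_or_eq with h2 | h2
        · linarith
        · rw [h2] at h1; norm_num at h1
    set s2 : ℝ := √2 with hs2
    have hs2p : 0 < s2 := by positivity
    have hs2s : s2 ^ 2 = 2 := Real.sq_sqrt (by norm_num)
    -- the function `log (1+U) - log (1-U)` is affine
    set L : (Fin n → ℝ) → ℝ := fun x => Real.log (1 + U x) - Real.log (1 - U x) with hL
    have dU : Differentiable ℝ U := hU.c2.differentiable (by norm_num)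
    have dL : Differentiable ℝ L := fun x =>
      (((dU x).const_add 1).log (hlt x).1.ne').sub (((dU x).const_sub 1).log (hlt x).2.ne')
    have hpL : ∀ i x, pd i L x = s2 * ν i := by
      intro i x
      have hd := dU x
      have p1 := (hlt x).1
      have p2 := (hlt x).2
      have d1 : DifferentiableAt ℝ (fun y => 1 + U y) x := hd.const_add 1
      have d2 : DifferentiableAt ℝ (fun y => 1 - U y) x := hd.const_sub 1
      have e1 : pd i (fun y => 1 + U y) x = pd i U x := by
        rw [pd_add (by fun_prop) hd, pd_const, zero_add]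
      have e2 : pd i (fun y => 1 - U y) x = - pd i U x := by
        rw [pd_sub (by fun_prop) hd, pd_const, zero_sub]
      rw [hL, pd_sub (d1.log p1.ne') (d2.log p2.ne'),
        pd_comp (h := Real.log) (Real.differentiableAt_log p1.ne') d1,
        pd_comp (h := Real.log) (Real.differentiableAt_log p2.ne') d2, e1, e2,
        Real.deriv_log, Real.deriv_log, hpd]
      have p3 : psi U x = (1 + U x) * (1 - U x) := by unfold psi; ring
      rw [p3]
      field_simp
      linear_combination (-ν i) * hs2s
    have haff : ∀ x, L x = s2 * ∑ i, ν i * x i + L 0 := by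
      intro x
      have hder : ∀ t : ℝ, HasDerivAt (fun t : ℝ => L (0 + t • x)) (s2 * ∑ i, ν i * x i) t := by
        intro t
        have h1 := hasDerivAt_dd dL 0 x t
        have h2 : dd x L (0 + t • x) = s2 * ∑ i, ν i * x i := by
          unfold dd
          simp_rw [hpL]
          rw [Finset.mul_sum]
          refine Finset.sum_congr rfl fun i _ => by ring
        rwa [h2] at h1
      have hder2 : ∀ t : ℝ, HasDerivAt (fun t : ℝ => L (0 + t • x) - t * (s2 * ∑ i, ν i * x i)) 0 t := by
        intro t
        have h1 := (hder t).fun_sub ((hasDerivAt_id t).mul_const (s2 * ∑ i, ν i * x i))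
        refine h1.congr_deriv ?_
        ring
      have h3 := is_const_of_deriv_eq_zero (fun t => (hder2 t).differentiableAt)
        (fun t => (hder2 t).deriv) 1 0
      simp only [one_smul, zero_smul, zero_add, one_mul, zero_mul, sub_zero] at h3
      linarith
    refine ⟨L 0 / s2, fun x => ?_⟩
    have h1 : (1 + U x) = Real.exp (L x) * (1 - U x) := by
      rw [hL]
      simp only
      rw [Real.exp_sub, Real.exp_log (hlt x).1, Real.exp_log (hlt x).2]
      field_simp [(hlt x).2.ne']
    have h2 : L x = s2 * (∑ i, ν i * x i + L 0 / s2) := by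
      rw [haff x]; field_simp
    unfold gp
    rw [← h2]
    have h3 := Real.exp_pos (L x)
    field_simp
    linarith

/-! ### Odd reflection -/

/-- The odd reflection of a solution. -/
lemma Sol.odd (hu : Sol u) : Sol (fun x => - u (-x)) := by
  have hneg : ∀ (w : (Fin n → ℝ) → ℝ), Differentiable ℝ w → ∀ i y,
      pd i (fun x => w (-x)) y = - pd i w (-y) := by
    intro w hw i y
    have h := pd_comp_diag (w := w) 0 (-ContinuousLinearMap.id ℝ (Fin n → ℝ)) (fun _ => -1)
      (fun i => by simp) (y := y) (i := i) (by simpa using hw _)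
    simpa using h
  have du : Differentiable ℝ u := hu.c2.differentiable (by norm_num)
  refine ⟨(hu.c2.comp contDiff_neg).neg, fun x => by rw [abs_neg]; exact hu.bd _, fun x => ?_⟩
  have e0 : (fun x => - u (-x)) = fun x => - (fun y => u (-y)) x := rfl
  have e1 : ∀ i, pd i (fun x => - u (-x)) = fun x => pd i u (-x) := by
    intro i; funext y
    rw [pd_neg, hneg u du i y, neg_neg]
  have e2 : ∀ i, pd i (pd i (fun x => - u (-x))) x = - pd i (pd i u) (-x) := by
    intro i
    rw [e1, hneg _ ((contDiff_pd_one hu.c2).differentiable (by norm_num)) i x]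
  simp_rw [e2]
  rw [Finset.sum_neg_distrib, hu.eq]
  ring

lemma pd_odd (hu : Sol u) (i : Fin n) (x : Fin n → ℝ) :
    pd i (fun x => - u (-x)) x = pd i u (-x) := by
  have h := pd_comp_diag (w := u) 0 (-ContinuousLinearMap.id ℝ (Fin n → ℝ)) (fun _ => -1)
      (fun i => by simp) (y := x) (i := i)
      (by simpa using (hu.c2.differentiable (by norm_num)) _)
  rw [pd_neg]
  simp at h
  rw [h, neg_neg]

lemma gp_neg (s : ℝ) : gp (-s) = - gp s := by
  unfold gp
  have h := Real.exp_pos (√2 * s)
  have e : Real.exp (√2 * -s) = (Real.exp (√2 * s))⁻¹ := by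
    rw [mul_neg, Real.exp_neg]
  rw [e]
  field_simp
  ring

/-- A linear function bounded above vanishes. -/
lemma lin_zero {a : Fin n → ℝ} {c : ℝ} (h : ∀ x : Fin n → ℝ, ∑ i, a i * x i ≤ c) : a = 0 := by
  by_contra ha
  have h1 : 0 < ∑ i, a i ^ 2 := by
    apply lt_of_le_of_ne (Finset.sum_nonneg fun i _ => sq_nonneg _)
    intro h0
    apply ha
    funext i
    have := (Finset.sum_eq_zero_iff_of_nonneg (fun i _ => sq_nonneg (a i))).mp h0.symm i
      (Finset.mem_univ i)
    exact pow_eq_zero_iff (two_ne_zero) |>.mp this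
  have h2 := h (((|c| + 1) / ∑ i, a i ^ 2) • a)
  have h3 : ∑ i, a i * (((|c| + 1) / ∑ i, a i ^ 2) • a) i = |c| + 1 := by
    have : ∀ i, a i * (((|c| + 1) / ∑ i, a i ^ 2) • a) i = ((|c| + 1) / ∑ i, a i ^ 2) * a i ^ 2 := by
      intro i; simp only [Pi.smul_apply, smul_eq_mul]; ring
    simp_rw [this]
    rw [← Finset.mul_sum, div_mul_cancel₀ _ h1.ne']
  rw [h3] at h2
  have := le_abs_self c
  linarith

/-- Rigidity of the limit profiles of monotone solutions in the direction `q`. -/
def ProfRigid (n : ℕ) (q : Fin n) : Prop :=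
  ∀ u U : (Fin n → ℝ) → ℝ, Sol u → (∀ x, 0 < pd q u x) → Sol U →
    (∀ x, Tendsto (fun t : ℝ => u (x + t • Pi.single q 1)) atTop (𝓝 (U x))) →
    ∀ x, defi U x = 0

/-- Upper profile: either identically one or a translate of the profile in a horizontal
direction. -/
theorem upper_profile (hP : ProfRigid n q) (hu : Sol u) (hpos : ∀ x, 0 < pd q u x) :
    (∀ x, Tendsto (fun t : ℝ => u (x + t • Pi.single q 1)) atTop (𝓝 1)) ∨
      ∃ ν : Fin n → ℝ, ∑ i, ν i ^ 2 = 1 ∧ ν q = 0 ∧ ∃ c : ℝ,
        ∀ x, Tendsto (fun t : ℝ => u (x + t • Pi.single q 1)) atTop (𝓝 (gp (∑ i, ν i * x i + c))) := by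
  obtain ⟨U, hU, hlim, -, -, htr⟩ := hu.exists_profile q hpos
  have hD := hP u U hu hpos hU hlim
  rcases rigid_form hU hD with h1 | h1 | ⟨ν, hν, hpd, c, hc⟩
  · left
    intro x
    have h2 := hlim x
    rwa [h1 x] at h2
  · exfalso
    have hle : ∀ x, u x ≤ -1 := by
      intro x
      have h2 := (line_mono hu hpos x).ge_of_tendsto (hlim x) 0
      rw [h1] at h2
      simpa using h2
    have h2 : ∀ x, u x = -1 := fun x => le_antisymm (hle x) (abs_le.mp (hu.bd x)).1
    have h3 : u = fun _ => -1 := funext h2
    have h4 := hpos 0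
    rw [h3, pd_const] at h4
    exact lt_irrefl _ h4
  · right
    have hpd0 : ∀ x, pd q U x = 0 := by
      intro x
      have h1 := hasDerivAt_dir (w := U) (x := x) (v := Pi.single q 1) (s := 0)
        ((hU.c2.differentiable (by norm_num)) _)
      have h2 : (fun s : ℝ => U (x + s • Pi.single q 1)) = fun _ => U x := by
        funext s; exact htr x s
      rw [h2] at h1
      have h3 := h1.unique (hasDerivAt_const 0 (U x))
      unfold pd
      simpa using h3
    have hνq : ν q = 0 := by
      have h1 := hpd 0 q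
      rw [hpd0] at h1
      have h2 : 0 < psi U 0 := by
        unfold psi
        rw [hc]
        have h3 := gp_lt_one (∑ i, ν i * (0 : Fin n → ℝ) i + c)
        have h4 := neg_one_lt_gp (∑ i, ν i * (0 : Fin n → ℝ) i + c)
        nlinarith
      have h3 : psi U 0 / √2 ≠ 0 := by positivity
      rcases mul_eq_zero.mp h1.symm with h4 | h4
      · exact h4
      · exact absurd h4 h3
    refine ⟨ν, hν, hνq, c, fun x => ?_⟩
    rw [← hc]; exact hlim x

/-- Reduction to the normal form of the mixed case. -/
theorem mixed_contra (hn : n ≤ 4) (hu : Sol u) (hpos : ∀ x, 0 < pd q u x)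
    {ν : Fin n → ℝ} (hν : ∑ i, ν i ^ 2 = 1) (hνq : ν q = 0) {c : ℝ}
    (hlim : ∀ x, Tendsto (fun t : ℝ => u (x + t • Pi.single q 1)) atTop
      (𝓝 (gp (∑ i, ν i * x i + c))))
    (hlow : (∀ x, Tendsto (fun t : ℝ => u (x + t • Pi.single q 1)) atBot (𝓝 (-1))) ∨
      ∃ c' : ℝ, ∀ x, gp (∑ i, ν i * x i + c') ≤ u x) : False := by
  classical
  obtain ⟨p, hp⟩ : ∃ p, ν p ≠ 0 := by
    by_contra h
    push Not at h
    have : ∑ i, ν i ^ 2 = 0 := Finset.sum_eq_zero fun i _ => by rw [h]; ring
    rw [this] at hν
    norm_num at hν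
  have hpq : p ≠ q := by rintro rfl; exact hp hνq
  obtain ⟨b, hbp, hbq⟩ := exists_basis_two (p := p) (q := q) (a := ν)
    (c := (Pi.single q 1 : Fin n → ℝ)) hpq hν (by simp [Pi.single_apply]) (by
      simp [Pi.single_apply, hνq])
  set z0 : Fin n → ℝ := (-c) • ν with hz0
  have hin : ∀ y : Fin n → ℝ, ∑ k, ν k * (rot b y + z0) k = y p - c := by
    intro y
    simp only [Pi.add_apply, mul_add, Finset.sum_add_distrib, rot]
    have e1 : ∑ k, ν k * ∑ i, y i * (b i) k = y p := by
      have e2 : ∀ i, ∑ k, ν k * (b i) k = if i = p then 1 else 0 := by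
        intro i
        have h1 := b.inner_eq_ite i p
        rw [PiLp.inner_apply] at h1
        simp only [RCLike.inner_apply, conj_trivial, hbp] at h1
        exact h1
      calc ∑ k, ν k * ∑ i, y i * (b i) k = ∑ k, ∑ i, y i * (ν k * (b i) k) := by
            refine Finset.sum_congr rfl fun k _ => ?_
            rw [Finset.mul_sum]
            refine Finset.sum_congr rfl fun i _ => by ring
        _ = ∑ i, y i * ∑ k, ν k * (b i) k := by
            rw [Finset.sum_comm]
            refine Finset.sum_congr rfl fun i _ => by rw [Finset.mul_sum]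
        _ = y p := by simp_rw [e2]; simp
    have e3 : ∑ k, ν k * z0 k = -c := by
      have : ∀ k, ν k * z0 k = -c * ν k ^ 2 := by
        intro k; simp only [hz0, Pi.smul_apply, smul_eq_mul]; ring
      simp_rw [this]
      rw [← Finset.mul_sum, hν, mul_one]
    rw [e1, e3]; ring
  have hline : ∀ (y : Fin n → ℝ) (t : ℝ), rot b (y + t • Pi.single q 1) + z0
      = (rot b y + z0) + t • Pi.single q 1 := by
    intro y t
    rw [rot_add, rot_smul_single]
    have : (fun k => (b q) k : Fin n → ℝ) = Pi.single q 1 := funext hbq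
    rw [this]
    abel
  have hmix : Mix (fun y => u (rot b y + z0)) p q := by
    refine ⟨Sol.rot hu b z0, hpq, fun y => ?_, fun y => ?_⟩
    · rw [pd_rot (hu.c2.differentiable (by norm_num)) b z0 q y]
      have : (fun k => (b q) k : Fin n → ℝ) = Pi.single q 1 := funext hbq
      rw [this]
      have e : dd (Pi.single q 1) u (rot b y + z0) = pd q u (rot b y + z0) := by
        unfold dd; simp [Pi.single_apply]
      rw [e]
      exact hpos _
    · simp_rw [hline]
      have h1 := hlim (rot b y + z0)
      rw [hin] at h1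
      simpa using h1
  refine mixed_false hn hmix ?_
  rcases hlow with h1 | ⟨c', h1⟩
  · left
    intro y
    simp_rw [hline]
    exact h1 _
  · right
    refine ⟨c - c', fun y => ?_⟩
    have h2 := h1 (rot b y + z0)
    rw [hin] at h2
    have e : y p - (c - c') = y p - c + c' := by ring
    rw [e]; exact h2

/-- Main structure theorem. -/
theorem struct (hn : n ≤ 4) (hP : ProfRigid n q) (hu : Sol u) (hpos : ∀ x, 0 < pd q u x) :
    (∀ x, Tendsto (fun t : ℝ => u (x + t • Pi.single q 1)) atTop (𝓝 1)) ∧
      (∀ x, Tendsto (fun t : ℝ => u (x + t • Pi.single q 1)) atBot (𝓝 (-1))) := by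
  -- the reflected solution
  set v : (Fin n → ℝ) → ℝ := fun x => - u (-x) with hv
  have hvs : Sol v := Sol.odd hu
  have hvpos : ∀ x, 0 < pd q v x := fun x => by rw [hv, pd_odd hu]; exact hpos _
  have hconv : ∀ {L : (Fin n → ℝ) → ℝ},
      (∀ x, Tendsto (fun t : ℝ => v (x + t • Pi.single q 1)) atTop (𝓝 (L x))) →
      ∀ x, Tendsto (fun t : ℝ => u (x + t • Pi.single q 1)) atBot (𝓝 (- L (-x))) := by
    intro L h x
    have h1 := (h (-x)).neg
    have h2 : Tendsto (fun t : ℝ => - v (-x + (-t) • Pi.single q 1)) atBot (𝓝 (- L (-x))) :=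
      h1.comp tendsto_neg_atBot_atTop
    refine h2.congr fun t => ?_
    simp only [hv, neg_neg]
    congr 1
    rw [neg_add, neg_neg, neg_smul, neg_neg]
  have hconv2 : ∀ {L : (Fin n → ℝ) → ℝ},
      (∀ x, Tendsto (fun t : ℝ => u (x + t • Pi.single q 1)) atTop (𝓝 (L x))) →
      ∀ x, Tendsto (fun t : ℝ => v (x + t • Pi.single q 1)) atBot (𝓝 (- L (-x))) := by
    intro L h x
    have h1 := (h (-x)).neg
    have h2 : Tendsto (fun t : ℝ => - u (-x + (-t) • Pi.single q 1)) atBot (𝓝 (- L (-x))) :=
      h1.comp tendsto_neg_atBot_atTop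
    refine h2.congr fun t => ?_
    simp only [hv]
    congr 2
    rw [neg_add, neg_smul]
  rcases upper_profile hP hu hpos with h1 | ⟨ν, hν, hνq, c, h1⟩
  · rcases upper_profile hP hvs hvpos with h2 | ⟨ν', hν', hνq', c', h2⟩
    · refine ⟨h1, fun x => ?_⟩
      have := hconv (L := fun _ => 1) h2 x
      simpa using this
    · exfalso
      refine mixed_contra hn hvs hvpos hν' hνq' h2 (Or.inl fun x => ?_)
      have := hconv2 (L := fun _ => 1) h1 x
      simpa using this
  · exfalso
    rcases upper_profile hP hvs hvpos with h2 | ⟨ν', hν', hνq', c', h2⟩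
    · refine mixed_contra hn hu hpos hν hνq h1 (Or.inl fun x => ?_)
      have := hconv (L := fun _ => 1) h2 x
      simpa using this
    · -- both profiles are nonconstant
      have h3 : ∀ x, gp (∑ i, ν' i * x i - c') ≤ u x := by
        intro x
        have h4 : v (-x) ≤ gp (∑ i, ν' i * (-x) i + c') := by
          have := (line_mono hvs hvpos (-x)).ge_of_tendsto (h2 (-x)) 0
          simpa using this
        simp only [hv, neg_neg] at h4
        have h5 : gp (∑ i, ν' i * x i - c') = - gp (∑ i, ν' i * (-x) i + c') := by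
          rw [← gp_neg]
          congr 1
          simp only [Pi.neg_apply, mul_neg, Finset.sum_neg_distrib]
          ring
        rw [h5]; linarith
      have h4 : ∀ x, u x ≤ gp (∑ i, ν i * x i + c) := by
        intro x
        have := (line_mono hu hpos x).ge_of_tendsto (h1 x) 0
        simpa using this
      have h5 : ∀ x : Fin n → ℝ, ∑ i, (ν' i - ν i) * x i ≤ c + c' := by
        intro x
        have h6 := gp_strictMono.le_iff_le.mp ((h3 x).trans (h4 x))
        simp only [sub_mul, Finset.sum_sub_distrib]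
        linarith
      have h6 : (fun i => ν' i - ν i) = 0 := lin_zero h5
      have h7 : ν' = ν := by
        funext i
        have := congrFun h6 i
        simp only [Pi.zero_apply] at this
        linarith
      rw [h7] at h3
      exact mixed_contra hn hu hpos hν hνq h1 (Or.inr ⟨-c', fun x => by
        have := h3 x
        rwa [sub_eq_add_neg] at this⟩)

end Vale.Agent.P134.H765
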