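import Vale.Agent.P134.H765.Q14
import Vale.Agent.P134.H491.Hyp

open Filter Topology MeasureTheory

namespace Vale.Agent.P134.H765

open Vale.Agent.P134.SM

/-- Block T4. -/
theorem stT4 : StT4 := by
  intro u U hu hq hU hlim
  have h := Vale.Agent.P134.H491.profile_hyp (q := 3) hu hq hU hlim
  have e : (fun y : Fin 3 → ℝ => U (Fin.insertNth (α := fun _ => ℝ) (3 : Fin 4) 0 y)) = res U := by
    funext y
    unfold res
    congr 1
    exact Fin.insertNth_last' (0 : ℝ) y
  rw [e] at h
  exact h

end Vale.Agent.P134.H765
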